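import Vale.Agent.P130.Stmts
import Vale.Agent.P110.Line

/-! A discrete chirp is close to a chirp of constant modulus. -/

namespace Vale.Agent.P130

open Finset MeasureTheory Vale.Agent.P110

namespace ChirpAux

theorem cont_e : Continuous fun s : ℝ => e (s ^ 2 / 2) := by fun_prop

theorem half (A : ℝ) : ∫ s in (-A)..A, e (s ^ 2 / 2) = 2 * ∫ s in (0 : ℝ)..A, e (s ^ 2 / 2) := by
  have h1 : ∫ s in (-A)..0, e (s ^ 2 / 2) = ∫ s in (0 : ℝ)..A, e (s ^ 2 / 2) := by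
    have := intervalIntegral.integral_comp_neg (a := 0) (b := A) (fun s : ℝ => e (s ^ 2 / 2))
    simp only [neg_zero, neg_sq] at this
    exact this.symm
  rw [← intervalIntegral.integral_add_adjacent_intervals (b := 0)
    (cont_e.intervalIntegrable _ _) (cont_e.intervalIntegrable _ _), h1, two_mul]

theorem two_sided (γ : ℂ) (A B : ℝ) : 2 * ‖(∫ s in (-A)..B, e (s ^ 2 / 2)) - γ‖ ≤
    ‖(∫ s in (-A)..A, e (s ^ 2 / 2)) - γ‖ + ‖(∫ s in (-B)..B, e (s ^ 2 / 2)) - γ‖ := by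
  have h1 : (∫ s in (-A)..B, e (s ^ 2 / 2)) = (∫ s in (-A)..A, e (s ^ 2 / 2)) -
      (∫ s in (0 : ℝ)..A, e (s ^ 2 / 2)) + ∫ s in (0 : ℝ)..B, e (s ^ 2 / 2) := by
    rw [← intervalIntegral.integral_add_adjacent_intervals (a := -A) (b := 0) (c := B)
      (cont_e.intervalIntegrable _ _) (cont_e.intervalIntegrable _ _),
      ← intervalIntegral.integral_add_adjacent_intervals (a := -A) (b := 0) (c := A)
      (cont_e.intervalIntegrable _ _) (cont_e.intervalIntegrable _ _)]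
    ring
  have h2 : 2 * ((∫ s in (-A)..B, e (s ^ 2 / 2)) - γ) =
      ((∫ s in (-A)..A, e (s ^ 2 / 2)) - γ) + ((∫ s in (-B)..B, e (s ^ 2 / 2)) - γ) := by
    rw [h1, half A, half B]; ring
  have h3 := norm_add_le ((∫ s in (-A)..A, e (s ^ 2 / 2)) - γ) ((∫ s in (-B)..B, e (s ^ 2 / 2)) - γ)
  rw [← h2, norm_mul, Complex.norm_ofNat] at h3
  exact h3

theorem le_three {γ : ℂ} (h1 : ‖γ‖ = 1)
    (hγ : ∀ R : ℝ, 0 < R → ‖(∫ s in (-R)..R, e (s ^ 2 / 2)) - γ‖ ≤ 2 / R) {A : ℝ} (hA : 0 ≤ A) :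
    ‖(∫ s in (-A)..A, e (s ^ 2 / 2)) - γ‖ ≤ 3 := by
  by_cases h : 1 ≤ A
  · refine (hγ A (by linarith)).trans ?_
    rw [div_le_iff₀ (by linarith)]; linarith
  · have h2 := intervalIntegral.norm_integral_le_of_norm_le_const (a := -A) (b := A) (C := 1)
      (f := fun s : ℝ => e (s ^ 2 / 2)) (fun x _ => (norm_e _).le)
    rw [abs_of_nonneg (by linarith)] at h2
    have h3 := norm_sub_le (∫ s in (-A)..A, e (s ^ 2 / 2)) γ
    linarith

theorem sum_bound (g : ℝ → ℝ) (h3 : ∀ A, 0 ≤ A → g A ≤ 3) (h2 : ∀ A, 0 < A → g A ≤ 2 / A)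
    {w x : ℝ} (hw : 0 < w) (hx : 0 < x) (n : ℕ) :
    ∑ k ∈ range n, g (k * w) ≤ 3 * (x + 1) + n * (2 / (x * w)) := by
  have h4 : ∀ k ∈ range n, g (k * w) ≤ (if (k : ℝ) < x then 3 else 0) + 2 / (x * w) := by
    intro k _
    have h5 : 0 < 2 / (x * w) := by positivity
    split_ifs with h
    · linarith [h3 (k * w) (by positivity)]
    · have h6 : x ≤ k := not_lt.1 h
      have h7 : (0 : ℝ) < k := by linarith
      rw [zero_add]
      refine (h2 _ (by positivity)).trans ?_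
      gcongr
  refine (sum_le_sum h4).trans ?_
  rw [sum_add_distrib, sum_const, card_range, nsmul_eq_mul, ← sum_filter, sum_const, nsmul_eq_mul]
  have h5 : ((range n).filter fun k : ℕ => (k : ℝ) < x).card ≤ ⌈x⌉₊ := by
    rw [← card_range ⌈x⌉₊]
    exact card_le_card fun k hk => mem_range.2 (Nat.lt_ceil.2 (mem_filter.1 hk).2)
  have h6 : (((range n).filter fun k : ℕ => (k : ℝ) < x).card : ℝ) ≤ ⌈x⌉₊ := by exact_mod_cast h5
  have h7 := Nat.ceil_lt_add_one hx.le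
  linarith

theorem expand {γ : ℂ} (h1 : ‖γ‖ = 1) {ρ w a : ℝ} {J : ℕ} (hw : 0 < w) (hJ : 0 < J)
    (hρ : ρ = J * w ^ 2) (ha : a ≤ 0) (ha' : ρ ≤ a + 1) :
    ∫ φ in a..a + 1, ‖γ * ∑ j ∈ range J, e (j * φ - ρ / J * (j : ℝ) ^ 2 / 2)
      - (Set.Ioo 0 ρ).indicator
        (fun φ => ((√(J / ρ) : ℝ) : ℂ) * e (J * φ ^ 2 / (2 * ρ))) φ‖ ^ 2 ≤
      2 * ∑ j ∈ range J, ‖(∫ s in (-(j * w))..((J - j : ℕ) * w), e (s ^ 2 / 2)) - γ‖ := by
  have hJ' : (0 : ℝ) < J := by exact_mod_cast hJ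
  have hρ0 : 0 < ρ := by rw [hρ]; positivity
  have hs : √(J / ρ) = w⁻¹ := by
    rw [Real.sqrt_eq_iff_mul_self_eq (by positivity) (by positivity), hρ]
    field_simp
  set S : ℝ → ℂ := fun φ => γ * ∑ j ∈ range J, e (j * φ - ρ / J * (j : ℝ) ^ 2 / 2) with hS
  have hSc : Continuous S := by
    simp only [hS]
    fun_prop
  set D : ℝ → ℝ := fun φ => w⁻¹ ^ 2 - 2 * ∑ j ∈ range J,
    ((starRingEnd ℂ) γ * ((w⁻¹ : ℝ) * e ((φ / w - j * w) ^ 2 / 2))).re with hD
  have hDc : Continuous D := by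
    simp only [hD]
    fun_prop
  have hpt : ∀ φ, ‖S φ - (Set.Ioo 0 ρ).indicator
      (fun φ => ((√(J / ρ) : ℝ) : ℂ) * e (J * φ ^ 2 / (2 * ρ))) φ‖ ^ 2 =
      ‖S φ‖ ^ 2 + (Set.Ioo 0 ρ).indicator D φ := by
    intro φ
    by_cases hφ : φ ∈ Set.Ioo 0 ρ
    · rw [Set.indicator_of_mem hφ, Set.indicator_of_mem hφ, hs, ← Complex.normSq_eq_norm_sq,
        ← Complex.normSq_eq_norm_sq, sub_eq_add_neg, add_comm (S φ), Complex.normSq_add,
        Complex.normSq_neg, Complex.normSq_eq_norm_sq (_ * _), norm_mul, norm_e, mul_one,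
        Complex.norm_real, Real.norm_of_nonneg (by positivity)]
      have h2 : ((w⁻¹ : ℝ) : ℂ) * e (J * φ ^ 2 / (2 * ρ)) * (starRingEnd ℂ) (S φ) =
          ∑ j ∈ range J, (starRingEnd ℂ) γ * ((w⁻¹ : ℝ) * e ((φ / w - j * w) ^ 2 / 2)) := by
        simp only [hS, map_mul, map_sum, mul_sum]
        refine sum_congr rfl fun j _ => ?_
        have h3 : (φ / w - j * w) ^ 2 / 2 =
            J * φ ^ 2 / (2 * ρ) - (j * φ - ρ / J * (j : ℝ) ^ 2 / 2) := by
          rw [hρ]; field_simp; ring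
        rw [h3, e_sub (J * φ ^ 2 / (2 * ρ))]
        ring
      rw [neg_mul, Complex.neg_re, h2, Complex.re_sum]
      simp only [hD]
      ring
    · rw [Set.indicator_of_notMem hφ, Set.indicator_of_notMem hφ, sub_zero, add_zero]
  have hS2 : ∫ φ in a..a + 1, ‖S φ‖ ^ 2 = J := by
    have h2 := parseval (range J) (fun j : ℕ => (j : ℤ)) (fun _ _ _ _ h => Nat.cast_injective h)
      (fun j => γ * e (-(ρ / J * (j : ℝ) ^ 2 / 2))) a
    simp only [norm_mul, norm_e, h1, mul_one, one_pow, sum_const, card_range, nsmul_eq_mul] at h2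
    rw [← h2]
    congr 1
    funext φ
    simp only [hS, mul_sum]
    congr 2
    refine sum_congr rfl fun j _ => ?_
    rw [sub_eq_add_neg, e_add]
    push_cast
    ring
  have hD2 : ∫ φ in a..a + 1, (Set.Ioo 0 ρ).indicator D φ = ∫ φ in (0 : ℝ)..ρ, D φ := by
    rw [intervalIntegral.integral_of_le (by linarith), intervalIntegral.integral_of_le hρ0.le,
      setIntegral_indicator measurableSet_Ioo, integral_Ioc_eq_integral_Ioo]
    congr 2
    exact Set.inter_eq_right.2 fun x hx => ⟨by linarith [hx.1], by linarith [hx.2]⟩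
  have hI : ∀ j ∈ range J, ∫ φ in (0 : ℝ)..ρ,
      ((starRingEnd ℂ) γ * ((w⁻¹ : ℝ) * e ((φ / w - j * w) ^ 2 / 2))).re =
      ((starRingEnd ℂ) γ * ∫ s in (-(j * w))..((J - j : ℕ) * w), e (s ^ 2 / 2)).re := by
    intro j hj
    have h2 := intervalIntegral.integral_comp_div_sub (a := 0) (b := ρ)
      (fun s : ℝ => e (s ^ 2 / 2)) hw.ne' (j * w)
    have e1 : 0 / w - j * w = -(j * w) := by ring
    have e2 : ρ / w - j * w = (J - j : ℕ) * w := by
      rw [Nat.cast_sub (mem_range.1 hj).le, hρ]; field_simp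
    rw [e1, e2] at h2
    have h3 := Complex.reCLM.intervalIntegral_comp_comm (μ := volume) (a := 0) (b := ρ)
      (f := fun φ : ℝ => (starRingEnd ℂ) γ * ((w⁻¹ : ℝ) * e ((φ / w - j * w) ^ 2 / 2)))
      (Continuous.intervalIntegrable (by fun_prop) _ _)
    simp only [Complex.reCLM_apply] at h3
    rw [h3, intervalIntegral.integral_const_mul, intervalIntegral.integral_const_mul, h2,
      Complex.real_smul, ← mul_assoc ((w⁻¹ : ℝ) : ℂ), ← Complex.ofReal_mul,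
      inv_mul_cancel₀ hw.ne', Complex.ofReal_one, one_mul]
  have hD3 : ∫ φ in (0 : ℝ)..ρ, D φ = J - 2 * ∑ j ∈ range J,
      ((starRingEnd ℂ) γ * ∫ s in (-(j * w))..((J - j : ℕ) * w), e (s ^ 2 / 2)).re := by
    simp only [hD]
    rw [intervalIntegral.integral_sub (Continuous.intervalIntegrable (by fun_prop) _ _)
      (Continuous.intervalIntegrable (by fun_prop) _ _), intervalIntegral.integral_const,
      intervalIntegral.integral_const_mul, intervalIntegral.integral_finsetSum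
      (fun j _ => Continuous.intervalIntegrable (by fun_prop) _ _), sum_congr rfl hI]
    congr 1
    rw [hρ, smul_eq_mul]
    field_simp
    ring
  change ∫ φ in a..a + 1, ‖S φ - _‖ ^ 2 ≤ _
  simp only [hpt]
  have hSc2 : Continuous fun φ => ‖S φ‖ ^ 2 := hSc.norm.pow 2
  rw [intervalIntegral.integral_add (hSc2.intervalIntegrable _ _)
    ⟨(hDc.integrableOn_Ioc).indicator measurableSet_Ioo,
      (hDc.integrableOn_Ioc).indicator measurableSet_Ioo⟩, hS2, hD2, hD3]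
  have h4 : ∑ j ∈ range J, (1 - ((starRingEnd ℂ) γ *
      ∫ s in (-(j * w))..((J - j : ℕ) * w), e (s ^ 2 / 2)).re) ≤
      ∑ j ∈ range J, ‖(∫ s in (-(j * w))..((J - j : ℕ) * w), e (s ^ 2 / 2)) - γ‖ := by
    refine sum_le_sum fun j _ => ?_
    generalize (∫ s in (-(j * w))..((J - j : ℕ) * w), e (s ^ 2 / 2)) = I
    have h5 : (starRingEnd ℂ) γ * γ = 1 := by
      rw [mul_comm, Complex.mul_conj, Complex.normSq_eq_norm_sq, h1]; simp
    have h6 : 1 - ((starRingEnd ℂ) γ * I).re = ((starRingEnd ℂ) γ * (γ - I)).re := by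
      rw [mul_sub, h5]; simp
    rw [h6]
    refine (Complex.re_le_norm _).trans ?_
    rw [norm_mul, Complex.norm_conj, h1, one_mul, norm_sub_rev]
  rw [sum_sub_distrib, sum_const, card_range, nsmul_eq_mul] at h4
  linarith

end ChirpAux

open ChirpAux

theorem chirp : ChirpStmt := by
  obtain ⟨γ, h1, hγ⟩ := Line.fresnel
  refine ⟨γ, h1, fun ρ ε hρ hε => ?_⟩
  obtain ⟨J₀, hJ₀⟩ := exists_nat_ge (max (18 / ε) ((432 / ε ^ 2) ^ 2 / ρ))
  refine ⟨J₀, fun J hJ a ha ha' => ?_⟩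
  have hJ1 : (J₀ : ℝ) ≤ J := by exact_mod_cast hJ
  have hA : 18 / ε ≤ J := (le_max_left _ _).trans (hJ₀.trans hJ1)
  have hB : (432 / ε ^ 2) ^ 2 / ρ ≤ J := (le_max_right _ _).trans (hJ₀.trans hJ1)
  have hJ' : (0 : ℝ) < J := lt_of_lt_of_le (by positivity) hA
  have hJ0 : 0 < J := by exact_mod_cast hJ'
  have hJ2 : (1 : ℝ) ≤ J := by exact_mod_cast hJ0
  obtain ⟨w, hw, hρw⟩ : ∃ w : ℝ, 0 < w ∧ ρ = J * w ^ 2 :=
    ⟨√(ρ / J), by positivity, by rw [Real.sq_sqrt (by positivity)]; field_simp⟩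
  refine (expand h1 hw hJ0 hρw ha ha').trans ?_
  set g : ℝ → ℝ := fun A => ‖(∫ s in (-A)..A, e (s ^ 2 / 2)) - γ‖ with hg
  have hg0 : ∀ A, 0 ≤ g A := fun A => norm_nonneg _
  have h2 := sum_bound g (fun A hA => le_three h1 hγ hA) hγ hw
    (by positivity : 0 < ε / 18 * J) (J + 1)
  have h3 : ∑ j ∈ range J, g (j * w) ≤ ∑ k ∈ range (J + 1), g (k * w) := by
    rw [sum_range_succ]; linarith [hg0 (J * w)]
  have h4 : ∑ j ∈ range J, g ((J - j : ℕ) * w) ≤ ∑ k ∈ range (J + 1), g (k * w) := by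
    rw [← sum_range_reflect (fun k : ℕ => g (k * w)) (J + 1), sum_range_succ]
    simp only [Nat.add_sub_cancel]
    linarith [hg0 ((J - J : ℕ) * w)]
  have h5 : 2 * ∑ j ∈ range J, ‖(∫ s in (-(j * w))..((J - j : ℕ) * w), e (s ^ 2 / 2)) - γ‖ ≤
      ∑ j ∈ range J, g (j * w) + ∑ j ∈ range J, g ((J - j : ℕ) * w) := by
    rw [mul_sum, ← sum_add_distrib]
    exact sum_le_sum fun j _ => two_sided γ _ _
  have h6 : 432 / ε ^ 2 ≤ J * w := by
    refine (pow_le_pow_iff_left₀ (by positivity) (by positivity) two_ne_zero).1 ?_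
    rw [div_le_iff₀ hρ, hρw] at hB
    nlinarith
  have h7 : 2 / (ε / 18 * J * w) ≤ ε / 12 := by
    rw [div_le_iff₀ (by positivity)]
    rw [div_le_iff₀ (by positivity)] at h6
    nlinarith
  have h8 : ((J + 1 : ℕ) : ℝ) * (2 / (ε / 18 * J * w)) ≤ (2 * J) * (ε / 12) := by
    push_cast
    gcongr
    linarith
  rw [div_le_iff₀ hε] at hA
  linarith

end Vale.Agent.P130
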