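import Vale.Agent.P130.Stmts
import Vale.Agent.P110.Arith
import Vale.Agent.P110.Config

/-! P130: the configuration of chirps -/

namespace Vale.Agent.P130

open Finset MeasureTheory Vale.Agent.P110

namespace Config2

lemma sum_range_mul (f : ℕ → ℂ) (T J : ℕ) :
    ∑ j ∈ range (T * J), f j = ∑ t ∈ range T, ∑ k ∈ range J, f (t * J + k) := by
  induction T with
  | zero => simp
  | succ T ih => rw [add_mul, one_mul, Finset.sum_range_add, ih, Finset.sum_range_succ]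

lemma ii_of_bdd {f : ℝ → ℂ} (hf : Measurable f) {a b C : ℝ} (h : ∀ x ∈ Set.uIoc a b, ‖f x‖ ≤ C) :
    IntervalIntegrable (fun x => ‖f x‖ ^ 2) volume a b := by
  rw [intervalIntegrable_iff]
  refine Measure.integrableOn_of_bounded (M := C ^ 2) measure_Ioc_lt_top.ne
    (hf.norm.pow_const 2).aestronglyMeasurable ?_
  refine (ae_restrict_mem measurableSet_uIoc).mono fun x hx => ?_
  rw [Real.norm_eq_abs, abs_of_nonneg (by positivity)]
  exact pow_le_pow_left₀ (norm_nonneg _) (h x hx) 2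

section Lines

variable {ι : Type} [Fintype ι] {θ : ι → ℝ} {ρ m B : ℝ} {κ : ι → ℝ → ℂ} {u : ℝ → ℂ}

lemma exists_of_ne (hu0 : ∀ x, x ∉ Set.Ioo 0 ρ → u x = 0) {φ : ℝ}
    (h : ∑ l, κ l φ * u (φ - θ l) ≠ 0) : ∃ l, θ l < φ ∧ φ < θ l + ρ := by
  obtain ⟨l, -, hl⟩ := Finset.exists_ne_zero_of_sum_ne_zero h
  refine ⟨l, ?_⟩
  by_contra hh
  refine hl ?_
  rw [hu0 _ fun h' => hh ⟨by linarith [h'.1], by linarith [h'.2]⟩, mul_zero]

lemma norm_eq (hu0 : ∀ x, x ∉ Set.Ioo 0 ρ → u x = 0) (hu1 : ∀ x ∈ Set.Ioo 0 ρ, ‖u x‖ = B)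
    (hκ : ∀ l φ, ‖κ l φ‖ = m) (hd : ∀ l l', l ≠ l' → θ l + ρ ≤ θ l' ∨ θ l' + ρ ≤ θ l)
    {φ : ℝ} {l : ι} (h1 : θ l < φ) (h2 : φ < θ l + ρ) :
    ‖∑ l, κ l φ * u (φ - θ l)‖ = m * B := by
  rw [Finset.sum_eq_single l, norm_mul, hκ, hu1 _ ⟨by linarith, by linarith⟩]
  · intro l' _ hl'
    rw [hu0, mul_zero]
    intro h'
    rcases hd l' l hl' with h | h
    · linarith [h'.2]
    · linarith [h'.1]
  · intro h; exact absurd (Finset.mem_univ l) h

lemma int_norm (hρ : 0 ≤ ρ) (hu0 : ∀ x, x ∉ Set.Ioo 0 ρ → u x = 0)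
    (hu1 : ∀ x ∈ Set.Ioo 0 ρ, ‖u x‖ = B)
    (hκ : ∀ l φ, ‖κ l φ‖ = m) (hd : ∀ l l', l ≠ l' → θ l + ρ ≤ θ l' ∨ θ l' + ρ ≤ θ l)
    (h0 : ∀ l, 0 ≤ θ l) (h1 : ∀ l, θ l + ρ ≤ 1) :
    ∫ φ in (0 : ℝ)..1, ‖∑ l, κ l φ * u (φ - θ l)‖ ^ 2 = Fintype.card ι * (ρ * (m * B) ^ 2) := by
  have e1 : ∀ φ, ‖∑ l, κ l φ * u (φ - θ l)‖ ^ 2
      = ∑ l, (Set.Ioo (θ l) (θ l + ρ)).indicator (fun _ => (m * B) ^ 2) φ := by
    intro φ
    by_cases h : ∃ l, θ l < φ ∧ φ < θ l + ρ
    · obtain ⟨l, h2, h3⟩ := h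
      rw [norm_eq hu0 hu1 hκ hd h2 h3, Finset.sum_eq_single l,
        Set.indicator_of_mem (Set.mem_Ioo.2 ⟨h2, h3⟩)]
      · intro l' _ hl'
        refine Set.indicator_of_notMem (fun h' => ?_) _
        rcases hd l' l hl' with h | h
        · linarith [h'.2]
        · linarith [h'.1]
      · intro h; exact absurd (Finset.mem_univ l) h
    · have h2 : ∑ l, κ l φ * u (φ - θ l) = 0 := by
        by_contra hh
        exact h (exists_of_ne hu0 hh)
      rw [h2, Finset.sum_eq_zero fun l _ =>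
        Set.indicator_of_notMem (fun h' => h ⟨l, Set.mem_Ioo.1 h'⟩) _]
      simp
  simp only [e1]
  rw [intervalIntegral.integral_of_le zero_le_one, integral_finsetSum _ fun l _ =>
    (integrable_const _).indicator measurableSet_Ioo]
  have e2 : ∀ l, ∫ φ in Set.Ioc (0 : ℝ) 1, (Set.Ioo (θ l) (θ l + ρ)).indicator
      (fun _ => (m * B) ^ 2) φ = ρ * (m * B) ^ 2 := by
    intro l
    rw [setIntegral_indicator measurableSet_Ioo, setIntegral_const,
      Set.inter_eq_right.2 fun x hx => Set.mem_Ioc.2 ⟨(h0 l).trans_lt hx.1, hx.2.le.trans (h1 l)⟩,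
      Real.volume_real_Ioo_of_le (by linarith)]
    simp
  simp [e2]

lemma int_err (hum : Measurable u) (hub : ∀ x, ‖u x‖ ≤ B) (hκc : ∀ l, Continuous (κ l))
    (hκ : ∀ l φ, ‖κ l φ‖ = m) {F : ℝ → ℂ} (hF : Continuous F) {η : ℝ}
    (h : ∀ l, ∫ φ in (-θ l)..(-θ l + 1), ‖F φ - u φ‖ ^ 2 ≤ η) :
    ∫ φ in (0 : ℝ)..1, ‖∑ l, κ l φ * F (φ - θ l) - ∑ l, κ l φ * u (φ - θ l)‖ ^ 2
      ≤ Fintype.card ι * (Fintype.card ι * (m ^ 2 * η)) := by
  have hb : ∀ l, ∃ C, ∀ x ∈ Set.uIoc (0 : ℝ) 1, ‖F (x - θ l) - u (x - θ l)‖ ≤ C := by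
    intro l
    obtain ⟨C, hC⟩ := (isCompact_uIcc (a := (0 : ℝ)) (b := 1)).exists_bound_of_continuousOn
      (f := fun x => F (x - θ l)) (by fun_prop)
    exact ⟨C + B, fun x hx => (norm_sub_le _ _).trans
      (add_le_add (hC x (Set.uIoc_subset_uIcc hx)) (hub _))⟩
  choose C hC using hb
  have hm : ∀ l, Measurable fun x => F (x - θ l) - u (x - θ l) := fun l =>
    (hF.measurable.comp (measurable_sub_const _)).sub (hum.comp (measurable_sub_const _))
  have hi : ∀ l, IntervalIntegrable (fun x => ‖F (x - θ l) - u (x - θ l)‖ ^ 2) volume 0 1 :=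
    fun l => ii_of_bdd (hm l) (hC l)
  have e1 : ∀ φ, ∑ l, κ l φ * F (φ - θ l) - ∑ l, κ l φ * u (φ - θ l)
      = ∑ l, κ l φ * (F (φ - θ l) - u (φ - θ l)) := fun φ => by
    rw [← Finset.sum_sub_distrib]; simp only [mul_sub]
  simp only [e1]
  have hi2 : IntervalIntegrable
      (fun φ => ‖∑ l, κ l φ * (F (φ - θ l) - u (φ - θ l))‖ ^ 2) volume 0 1 := by
    refine ii_of_bdd (C := ∑ l, m * C l)
      (f := fun φ => ∑ l, κ l φ * (F (φ - θ l) - u (φ - θ l))) (Finset.measurable_fun_sum _ fun l _ => (hκc l).measurable.mul (hm l)) fun x hx => ?_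
    refine (norm_sum_le _ _).trans (Finset.sum_le_sum fun l _ => ?_)
    rw [norm_mul, hκ]
    exact mul_le_mul_of_nonneg_left (hC l x hx) (hκ l 0 ▸ norm_nonneg _)
  have hi3 : IntervalIntegrable (fun φ => (Fintype.card ι : ℝ) *
      ∑ l, m ^ 2 * ‖F (φ - θ l) - u (φ - θ l)‖ ^ 2) volume 0 1 := by
    refine IntervalIntegrable.const_mul ?_ _
    have := IntervalIntegrable.sum univ fun l _ => (hi l).const_mul (m ^ 2)
    rw [Finset.sum_fn] at this
    exact this
  refine (intervalIntegral.integral_mono_on zero_le_one hi2 hi3 fun φ _ => ?_).trans ?_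
  · refine (pow_le_pow_left₀ (norm_nonneg _) (norm_sum_le _ _) 2).trans ?_
    refine sq_sum_le_card_mul_sum_sq.trans (le_of_eq ?_)
    simp only [norm_mul, hκ, mul_pow, Finset.card_univ]
  · rw [intervalIntegral.integral_const_mul,
      intervalIntegral.integral_finsetSum fun l _ => (hi l).const_mul _]
    refine mul_le_mul_of_nonneg_left ?_ (Nat.cast_nonneg _)
    rw [← nsmul_eq_mul, ← Finset.card_univ]
    refine Finset.sum_le_card_nsmul _ _ _ fun l _ => ?_
    rw [intervalIntegral.integral_const_mul]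
    refine mul_le_mul_of_nonneg_left ?_ (sq_nonneg _)
    rw [intervalIntegral.integral_comp_sub_right (fun x => ‖F x - u x‖ ^ 2), zero_sub,
      sub_eq_neg_add]
    exact h l

end Lines

lemma gauss_line (M : ℕ) (hM : 0 < M) (a j : ℤ) (g : ℕ → ℝ) (θ₀ x : ℝ) (k : ℕ)
    (hg : ∀ k : ℤ, ∑ ζ ∈ range M, e (g ζ - k * ((ζ : ℝ) / M))
      = ((√M : ℝ) : ℂ) * e ((a * k ^ 2 + j * k) / M)) :
    ∑ ζ : Fin M, (((√M)⁻¹ : ℝ) : ℂ) * e (g ζ - k * (θ₀ + j / M + ((ζ : ℕ) : ℝ) / M) + x)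
      = e (a / M * k ^ 2 - k * θ₀ + x) := by
  have h1 := Config.star_one M a j g 1 1 0 1 θ₀ x k zero_le_one hg (by simp)
  simp only [Real.sqrt_one, Complex.ofReal_one, one_mul, mul_one, add_zero] at h1
  rw [← Finset.mul_sum, h1, ← mul_assoc, ← Complex.ofReal_mul,
    inv_mul_cancel₀ (Real.sqrt_pos.2 (by exact_mod_cast hM)).ne']
  simp

end Config2

set_option maxHeartbeats 1000000 in
open Config2 Config in
theorem config2_of : ChirpStmt → Layout2Stmt → Config2Stmt := by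
  classical
  rintro ⟨γ, hγ, hCh⟩ hL r α β μ lo hi δ ε q₀ hT hδ hε
  have hα := hT.1
  have hdet := hT.2.1
  have hμ := hT.2.2.1
  have hlo := hT.2.2.2.1
  have hαR : ∀ i, (0 : ℝ) < α i := fun i => by exact_mod_cast hα i
  set d : ℝ := δ / (3 + 2 * δ) with hd
  have hd0 : 0 < d := by positivity
  have hd1 : d * (3 + 2 * δ) = δ := by rw [hd]; field_simp
  have hd2 : 0 < 1 - 2 * d := by nlinarith
  obtain ⟨p, T₀, hp, hT₀, hL⟩ := hL r α β μ lo hi d hT hd0
  have hpR : (0 : ℝ) < p := by exact_mod_cast hp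
  have hT₀R : (0 : ℝ) < T₀ := by exact_mod_cast hT₀
  let D : Fin r → Fin r → ℤ := fun i l => β i * α l - α i * β l
  let D' : Fin r → Fin r → ℕ := fun i l => if i = l then 1 else (2 * D i l).natAbs
  set A : ℕ := (∏ i, (α i).natAbs) * ∏ i, ∏ l, D' i l with hA
  have hA0 : 0 < A := by
    refine Nat.mul_pos (Finset.prod_pos fun i _ => Int.natAbs_pos.mpr (hα i).ne')
      (Finset.prod_pos fun i _ => Finset.prod_pos fun l _ => ?_)
    simp only [D', D]
    split_ifs with h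
    · norm_num
    · refine Int.natAbs_pos.mpr ?_
      have := hdet i l h
      intro h0; apply this; linarith
  obtain ⟨Z, n, hZ1, hZ, hn, hncop, hnA⟩ := coprime r (fun i => α i / μ i) A d (T₀ / (d * p))
    (fun i => by have := hμ i; have := hαR i; positivity) hA0 hd0
  have hnR : ∀ i, (0 : ℝ) < n i := fun i => by
    have := hμ i; have := hαR i
    exact lt_of_lt_of_le (by positivity) (hn i).1
  have hn0 : ∀ i, 0 < n i := fun i => by exact_mod_cast hnR i
  set K : ℕ := ⌊Z * p / ((1 + d) * T₀)⌋₊ with hK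
  have hK1 : (1 + d) * ((K : ℝ) * T₀) ≤ Z * p := by
    have := Nat.floor_le (show 0 ≤ Z * p / ((1 + d) * T₀) by positivity)
    rw [← hK, le_div_iff₀ (by positivity)] at this
    linarith
  have hK2 : (1 - 2 * d) * (Z * p) ≤ (K : ℝ) * T₀ := by
    have h1 := (Nat.lt_floor_add_one (Z * p / ((1 + d) * T₀))).le
    rw [← hK, div_le_iff₀ (by positivity)] at h1
    rw [div_le_iff₀ (by positivity)] at hZ1
    have h2 : 0 < Z * p := by positivity
    have h3 : (1 - d) * (Z * p) ≤ (K + 1) * T₀ := by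
      have : (1 - d) * (Z * p) * (1 + d) ≤ (K + 1) * T₀ * (1 + d) := by
        nlinarith [mul_pos (mul_pos hd0 hd0) h2]
      exact le_of_mul_le_mul_right this (by positivity)
    nlinarith
  obtain ⟨Y, s, hs1, hs2, hs3, hs4⟩ := hL K n hn0 hncop
    (fun i => coprime_of_dvd (hnA i)
      (Dvd.dvd.mul_right (Finset.dvd_prod_of_mem (fun i => (α i).natAbs) (Finset.mem_univ i)) _))
    (fun i => by
      refine le_trans ?_ (hn i).1
      have h1 := hμ i
      have h2 := hαR i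
      have h3 : (α i : ℝ) * K * ((1 + d) * T₀ / (μ i * p))
          = ((1 + d) * ((K : ℝ) * T₀)) * (α i / μ i) / p := by field_simp
      rw [h3, div_le_iff₀ hpR]
      have h4 : 0 < (α i : ℝ) / μ i := by positivity
      nlinarith)
  have hTR : (0 : ℝ) < ((K * T₀ : ℕ) : ℝ) := by
    push_cast
    exact lt_of_lt_of_le (by positivity) hK2
  have hT0 : 0 < K * T₀ := by exact_mod_cast hTR
  let Mi : Fin r → ℕ := fun i => ∏ l ∈ univ.erase i, n l
  set M : ℕ := ∏ l, n l with hM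
  have hMi : ∀ i, n i * Mi i = M := fun i => Finset.mul_prod_erase _ _ (Finset.mem_univ i)
  have hMi0 : ∀ i, 0 < Mi i := fun i => Finset.prod_pos fun l _ => hn0 l
  have hMiR : ∀ i, (0 : ℝ) < Mi i := fun i => by exact_mod_cast hMi0 i
  have hM0 : 0 < M := Finset.prod_pos fun l _ => hn0 l
  have hMR : (0 : ℝ) < M := by exact_mod_cast hM0
  have hMiM : ∀ i, (n i : ℝ) * Mi i = M := fun i => by exact_mod_cast hMi i
  choose a ha1 ha2 using fun i : Fin r => frac r (univ.erase i) n (D i) hn0 hncop (fun l hl => by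
    refine coprime_of_dvd (hnA l) (Dvd.dvd.mul_left ?_ _)
    have hil : i ≠ l := (Finset.ne_of_mem_erase hl).symm
    have h1 : (2 * D i l).natAbs = D' i l := by simp only [D', if_neg hil]
    rw [h1]
    exact (Finset.dvd_prod_of_mem (D' i) (Finset.mem_univ l)).trans
      (Finset.dvd_prod_of_mem (fun i => ∏ l, D' i l) (Finset.mem_univ i)))
  choose j hj using hs1
  choose g hg using fun (i : Fin r) (t : Fin (K * T₀)) =>
    gauss (Mi i) (a i) (j i t) (hMi0 i) (ha1 i)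
  set P : ℝ := p * M with hPdef
  have hP0 : 0 < P := by positivity
  have hPZ : ((p * (M : ℤ) : ℤ) : ℝ) = P := by rw [hPdef]; push_cast; ring
  let ρ : Fin r → ℝ := fun i => α i / P
  have hρ : ∀ i, 0 < ρ i := fun i => div_pos (hαR i) hP0
  choose J₀ hJ₀ using fun i : Fin r => hCh (ρ i) (ε / (((K * T₀ : ℕ) : ℝ) * Mi i)) (hρ i)
    (div_pos hε (mul_pos hTR (hMiR i)))
  set J : ℕ := ∑ i, J₀ i + q₀ + 1 with hJ
  have hJ0 : 0 < J := by omega
  have hJR : (0 : ℝ) < J := by exact_mod_cast hJ0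
  have hJ1 : ∀ i, J₀ i ≤ J := fun i => by
    have := Finset.single_le_sum (f := J₀) (fun i _ => Nat.zero_le _) (Finset.mem_univ i)
    omega
  let w : ∀ i : Fin r, Fin (K * T₀) × Fin (Mi i) → ℤ := fun i l =>
    (s i l.1 : ℤ) + p * n i * (l.2 : ℕ)
  let θ : ∀ i : Fin r, Fin (K * T₀) × Fin (Mi i) → ℝ := fun i l => (w i l : ℝ) / P
  have hθρ : ∀ i l, θ i l + ρ i = ((w i l + α i : ℤ) : ℝ) / P := fun i l => by
    simp only [θ, ρ]; push_cast; ring
  have hθ0 : ∀ i l, 0 ≤ θ i l := fun i l => by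
    have : (0 : ℤ) ≤ w i l := by simp only [w]; positivity
    have : (0 : ℝ) ≤ w i l := by exact_mod_cast this
    exact div_nonneg this hP0.le
  have hθ1 : ∀ i l, θ i l + ρ i ≤ 1 := fun i l => by
    rw [hθρ, div_le_one hP0, ← hPZ]
    have h1 := hs2 i l.1
    have h2 : ((l.2 : ℕ) : ℤ) + 1 ≤ Mi i := by exact_mod_cast l.2.2
    have h3 : (n i : ℤ) * Mi i = M := by exact_mod_cast hMi i
    have h4 : w i l + α i ≤ p * (M : ℤ) := by
      simp only [w]
      rw [← h3]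
      have : (0 : ℤ) ≤ p * n i := by positivity
      nlinarith
    exact_mod_cast h4
  have hdis : ∀ i l i' l', (i, l.1, (l.2 : ℕ)) ≠ (i', l'.1, (l'.2 : ℕ)) →
      (∃ x, x ∈ Set.Icc (lo i) (hi i) ∧ x ∈ Set.Icc (lo i') (hi i')) →
      θ i l + ρ i ≤ θ i' l' ∨ θ i' l' + ρ i' ≤ θ i l := by
    intro i l i' l' h1 h2
    rcases hs3 i l.1 l.2 i' l'.1 l'.2 h1 h2 with h | h
    · left
      rw [hθρ]
      exact div_le_div_of_nonneg_right (Int.cast_le.2 h) hP0.le
    · right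
      rw [hθρ]
      exact div_le_div_of_nonneg_right (Int.cast_le.2 h) hP0.le
  have hdis1 : ∀ i l l', l ≠ l' → θ i l + ρ i ≤ θ i l' ∨ θ i l' + ρ i ≤ θ i l := by
    intro i l l' h
    refine hdis i l i l' (fun h' => h ?_) ⟨lo i, ⟨le_rfl, hlo i⟩, ⟨le_rfl, hlo i⟩⟩
    simp only [Prod.mk.injEq, true_and] at h'
    exact Prod.ext h'.1 (Fin.ext h'.2)
  let u : Fin r → ℝ → ℂ := fun i => (Set.Ioo 0 (ρ i)).indicator
    (fun φ => ((√(J / ρ i) : ℝ) : ℂ) * e (J * φ ^ 2 / (2 * ρ i)))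
  have hu0 : ∀ i x, x ∉ Set.Ioo 0 (ρ i) → u i x = 0 := fun i x hx => Set.indicator_of_notMem hx _
  have hu1 : ∀ i, ∀ x ∈ Set.Ioo 0 (ρ i), ‖u i x‖ = √(J / ρ i) := fun i x hx => by
    simp only [u]
    rw [Set.indicator_of_mem hx, norm_mul, norm_e, mul_one, Complex.norm_real, Real.norm_eq_abs,
      abs_of_nonneg (Real.sqrt_nonneg _)]
  have hub : ∀ i x, ‖u i x‖ ≤ √(J / ρ i) := fun i x => by
    by_cases hx : x ∈ Set.Ioo 0 (ρ i)
    · exact (hu1 i x hx).le
    · rw [hu0 i x hx, norm_zero]; exact Real.sqrt_nonneg _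
  have hum : ∀ i, Measurable (u i) := fun i =>
    (Continuous.measurable (by fun_prop)).indicator measurableSet_Ioo
  let κ : ∀ i : Fin r, Fin (K * T₀) × Fin (Mi i) → ℝ → ℂ := fun i l φ =>
    (((√(Mi i))⁻¹ : ℝ) : ℂ) * (starRingEnd ℂ) γ * e (((l.1 : ℕ) : ℝ) * J * φ + g i l.1 l.2)
  have hκc : ∀ i l, Continuous (κ i l) := fun i l => by simp only [κ]; fun_prop
  have hκ : ∀ i l φ, ‖κ i l φ‖ = (√(Mi i))⁻¹ := fun i l φ => by
    simp only [κ]
    rw [norm_mul, norm_mul, norm_e, Complex.norm_conj, hγ, mul_one, mul_one, Complex.norm_real,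
      Real.norm_eq_abs, abs_of_nonneg (by positivity)]
  have hAsq : ∀ i, ((√(Mi i))⁻¹ * √(J / ρ i)) ^ 2 = J / (ρ i * Mi i) := fun i => by
    have := hρ i
    have := hMiR i
    rw [mul_pow, inv_pow, Real.sq_sqrt (by positivity), Real.sq_sqrt (by positivity)]
    field_simp
  let V₁ : ℝ := ∑ l, -(β l : ℝ) / n l
  let V₂ : ℝ := ∑ l, (α l : ℝ) / n l
  let Y' : ℕ → ℤ × ℤ := fun t => if h : t < K * T₀ then Y ⟨t, h⟩ else 0
  refine ⟨K * T₀ * J, fun x => (V₁ * ((x % J : ℕ) : ℝ) ^ 2 - ((x % J : ℕ) : ℝ) * ((Y' (x / J)).1 / P)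
      - ((x % J : ℕ) : ℝ) ^ 2 / (2 * J * P),
      V₂ * ((x % J : ℕ) : ℝ) ^ 2 - ((x % J : ℕ) : ℝ) * ((Y' (x / J)).2 / P)),
    fun i φ => ∑ l, κ i l φ * u i (φ - θ i l), fun i => (√(Mi i))⁻¹ * √(J / ρ i),
    ?_, Nat.mul_pos hT0 hJ0, fun i => ?_, fun i => ⟨?_, ?_⟩, fun i φ => ?_, fun i => ?_,
    fun i => ?_, fun i i' hii' hx φ => ?_, fun i i' hx φ => ?_⟩
  · have := Nat.le_mul_of_pos_left J hT0
    omega
  · exact Finset.measurable_fun_sum _ fun l _ =>
      (hκc i l).measurable.mul ((hum i).comp (measurable_sub_const _))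
  · have := hρ i
    have := hMiR i
    positivity
  · rw [hAsq]
    have h1 := hμ i
    have h2 := hαR i
    have h3 := hMiR i
    have h4 : μ i * (J / (ρ i * Mi i)) = J * p * (μ i / α i * n i) := by
      simp only [ρ]
      rw [hPdef, ← hMiM i]
      field_simp
    have h5 : μ i / α i * n i ≤ (1 + d) * Z := by
      refine (mul_le_mul_of_nonneg_left (hn i).2 (by positivity)).trans (le_of_eq ?_)
      field_simp
    have h6 : (1 + d) * (Z * p) ≤ (1 + δ) * (K * T₀) := by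
      have h7 : (1 + d) = (1 + δ) * (1 - 2 * d) := by linarith
      rw [h7, mul_assoc]
      exact mul_le_mul_of_nonneg_left hK2 (by positivity)
    rw [h4]
    push_cast
    have h8 := mul_le_mul_of_nonneg_left h5 (show (0 : ℝ) ≤ J * p by positivity)
    have h9 := mul_le_mul_of_nonneg_left h6 hJR.le
    nlinarith
  · by_cases h : ∑ l, κ i l φ * u i (φ - θ i l) = 0
    · exact Or.inl h
    · obtain ⟨l, h1, h2⟩ := exists_of_ne (hu0 i) h
      exact Or.inr (norm_eq (hu0 i) (hu1 i) (hκ i) (hdis1 i) h1 h2)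
  · rw [int_norm (hρ i).le (hu0 i) (hu1 i) (hκ i) (hdis1 i) (hθ0 i) (hθ1 i), hAsq]
    have := hρ i
    have := hMiR i
    simp only [Fintype.card_prod, Fintype.card_fin]
    push_cast
    field_simp
  · have h1 := int_err (θ := θ i) (hum i) (hub i) (hκc i) (hκ i)
      (F := fun φ => γ * ∑ k ∈ range J, e (k * φ - ρ i / J * (k : ℝ) ^ 2 / 2)) (by fun_prop)
      (η := ε / (((K * T₀ : ℕ) : ℝ) * Mi i) * J)
      fun l => hJ₀ i J (hJ1 i) (-θ i l) (neg_nonpos.2 (hθ0 i l)) (by linarith [hθ1 i l])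
    refine le_trans (le_of_eq ?_) (h1.trans (le_of_eq ?_))
    · refine intervalIntegral.integral_congr fun φ _ => ?_
      simp only
      congr 3
      have hθ : ∀ (t : Fin (K * T₀)) (ζ : Fin (Mi i)), θ i (t, ζ)
          = (α i * ((Y t).1 / P) + β i * ((Y t).2 / P)) + j i t / Mi i + ((ζ : ℕ) : ℝ) / Mi i := by
        intro t ζ
        have h1 : (s i t : ℝ) = α i * (Y t).1 + β i * (Y t).2 + p * n i * j i t := by
          have := hj i t
          have h2 : (s i t : ℤ) = α i * (Y t).1 + β i * (Y t).2 + p * n i * j i t := by linarith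
          exact_mod_cast h2
        simp only [θ, w]
        push_cast
        rw [h1, hPdef, ← hMiM i]
        have := hnR i; have := hMiR i
        field_simp
      have haV : (a i : ℝ) / Mi i = α i * V₁ + β i * V₂ := by
        rw [ha2 i]
        simp only [V₁, V₂]
        rw [Finset.mul_sum, Finset.mul_sum, ← Finset.sum_add_distrib,
          ← Finset.add_sum_erase _ _ (Finset.mem_univ i)]
        have : (α i : ℝ) * (-(β i : ℝ) / n i) + β i * (α i / n i) = 0 := by ring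
        rw [this, zero_add]
        refine Finset.sum_congr rfl fun l _ => ?_
        simp only [D]; push_cast; ring
      have hγγ : (starRingEnd ℂ) γ * γ = 1 := by
        rw [Complex.conj_mul', hγ]; simp
      rw [sum_range_mul, ← Fin.sum_univ_eq_sum_range (fun t => ∑ k ∈ range J, _) (K * T₀),
        Fintype.sum_prod_type]
      refine Finset.sum_congr rfl fun t _ => ?_
      simp only [Finset.mul_sum]
      rw [Finset.sum_comm]
      refine Finset.sum_congr rfl fun k hk => ?_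
      have hk' := mem_range.1 hk
      have e1 : ((t : ℕ) * J + k) % J = k := by
        rw [Nat.mul_add_mod', Nat.mod_eq_of_lt hk']
      have e2 : ((t : ℕ) * J + k) / J = t := by
        rw [add_comm, Nat.add_mul_div_right _ _ hJ0, Nat.div_eq_of_lt hk', zero_add]
      have e3 : Y' t = Y t := dif_pos t.2
      rw [e1, e2, e3]
      have h2 := gauss_line (Mi i) (hMi0 i) (a i) (j i t) (g i t)
        (α i * ((Y t).1 / P) + β i * ((Y t).2 / P))
        ((((t : ℕ) : ℝ) * J + k) * φ - ρ i / J * (k : ℝ) ^ 2 / 2) k (hg i t)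
      refine Eq.trans ?_ (h2.symm.trans (Finset.sum_congr rfl fun ζ _ => ?_))
      · congr 1
        rw [haV]
        simp only [ρ]
        push_cast
        field_simp
        ring
      · simp only [κ]
        rw [← hθ t ζ]
        have e4 : g i t ζ - k * θ i (t, ζ) + ((((t : ℕ) : ℝ) * J + k) * φ - ρ i / J * (k : ℝ) ^ 2 / 2)
            = (((t : ℕ) : ℝ) * J * φ + g i t ζ)
              + (k * (φ - θ i (t, ζ)) - ρ i / J * (k : ℝ) ^ 2 / 2) := by ring
        rw [e4, e_add]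
        linear_combination (-((((√(Mi i))⁻¹ : ℝ) : ℂ) * e (((t : ℕ) : ℝ) * J * φ + g i t ζ) *
          e (k * (φ - θ i (t, ζ)) - ρ i / J * (k : ℝ) ^ 2 / 2))) * hγγ
    · have := hMiR i
      rw [inv_pow, Real.sq_sqrt this.le]
      simp only [Fintype.card_prod, Fintype.card_fin]
      rw [Nat.cast_mul (K * T₀) (Mi i), Nat.cast_mul (K * T₀) J]
      field_simp
  · by_contra hh
    push Not at hh
    obtain ⟨l, h1, h2⟩ := exists_of_ne (hu0 i) hh.1
    obtain ⟨l', h3, h4⟩ := exists_of_ne (hu0 i') hh.2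
    rcases hdis i l i' l' (fun h => hii' (congrArg Prod.fst h)) hx with h | h <;> linarith
  · by_contra hh
    push Not at hh
    obtain ⟨l, h1, h2⟩ := exists_of_ne (hu0 i) hh.1
    obtain ⟨l', h3, h4⟩ := exists_of_ne (hu0 i') hh.2
    rw [hθρ] at h2 h4
    rcases hs4 i l.1 l.2 i' l'.1 l'.2 hx with h | h
    · have h' : w i l + α i + (w i' l' + α i') ≤ p * (M : ℤ) := h
      have h5 : ((w i l + α i : ℤ) : ℝ) / P + ((w i' l' + α i' : ℤ) : ℝ) / P ≤ 1 := by
        rw [← add_div, div_le_one hP0, ← hPZ, ← Int.cast_add]; exact Int.cast_le.2 h'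
      linarith
    · have h' : p * (M : ℤ) ≤ w i l + w i' l' := h
      have h5 : 1 ≤ θ i l + θ i' l' := by
        simp only [θ]
        rw [← add_div, le_div_iff₀ hP0, one_mul, ← hPZ, ← Int.cast_add]; exact Int.cast_le.2 h'
      linarith

end Vale.Agent.P130
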