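import Vale.Agent.P130.Stmts
import Vale.Agent.P130.DesignAbs2
import Vale.Agent.P110.Design

/-! # P130: the colouring design with conflict intervals -/

namespace Vale.Agent.P130

open Finset Vale.Agent.P110 Vale.Agent.P110.Design

namespace Design2

/-- greedy weighted colouring of a family of intervals. -/
lemma colouring {σ : Type} [DecidableEq σ] (a b : σ → ℝ) (k : σ → ℕ) (R : ℕ)
    (hab : ∀ τ, a τ ≤ b τ) (S : Finset σ)
    (hcl : ∀ θ : ℝ, ∑ τ ∈ S, (if a τ ≤ θ ∧ θ ≤ b τ then k τ else 0) ≤ R) :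
    ∃ A : σ → Finset (Fin R), (∀ τ ∈ S, (A τ).card = k τ) ∧
      ∀ τ ∈ S, ∀ τ' ∈ S, τ ≠ τ' → (∃ θ, (a τ ≤ θ ∧ θ ≤ b τ) ∧ (a τ' ≤ θ ∧ θ ≤ b τ')) →
        Disjoint (A τ) (A τ') := by
  classical
  induction S using Finset.induction_on_max_value a with
  | empty => exact ⟨fun _ => ∅, by simp, by simp⟩
  | insert τ₀ S hτ₀ hmax ih =>
    obtain ⟨A, hA1, hA2⟩ := ih (fun θ => le_trans
      (Finset.sum_le_sum_of_subset (Finset.subset_insert _ _)) (hcl θ))
    let N := S.filter fun τ => a τ ≤ a τ₀ ∧ a τ₀ ≤ b τ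
    let U := N.biUnion A
    have hU : U.card + k τ₀ ≤ R := by
      have h1 := hcl (a τ₀)
      rw [Finset.sum_insert hτ₀, if_pos ⟨le_rfl, hab τ₀⟩, ← Finset.sum_filter] at h1
      have h2 : U.card ≤ ∑ τ ∈ N, (A τ).card := Finset.card_biUnion_le
      have h3 : ∑ τ ∈ N, (A τ).card = ∑ τ ∈ N, k τ :=
        Finset.sum_congr rfl fun τ hτ => hA1 τ (Finset.mem_filter.mp hτ).1
      simp only [N] at h2 h3
      omega
    have hc : k τ₀ ≤ (Uᶜ).card := by
      rw [Finset.card_compl, Fintype.card_fin]; omega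
    obtain ⟨V, hV1, hV2⟩ := Finset.exists_subset_card_eq hc
    have hdis : ∀ τ ∈ S, (∃ θ, (a τ₀ ≤ θ ∧ θ ≤ b τ₀) ∧ (a τ ≤ θ ∧ θ ≤ b τ)) →
        Disjoint V (A τ) := by
      rintro τ hτ ⟨θ, h1, h2⟩
      have hN : τ ∈ N := Finset.mem_filter.mpr ⟨hτ, hmax τ hτ, h1.1.trans h2.2⟩
      rw [Finset.disjoint_left]
      intro c hc hc'
      exact (Finset.mem_compl.mp (hV1 hc)) (Finset.mem_biUnion.mpr ⟨τ, hN, hc'⟩)
    have hne : ∀ τ ∈ S, τ ≠ τ₀ := fun τ hτ h => hτ₀ (h ▸ hτ)
    refine ⟨Function.update A τ₀ V, fun τ hτ => ?_, fun τ hτ τ' hτ' hne' hθ => ?_⟩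
    · rcases Finset.mem_insert.mp hτ with rfl | h
      · rw [Function.update_self, hV2]
      · rw [Function.update_of_ne (hne τ h), hA1 τ h]
    · rcases Finset.mem_insert.mp hτ with rfl | h <;> rcases Finset.mem_insert.mp hτ' with rfl | h'
      · exact absurd rfl hne'
      · rw [Function.update_self, Function.update_of_ne (hne τ' h')]
        exact hdis τ' h' hθ
      · rw [Function.update_self, Function.update_of_ne (hne τ h)]
        obtain ⟨θ, h1, h2⟩ := hθ
        exact (hdis τ h ⟨θ, h2, h1⟩).symm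
      · rw [Function.update_of_ne (hne τ h), Function.update_of_ne (hne τ' h')]
        exact hA2 τ h τ' h' hne' hθ

lemma colour_sets (r : ℕ) (α β : Fin r → ℤ) (μ lo hi : Fin r → ℝ) (d : ℝ)
    (hT : Types r α β μ lo hi) (hd : 0 < d) :
    ∃ (R : ℕ) (k : Fin r → ℕ) (Ap Am : Fin r → Finset (Fin R)), 0 < R ∧
      (∀ i, (Ap i).card = k i ∧ (Am i).card = k i) ∧ (∀ i, (1 - d) * μ i * R ≤ k i) ∧
      (∀ i i', i ≠ i' → (∃ θ, θ ∈ Set.Icc (lo i) (hi i) ∧ θ ∈ Set.Icc (lo i') (hi i')) →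
        Disjoint (Ap i) (Ap i') ∧ Disjoint (Am i) (Am i')) ∧
      (∀ i i', (∃ θ, θ ∈ Set.Icc (lo i) (hi i) ∧ 1 - θ ∈ Set.Icc (lo i') (hi i')) →
        Disjoint (Ap i) (Am i') ∧ Disjoint (Am i) (Ap i')) := by
  obtain ⟨-, -, hμ, hlh, hcl⟩ := hT
  set R : ℕ := ⌈∑ i, 1 / (d * μ i)⌉₊ + 1 with hR
  have hR0 : 0 < R := by omega
  have hR1 : ∀ i, 1 ≤ d * μ i * R := by
    intro i
    have h0 := hμ i
    have h1 : 1 / (d * μ i) ≤ ∑ i, 1 / (d * μ i) :=
      Finset.single_le_sum (f := fun i => 1 / (d * μ i))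
        (fun j _ => by have := hμ j; positivity) (Finset.mem_univ i)
    have h2 := h1.trans (Nat.le_ceil _)
    have h3 : (⌈∑ i, 1 / (d * μ i)⌉₊ : ℝ) ≤ R := Nat.cast_le.mpr (by omega)
    have h4 := h2.trans h3
    rwa [div_le_iff₀ (by positivity), mul_comm (R : ℝ)] at h4
  let a : Fin r ⊕ Fin r → ℝ := Sum.elim lo fun i => 1 - hi i
  let b : Fin r ⊕ Fin r → ℝ := Sum.elim hi fun i => 1 - lo i
  let k : Fin r → ℕ := fun i => ⌊μ i * R⌋₊
  have hk : ∀ i, (k i : ℝ) ≤ μ i * R := fun i =>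
    Nat.floor_le (by have := hμ i; positivity)
  obtain ⟨A, hA1, hA2⟩ := colouring a b (Sum.elim k k) R
    (by
      rintro (i | i)
      · exact hlh i
      · exact sub_le_sub_left (hlh i) 1) univ (by
      intro θ
      have h1 := hcl θ
      have h2 : ((∑ τ, (if a τ ≤ θ ∧ θ ≤ b τ then Sum.elim k k τ else 0) : ℕ) : ℝ) ≤ R := by
        rw [Fintype.sum_sum_type, ← Finset.sum_add_distrib]
        push_cast
        refine le_trans (Finset.sum_le_sum fun i _ => ?_)
          ((le_of_eq (Finset.sum_mul _ _ _).symm).trans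
            ((mul_le_mul_of_nonneg_right h1 (Nat.cast_nonneg R)).trans (le_of_eq (one_mul _))))
        rw [add_mul]
        refine add_le_add ?_ ?_
        · by_cases h : lo i ≤ θ ∧ θ ≤ hi i
          · rw [if_pos h, if_pos (show a (Sum.inl i) ≤ θ ∧ θ ≤ b (Sum.inl i) from h)]
            exact hk i
          · rw [if_neg h, if_neg (show ¬ (a (Sum.inl i) ≤ θ ∧ θ ≤ b (Sum.inl i)) from h)]; simp
        · have hh : (a (Sum.inr i) ≤ θ ∧ θ ≤ b (Sum.inr i)) ↔ (lo i ≤ 1 - θ ∧ 1 - θ ≤ hi i) := by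
            show (1 - hi i ≤ θ ∧ θ ≤ 1 - lo i) ↔ _
            constructor <;> rintro ⟨h1, h2⟩ <;> constructor <;> linarith
          by_cases h : lo i ≤ 1 - θ ∧ 1 - θ ≤ hi i
          · rw [if_pos h, if_pos (hh.mpr h)]; exact hk i
          · rw [if_neg h, if_neg (fun h' => h (hh.mp h'))]; simp
      exact_mod_cast h2)
  refine ⟨R, k, fun i => A (Sum.inl i), fun i => A (Sum.inr i), hR0,
    fun i => ⟨hA1 _ (Finset.mem_univ _), hA1 _ (Finset.mem_univ _)⟩, fun i => ?_,
    fun i i' hne ⟨θ, h1, h2⟩ => ⟨?_, ?_⟩, fun i i' ⟨θ, h1, h2⟩ => ⟨?_, ?_⟩⟩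
  · have h1 : μ i * R < k i + 1 := Nat.lt_floor_add_one _
    have h2 := hR1 i
    nlinarith
  · exact hA2 _ (Finset.mem_univ _) _ (Finset.mem_univ _) (by simpa using hne) ⟨θ, h1, h2⟩
  · refine hA2 _ (Finset.mem_univ _) _ (Finset.mem_univ _) (by simpa using hne) ⟨1 - θ, ?_, ?_⟩
    · simp only [a, b, Sum.elim_inr]; constructor <;> linarith [h1.1, h1.2]
    · simp only [a, b, Sum.elim_inr]; constructor <;> linarith [h2.1, h2.2]
  · refine hA2 _ (Finset.mem_univ _) _ (Finset.mem_univ _) (by simp) ⟨θ, h1, ?_⟩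
    simp only [a, b, Sum.elim_inr]; constructor <;> linarith [h2.1, h2.2]
  · refine hA2 _ (Finset.mem_univ _) _ (Finset.mem_univ _) (by simp) ⟨1 - θ, ?_, h2⟩
    simp only [a, b, Sum.elim_inr]; constructor <;> linarith [h1.1, h1.2]

lemma card_mid (p m : ℕ) [NeZero p] :
    (univ.filter fun x : ZMod p => p - 1 ≤ 2 * x.val + 2 * m ∧ 2 * x.val ≤ p - 1).card
      ≤ m + 1 := by
  have : (univ.filter fun x : ZMod p => p - 1 ≤ 2 * x.val + 2 * m ∧ 2 * x.val ≤ p - 1).card
      ≤ (range (m + 1)).card := by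
    refine Finset.card_le_card_of_injOn (fun x => (p - 1 - 2 * x.val) / 2) (fun x hx => ?_)
      (fun x hx y hy h => ?_)
    · have := (Finset.mem_filter.mp hx).2
      simp only [Finset.coe_range, Set.mem_Iio]; omega
    · have := (Finset.mem_filter.mp hx).2
      have := (Finset.mem_filter.mp hy).2
      exact ZMod.val_injective p (by simp only at h; omega)
  simpa using this

lemma numerics (ρA r m A C d p g T : ℝ) (hρ : 0 < ρA) (hr : 0 ≤ r) (hA : 0 < A)
    (hp : 0 < p) (hAd : 4 * m * r ≤ d * A)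
    (hg : g ≤ 2 * (((p + m) / A + 1) * m) + m + (m + 1))
    (hpl : 2 * (ρA * r * (2 * m ^ 2 / A + 4 * m + 1) + C) ≤ d * ρA * p)
    (hT : ρA * (p ^ 2 - r * g * p) - p * C ≤ T) : (1 - d) * ρA * p ^ 2 ≤ T := by
  have h1 : r * g ≤ d / 2 * p + r * (2 * m ^ 2 / A + 4 * m + 1) := by
    have h2 : 2 * (((p + m) / A + 1) * m) + m + (m + 1)
        = 2 * m / A * p + (2 * m ^ 2 / A + 4 * m + 1) := by
      field_simp; ring
    have h3 : r * (2 * m / A) ≤ d / 2 := by
      rw [← mul_div_assoc, div_le_iff₀ hA]; linarith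
    have h4 := mul_le_mul_of_nonneg_left hg hr
    rw [h2] at h4
    nlinarith
  have h5 := mul_le_mul_of_nonneg_left h1 (show 0 ≤ ρA * p by positivity)
  nlinarith

end Design2

open Design2 in
theorem design2 : Design2Stmt := by
  classical
  intro r α β μ lo hi δ hT hδ
  set d : ℝ := δ / (3 * (1 + δ)) with hd
  have hd0 : 0 < d := by positivity
  have hd1 : d < 1 := by rw [hd, div_lt_one (by positivity)]; linarith
  have hd2 : 1 + d ≤ (1 + δ) * (1 - d) ^ 2 := by
    have h1 : (1 + δ) * d = δ / 3 := by rw [hd]; field_simp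
    nlinarith [mul_nonneg (show 0 ≤ 1 + δ by linarith) (sq_nonneg d), mul_pos hδ hd0]
  obtain ⟨R, k, Ap, Am, hR0, hk1, hk2, hc1, hc2⟩ := colour_sets r α β μ lo hi d hT hd0
  obtain ⟨hα, hdet, hμ, -, -⟩ := hT
  have hRR : (0 : ℝ) < R := by exact_mod_cast hR0
  set ρ : Fin r → ℝ := fun i => k i / R with hρdef
  have hρμ : ∀ i, (1 - d) * μ i ≤ ρ i := fun i => by
    simp only [hρdef]; rw [le_div_iff₀ hRR]; exact hk2 i
  have hρ : ∀ i, 0 < ρ i := fun i =>
    lt_of_lt_of_le (mul_pos (by linarith) (hμ i)) (hρμ i)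
  have hρ1 : ∀ i, ρ i ≤ 1 := fun i => by
    simp only [hρdef]
    rw [div_le_one hRR, ← (hk1 i).1]
    have := Finset.card_le_univ (Ap i)
    rw [Fintype.card_fin] at this
    exact_mod_cast this
  set m : ℕ := ∑ i, (α i).natAbs with hm
  have hαm : ∀ i, α i ≤ m := by
    intro i
    have h1 : (α i).natAbs ≤ m :=
      Finset.single_le_sum (f := fun i => (α i).natAbs) (fun _ _ => Nat.zero_le _)
        (Finset.mem_univ i)
    have h2 := hα i
    omega
  set A : ℕ := ⌈4 * (m : ℝ) * r / d⌉₊ + m + 1 with hA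
  have hA0 : 0 < A := by omega
  have hAR : (0 : ℝ) < A := by exact_mod_cast hA0
  have hAm : m ≤ A := by omega
  have hAd : 4 * (m : ℝ) * r ≤ d * A := by
    have h1 := Nat.le_ceil (4 * (m : ℝ) * r / d)
    have h2 : (⌈4 * (m : ℝ) * r / d⌉₊ : ℝ) ≤ A := Nat.cast_le.mpr (by omega)
    have h3 := h1.trans h2
    rwa [div_le_iff₀ hd0, mul_comm (A : ℝ)] at h3
  set ρA : ℝ := ∏ j, ρ j with hρA
  have hρA0 : 0 < ρA := Finset.prod_pos fun j _ => hρ j
  set C : ℝ := (r : ℝ) ^ 2 * (2 * A) * (1 + 5 * r * (1 + d) / (d ^ 2 * ρA)) with hC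
  set D : ℕ := ∑ i, ∑ j, (α i * β j - α j * β i).natAbs with hD
  obtain ⟨p, hpge, hp⟩ := Nat.exists_infinite_primes
    (⌈2 * (ρA * r * (2 * (m : ℝ) ^ 2 / A + 4 * m + 1) + C) / (d * ρA)⌉₊ + m + D + 1)
  have : Fact p.Prime := ⟨hp⟩
  have hp0 : 0 < p := hp.pos
  have hpR : (0 : ℝ) < p := by exact_mod_cast hp0
  have hpl : 2 * (ρA * r * (2 * (m : ℝ) ^ 2 / A + 4 * m + 1) + C) ≤ d * ρA * p := by
    have h1 := Nat.le_ceil (2 * (ρA * r * (2 * (m : ℝ) ^ 2 / A + 4 * m + 1) + C) / (d * ρA))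
    have h2 : (⌈2 * (ρA * r * (2 * (m : ℝ) ^ 2 / A + 4 * m + 1) + C) / (d * ρA)⌉₊ : ℝ) ≤ p :=
      Nat.cast_le.mpr (by omega)
    have h3 := h1.trans h2
    rwa [div_le_iff₀ (by positivity), mul_comm (p : ℝ)] at h3
  have hα0 : ∀ i, (α i : ZMod p) ≠ 0 := fun i =>
    cast_ne_zero p _ (hα i).ne' (by have := hαm i; have := hα i; omega)
  have hdet0 : ∀ i j, i ≠ j → ((α i * β j - α j * β i : ℤ) : ZMod p) ≠ 0 := by
    intro i j hij
    refine cast_ne_zero p _ (sub_ne_zero.mpr (hdet i j hij)) ?_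
    have h1 : (α i * β j - α j * β i).natAbs ≤ ∑ j, (α i * β j - α j * β i).natAbs :=
      Finset.single_le_sum (f := fun j => (α i * β j - α j * β i).natAbs)
        (fun _ _ => Nat.zero_le _) (Finset.mem_univ j)
    have h2 : ∑ j, (α i * β j - α j * β i).natAbs ≤ D :=
      Finset.single_le_sum (f := fun i => ∑ j, (α i * β j - α j * β i).natAbs)
        (fun _ _ => Nat.zero_le _) (Finset.mem_univ i)
    omega
  let π : Fin r → ZMod p × ZMod p → ZMod p := fun i z => α i * z.1 + β i * z.2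
  let toY : ℕ → Fin p := fun n => ⟨n % p, Nat.mod_lt _ hp0⟩
  let B : ZMod p → Fin p := fun x => toY (Bn p A x.val)
  let En : Fin r → ℕ → Finset (Fin R) := fun i x => if 2 * x < p - 1 then Ap i else Am i
  let G : Finset (ZMod p) :=
    univ.filter fun x => (x.val + m ≤ p ∧ ∀ s < m, Bn p A (x.val + s) = Bn p A x.val) ∧
      ¬ (p - 1 ≤ 2 * x.val + 2 * m ∧ 2 * x.val ≤ p - 1)
  obtain ⟨γ, Z, hZ1, hZ2, hZ3⟩ := Design2.abstract_design (fun _ : Fin R => (1 : ℝ) / R)
    (fun _ => by positivity) (by simp; field_simp) ρ hρ hρ1 π B (fun i x => En i x.val)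
    (by
      intro i x
      rw [← Finset.mul_sum, sum_ind, Finset.filter_mem_eq_inter, Finset.univ_inter]
      simp only [En, hρdef]
      split_ifs
      · rw [(hk1 i).1]; ring
      · rw [(hk1 i).2]; ring)
    G (2 * A) p
    (2 * (((p + m) / A + 1) * m) + m + (m + 1)) d (by positivity) hpR hd0 (by simp)
    (by simp; ring)
    (by
      intro i a
      have : (univ.filter fun z => π i z = a).card = (univ : Finset (ZMod p)).card := by
        refine Finset.card_bij (fun z _ => z.2) (fun _ _ => Finset.mem_univ _) ?_ ?_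
        · intro z hz z' hz' h
          have h1 := (Finset.mem_filter.mp hz).2
          have h2 := (Finset.mem_filter.mp hz').2
          simp only [π] at h1 h2
          refine Prod.ext (mul_left_cancel₀ (hα0 i) ?_) h
          rw [h] at h1
          linear_combination h1 - h2
        · intro y _
          refine ⟨((a - β i * y) / α i, y), Finset.mem_filter.mpr ⟨Finset.mem_univ _, ?_⟩, rfl⟩
          have := hα0 i
          simp only [π]; field_simp; ring
      rw [this]; simp)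
    (by
      intro i l hil z z' h1 h2
      simp only [π] at h1 h2
      have h3 := hdet0 i l hil
      push_cast at h3
      refine Prod.ext (mul_left_cancel₀ h3 ?_) (mul_left_cancel₀ h3 ?_)
      · linear_combination (β l : ZMod p) * h1 - (β i : ZMod p) * h2
      · linear_combination (α i : ZMod p) * h2 - (α l : ZMod p) * h1)
    (by
      intro y
      have h1 : (univ.filter fun x => B x = y) = univ.filter fun x : ZMod p =>
          Bn p A x.val = y.val := by
        ext x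
        simp only [B, toY, Finset.mem_filter, Finset.mem_univ, true_and, Fin.ext_iff,
          Nat.mod_eq_of_lt (Bn_lt p A x.val (ZMod.val_lt x))]
      rw [h1]
      exact_mod_cast card_fiber p A y.val hA0)
    (by
      have h1 := card_bad p A m hAm hA0
      have h1' := card_mid p m
      have h2 : (univ.filter fun x => x ∉ G) ⊆ (univ.filter fun x : ZMod p =>
          ¬ (x.val + m ≤ p ∧ ∀ s < m, Bn p A (x.val + s) = Bn p A x.val)) ∪
          (univ.filter fun x : ZMod p => p - 1 ≤ 2 * x.val + 2 * m ∧ 2 * x.val ≤ p - 1) := by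
        intro x hx
        simp only [G, Finset.mem_filter, Finset.mem_univ, true_and, Finset.mem_union] at hx ⊢
        tauto
      have h5 := (Finset.card_le_card h2).trans (Finset.card_union_le _ _)
      have h3 : (((p + m) / A : ℕ) : ℝ) ≤ ((p : ℝ) + m) / A := by
        have := Nat.cast_div_le (α := ℝ) (m := p + m) (n := A)
        simpa using this
      have h4 : (((univ.filter fun x => x ∉ G).card : ℕ) : ℝ)
          ≤ 2 * (((((p + m) / A : ℕ) : ℝ) + 1) * m) + m + (m + 1) := by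
        exact_mod_cast h5.trans (add_le_add h1 h1')
      refine h4.trans ?_
      gcongr)
  simp only [Fintype.card_fin] at hZ3
  have hT := Design2.numerics ρA r m A C d p _ Z.card hρA0 (Nat.cast_nonneg _) hAR
    hpR hAd le_rfl hpl hZ3
  have h1d : 0 < 1 - d := by linarith
  have hT0 : 0 < Z.card := by
    have : (0 : ℝ) < Z.card := lt_of_lt_of_le (by positivity) hT
    exact_mod_cast this
  let zz : Fin Z.card → ZMod p × ZMod p := fun t => (Z.equivFin.symm t).1
  have hzz : ∀ t, zz t ∈ Z := fun t => (Z.equivFin.symm t).2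
  have hzi : Function.Injective zz := fun t t' h =>
    Z.equivFin.symm.injective (Subtype.ext h)
  refine ⟨p, Z.card, fun t => (((zz t).1.val : ℤ), ((zz t).2.val : ℤ)),
    fun i x => 2 * x ≠ p - 1 ∧ γ (toY (Bn p A x)) ∈ En i x, fun i t => (π i (zz t)).val,
    hp0, hT0, ?_, ?_, ?_, ?_, ?_, ?_⟩
  · intro i t
    have h1 := (Finset.mem_filter.mp (hZ1 _ (hzz t) i).2).2.1.1
    have h2 := hαm i
    simp only
    omega
  · intro i t
    rw [← ZMod.intCast_zmod_eq_zero_iff_dvd]
    simp [π]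
  · intro i t s hs
    have h0 := (Finset.mem_filter.mp (hZ1 _ (hzz t) i).2).2
    have hs' : s < m := by have := hαm i; omega
    have h1 := h0.1.2 s hs'
    have h2 := h0.2
    have h3 := (hZ1 _ (hzz t) i).1
    beta_reduce
    refine ⟨by omega, ?_⟩
    simp only [h1]
    have h4 : En i ((π i (zz t)).val + s) = En i (π i (zz t)).val := by
      simp only [En]
      by_cases h : 2 * (π i (zz t)).val < p - 1
      · rw [if_pos h, if_pos (by omega)]
      · rw [if_neg h, if_neg (by omega)]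
    rw [h4]
    exact h3
  · rintro i i' hne hθ x - ⟨⟨-, h1⟩, ⟨-, h2⟩⟩
    have h3 := hc1 i i' hne hθ
    simp only [En] at h1 h2
    split_ifs at h1 h2
    · exact Finset.disjoint_left.mp h3.1 h1 h2
    · exact Finset.disjoint_left.mp h3.2 h1 h2
  · rintro i i' hθ x hx ⟨⟨h0, h1⟩, ⟨-, h2⟩⟩
    have h3 := hc2 i i' hθ
    simp only [En, Bn_symm p A x hx] at h1 h2
    by_cases h : 2 * x < p - 1
    · rw [if_pos h] at h1
      rw [if_neg (by omega)] at h2
      exact Finset.disjoint_left.mp h3.1 h1 h2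
    · rw [if_neg h] at h1
      rw [if_pos (by omega)] at h2
      exact Finset.disjoint_left.mp h3.2 h1 h2
  · intro i x
    have h1 : (univ.filter fun t => (π i (zz t)).val = x).card
        ≤ (Z.filter fun z => π i z = (x : ZMod p)).card := by
      refine Finset.card_le_card_of_injOn zz (fun t ht => ?_) hzi.injOn
      have h2 := (Finset.mem_filter.mp ht).2
      refine Finset.mem_filter.mpr ⟨hzz t, ?_⟩
      rw [← h2]; simp
    have h2 : ((univ.filter fun t => (π i (zz t)).val = x).card : ℝ)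
        ≤ (Z.filter fun z => π i z = (x : ZMod p)).card := by exact_mod_cast h1
    refine h2.trans ((hZ2 i x).trans ?_)
    have h3 := hρ i
    have h5 := hμ i
    rw [le_div_iff₀ (by positivity)]
    have h6 : μ i / ρ i ≤ 1 / (1 - d) := by
      rw [div_le_div_iff₀ h3 h1d]; linarith [hρμ i]
    have h4 : (1 + d) * (p * ρA / ρ i) * (μ i * p) = (1 + d) * (μ i / ρ i) * (ρA * p ^ 2) := by
      field_simp
    rw [h4]
    calc (1 + d) * (μ i / ρ i) * (ρA * p ^ 2)
        ≤ (1 + δ) * (1 - d) ^ 2 * (1 / (1 - d)) * (ρA * p ^ 2) := by gcongr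
      _ = (1 + δ) * ((1 - d) * ρA * p ^ 2) := by field_simp
      _ ≤ (1 + δ) * Z.card := by gcongr

end Vale.Agent.P130
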