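import Vale.Agent.P130.TP

/-! P130: assembling the main statement -/

namespace Vale.Agent.P130

open Finset MeasureTheory Vale.Agent.P110

namespace Final

lemma step {h L q : ℕ} {t : ℕ → ℕ} (hq : 0 < q) (ht : ∀ j, t j < L) {g : ℝ → ℂ}
    (hg : TP 0 h g) (hn : ∫ θ in (0 : ℝ)..1, ‖g θ‖ ^ 2 = 1) :
    TP 0 ((q * (h + L) : ℕ) : ℤ) (fun θ => g θ *
      ((∑ j ∈ range q, e ((j * (h + L) + t j : ℕ) * θ)) / ((√q : ℝ) : ℂ))) ∧
    ∫ θ in (0 : ℝ)..1, ‖g θ *
      ((∑ j ∈ range q, e ((j * (h + L) + t j : ℕ) * θ)) / ((√q : ℝ) : ℂ))‖ ^ 2 = 1 := by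
  let a : ℕ → ℝ → ℂ := fun j θ =>
    g θ * ((((√q : ℝ) : ℂ))⁻¹ * e ((((j * (h + L) + t j : ℕ) : ℤ) : ℝ) * θ))
  have ha : ∀ j < q, TP (0 + j * ((h + L : ℕ) : ℤ)) (0 + j * ((h + L : ℕ) : ℤ) + ((h + L : ℕ) : ℤ))
      (a j) := by
    intro j _
    have h1 : (t j : ℤ) < L := by exact_mod_cast ht j
    refine (hg.mul (TP.single ((j * (h + L) + t j : ℕ) : ℤ) (((√q : ℝ) : ℂ))⁻¹)).mono ?_ ?_
    · push_cast; omega
    · push_cast; omega
  have he : ∀ θ, g θ * ((∑ j ∈ range q, e ((j * (h + L) + t j : ℕ) * θ)) / ((√q : ℝ) : ℂ))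
      = ∑ j ∈ range q, a j θ := by
    intro θ
    simp only [a, Int.cast_natCast]
    rw [← Finset.mul_sum, ← Finset.mul_sum, div_eq_inv_mul]
  have hq' : (0 : ℝ) < q := by exact_mod_cast hq
  constructor
  · refine (TP.sum (range q) fun j hj => (ha j (mem_range.1 hj)).mono ?_ ?_).congr he
    · positivity
    · have : (j : ℤ) + 1 ≤ q := by exact_mod_cast mem_range.1 hj
      have h2 : (0 : ℤ) ≤ ((h + L : ℕ) : ℤ) := by positivity
      rw [Nat.cast_mul]
      nlinarith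
  · simp only [he]
    rw [TP.orth 0 _ q a ha (by positivity)]
    have : ∀ j, ∫ θ in (0 : ℝ)..1, ‖a j θ‖ ^ 2 = 1 / q := by
      intro j
      have e1 : ∀ θ, ‖a j θ‖ ^ 2 = 1 / q * ‖g θ‖ ^ 2 := by
        intro θ
        simp only [a, norm_mul, norm_e, norm_inv, Complex.norm_real, Real.norm_eq_abs, mul_one,
          mul_pow, inv_pow, sq_abs, Real.sq_sqrt hq'.le]
        ring
      simp only [e1]
      rw [intervalIntegral.integral_const_mul, hn, mul_one]
    simp only [this, sum_const, card_range, nsmul_eq_mul]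
    field_simp

lemma params (hF : FlatStmt) : ∃ (h q : ℕ → ℕ) (pos : ℕ → ℕ → ℕ), (∀ n, n < h n) ∧
    (∀ n, 0 < q n) ∧ (∀ n j, pos n j + h n ≤ pos n (j + 1)) ∧
    (∀ n j, j < q n → pos n j + h n < h (n + 1)) ∧
    (∀ n, (h (n + 1) : ℝ) ≤ (1 + 1 / 2 ^ n) * (q n * h n)) ∧
    (∀ n N, n ≤ N → ∫ θ in (0 : ℝ)..1, ‖e θ - 1‖ ^ 2 *
      ‖∏ m ∈ Ico n N, ((∑ j ∈ range (q m), e (pos m j * θ)) / ((√(q m) : ℝ) : ℂ))‖ ^ 2 *
      (‖∑ j ∈ range (q N), e (pos N j * θ)‖ / √(q N) - 1) ^ 2 ≤ 1 / 4 ^ N) := by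
  classical
  have h1 : ∀ N : ℕ, (0 : ℝ) < 1 / 4 ^ N / (N + 1) := fun N => by positivity
  choose L hL using fun N : ℕ => hF _ (h1 N)
  have h2 : ∀ (N : ℕ) (s : ℕ × (ℕ → ℝ → ℂ)), ∃ (q : ℕ) (t : ℕ → ℕ),
      (∀ i < N + 1, TP 0 s.1 (s.2 i)) →
      (2 ^ (N + 1) * L (N + 1) + N + 2 ≤ q ∧ 0 < q ∧ (∀ j, t j < L N) ∧
      ∑ i ∈ range (N + 1), ∫ θ in (0 : ℝ)..1, ‖e θ - 1‖ ^ 2 * ‖s.2 i θ‖ ^ 2 *
        (‖∑ j ∈ range q, e ((j * (s.1 + L N) + t j : ℕ) * θ)‖ / √q - 1) ^ 2
      ≤ 1 / 4 ^ N / (N + 1) * ∑ i ∈ range (N + 1), ∫ θ in (0 : ℝ)..1, ‖s.2 i θ‖ ^ 2) := by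
    intro N s
    by_cases hs : ∀ i < N + 1, TP 0 s.1 (s.2 i)
    · obtain ⟨q, t, h⟩ := hL N s.1 (2 ^ (N + 1) * L (N + 1) + N + 2) (N + 1) s.2 hs
      exact ⟨q, t, fun _ => h⟩
    · exact ⟨0, fun _ => 0, fun h => absurd h hs⟩
  choose Q t hQ using h2
  let st : ℕ → ℕ × (ℕ → ℝ → ℂ) := fun N => Nat.rec (L 0 + 1, fun _ _ => 1)
    (fun N s => (Q N s * (s.1 + L N), fun n θ => if n ≤ N then s.2 n θ *
      ((∑ j ∈ range (Q N s), e ((j * (s.1 + L N) + t N s j : ℕ) * θ)) / ((√(Q N s) : ℝ) : ℂ))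
      else 1)) N
  have st0 : st 0 = (L 0 + 1, fun _ _ => 1) := rfl
  have st1 : ∀ N, (st (N + 1)).1 = Q N (st N) * ((st N).1 + L N) := fun N => rfl
  have st2 : ∀ N n θ, (st (N + 1)).2 n θ = if n ≤ N then (st N).2 n θ *
      ((∑ j ∈ range (Q N (st N)), e ((j * ((st N).1 + L N) + t N (st N) j : ℕ) * θ)) /
        ((√(Q N (st N)) : ℝ) : ℂ)) else 1 := fun N n θ => rfl
  have inv : ∀ N, (∀ i < N + 1, TP 0 (st N).1 ((st N).2 i) ∧
      ∫ θ in (0 : ℝ)..1, ‖(st N).2 i θ‖ ^ 2 = 1) ∧ 2 ^ N * L N ≤ (st N).1 ∧ N < (st N).1 := by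
    intro N
    induction N with
    | zero =>
      rw [st0]
      refine ⟨fun i _ => ⟨TP.one.mono le_rfl (by push_cast; omega), by simp⟩, by simp, by simp⟩
    | succ N ih =>
      obtain ⟨ih1, ih2, ih3⟩ := ih
      obtain ⟨q1, q2, q3, -⟩ := hQ N (st N) fun i hi => (ih1 i hi).1
      have hge : Q N (st N) ≤ (st (N + 1)).1 := by
        rw [st1]; exact Nat.le_mul_of_pos_right _ (by omega)
      refine ⟨fun i _ => ?_, by omega, by omega⟩
      by_cases hi : i ≤ N
      · have := step q2 q3 (ih1 i (by omega)).1 (ih1 i (by omega)).2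
        simp only [st2, if_pos hi]
        refine ⟨this.1.congr fun θ => ?_, this.2⟩
        rw [st2, if_pos hi]
      · simp only [st2, if_neg hi]
        refine ⟨(TP.one.mono le_rfl (by omega)).congr fun θ => ?_, by simp⟩
        rw [st2, if_neg hi]
  have hQ' := fun N => hQ N (st N) fun i hi => ((inv N).1 i hi).1
  refine ⟨fun N => (st N).1, fun N => Q N (st N), fun N j => j * ((st N).1 + L N) + t N (st N) j,
    fun N => (inv N).2.2, fun N => (hQ' N).2.1, fun N j => ?_, fun N j hj => ?_, fun N => ?_,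
    fun n N hn => ?_⟩
  · have := (hQ' N).2.2.1 j
    simp only [add_mul, one_mul]
    omega
  · have := (hQ' N).2.2.1 j
    simp only [st1]
    have h3 : (j + 1) * ((st N).1 + L N) ≤ Q N (st N) * ((st N).1 + L N) :=
      Nat.mul_le_mul_right _ hj
    rw [add_mul, one_mul] at h3
    omega
  · simp only [st1]
    have h3 : (2 : ℝ) ^ N * L N ≤ (st N).1 := by exact_mod_cast (inv N).2.1
    have h4 : (L N : ℝ) ≤ 1 / 2 ^ N * (st N).1 := by
      rw [one_div, ← div_eq_inv_mul, le_div_iff₀ (by positivity)]; linarith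
    have h5 := mul_le_mul_of_nonneg_left h4 (Nat.cast_nonneg (α := ℝ) (Q N (st N)))
    push_cast
    nlinarith
  · have hprod : ∀ N n θ, n ≤ N → (st N).2 n θ = ∏ m ∈ Ico n N,
        ((∑ j ∈ range (Q m (st m)), e ((j * ((st m).1 + L m) + t m (st m) j : ℕ) * θ)) /
          ((√(Q m (st m)) : ℝ) : ℂ)) := by
      intro N
      induction N with
      | zero => intro n θ _; simp [st0]
      | succ N ih =>
        intro n θ hn
        rw [st2]
        split_ifs with h
        · rw [ih n θ h, Finset.prod_Ico_succ_top h]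
        · rw [Finset.Ico_eq_empty (by omega), Finset.prod_empty]
    simp only [← hprod N n _ hn]
    have h3 := (hQ' N).2.2.2
    rw [Finset.sum_congr rfl fun i hi => ((inv N).1 i (mem_range.1 hi)).2] at h3
    simp only [sum_const, card_range, nsmul_eq_mul, mul_one] at h3
    have h4 : (1 : ℝ) / 4 ^ N / (N + 1) * ((N + 1 : ℕ) : ℝ) = 1 / 4 ^ N := by
      push_cast; field_simp
    rw [h4] at h3
    refine le_trans ?_ h3
    refine Finset.single_le_sum (f := fun i => ∫ θ in (0 : ℝ)..1, ‖e θ - 1‖ ^ 2 *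
      ‖(st N).2 i θ‖ ^ 2 * (‖∑ j ∈ range (Q N (st N)),
        e ((j * ((st N).1 + L N) + t N (st N) j : ℕ) * θ)‖ / √(Q N (st N)) - 1) ^ 2)
      (fun i _ => ?_) (mem_range.2 (by omega))
    exact intervalIntegral.integral_nonneg zero_le_one fun θ _ => by positivity

lemma mp_zpow {X : Type} [MeasurableSpace X] {μ : Measure X} (T : X ≃ᵐ X)
    (hT : MeasurePreserving T μ μ) (k : ℤ) :
    MeasurePreserving (T.toEquiv ^ k : Equiv.Perm X) μ μ := by
  induction k using Int.induction_on with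
  | zero => rw [zpow_zero]; exact MeasurePreserving.id μ
  | succ k ih => rw [zpow_add_one, Equiv.Perm.coe_mul]; exact ih.comp hT
  | pred k ih => rw [zpow_sub_one, Equiv.Perm.coe_mul]; exact ih.comp (hT.symm T)

end Final

open Final in
theorem main_of : FlatStmt → SystemStmt → SpectralStmt → MainStmt := by
  intro hF hS hSp
  obtain ⟨h, q, pos, p1, p2, p3, p4, p5, p6⟩ := params hF
  obtain ⟨X, _, _, μ, _, T, B, s1, s2, s3, s4, s5, s6, s7, s8⟩ :=
    hS h q pos p1 p2 (fun n j _ => p3 n j) (fun n j hj => (p4 n j hj).le) p5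
  have mp := mp_zpow T s2
  let V : ℤ → Lp ℂ 2 μ →ₗᵢ[ℂ] Lp ℂ 2 μ := fun k =>
    Lp.compMeasurePreservingₗᵢ ℂ (T.toEquiv ^ (-k) : Equiv.Perm X) (mp (-k))
  have hV : ∀ k (a : Lp ℂ 2 μ), V k a =ᵐ[μ] fun x => a ((T.toEquiv ^ (-k) : Equiv.Perm X) x) :=
    fun k a => Lp.coeFn_compMeasurePreserving a (mp (-k))
  let I : ℕ → Lp ℂ 2 μ := fun n => indicatorConstLp 2 (s3 n) (measure_ne_top _ _) (1 : ℂ)
  have hI : ∀ n, I n =ᵐ[μ] (B n).indicator fun _ => (1 : ℂ) := fun n => indicatorConstLp_coeFn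
  let one : Lp ℂ 2 μ := indicatorConstLp 2 MeasurableSet.univ (measure_ne_top _ _) (1 : ℂ)
  have hone : ∀ᵐ x ∂μ, one x = 1 := by
    have : one =ᵐ[μ] _ := indicatorConstLp_coeFn
    filter_upwards [this] with x hx
    simpa using hx
  have hone' : ∀ a : Lp ℂ 2 μ, inner ℂ one a = ∫ x, a x ∂μ := fun a => by
    rw [L2.inner_indicatorConstLp_one, Measure.restrict_univ]
  let c : ℕ → ℝ := fun n => 1 / √(μ.real (B n))
  have hc : ∀ n, 0 < c n := fun n => by have := s4 n; positivity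
  have hc2 : ∀ n, c n * c n * μ.real (B n) = 1 := fun n => by
    have := s4 n
    simp only [c]
    rw [div_mul_div_comm, Real.mul_self_sqrt this.le]
    field_simp
  have hVI : ∀ n k (a : Lp ℂ 2 μ), inner ℂ (V k (I n)) a
      = ∫ x in (T.toEquiv ^ (-k) : Equiv.Perm X) ⁻¹' B n, a x ∂μ := fun n k a =>
    L2.inner_indicatorConstLp_one ((s3 n).preimage (mp (-k)).measurable) (measure_ne_top _ _) a
  have hin : ∀ a b : Lp ℂ 2 μ, inner ℂ a b = ∫ x, b x * (starRingEnd ℂ) (a x) ∂μ := fun a b => by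
    rw [L2.inner_def]; rfl
  obtain ⟨f, f1, f2, f3⟩ := hSp (Lp ℂ 2 μ) V one (fun n => (c n : ℂ) • I n) h q pos
    (fun k l a => by
      refine Lp.ext ?_
      filter_upwards [hV (k + l) a, hV k (V l a), (mp (-k)).quasiMeasurePreserving.ae (hV l a)]
        with x h1 h2 h3
      rw [h1, h2, h3, neg_add_rev, zpow_add, Equiv.Perm.mul_apply])
    (fun a => by
      refine Lp.ext ?_
      filter_upwards [hV 0 a] with x h1
      simpa using h1)
    (fun k => by
      refine Lp.ext ?_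
      filter_upwards [hV k one, hone, (mp (-k)).quasiMeasurePreserving.ae hone] with x h1 h2 h3
      rw [h1, h2, h3])
    (by
      rw [inner_smul_left, L2.inner_indicatorConstLp_one_indicatorConstLp_one, Set.inter_univ]
      simp [(hc 0).ne', (s4 0).ne'])
    (p1 0) p2 p4
    (fun n k hk => by
      rw [map_smul, inner_smul_left, inner_smul_right, hVI, setIntegral_indicatorConstLp
        ((s3 n).preimage (mp (-k)).measurable)]
      split_ifs with h0
      · subst h0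
        simp only [neg_zero, zpow_zero, Equiv.Perm.coe_one, Set.preimage_id_eq, id_eq,
          Set.inter_self, Complex.conj_ofReal, Complex.real_smul, mul_one]
        rw [← mul_assoc]
        exact_mod_cast hc2 n
      · have := s6 n (-k) (neg_ne_zero.2 h0) (by rwa [abs_neg])
        rw [Measure.real, this]
        simp)
    (fun n => by
      have e1 : I n = ∑ j ∈ range (q n), V (pos n j) (I (n + 1)) := by
        refine Lp.ext ?_
        have h1 : ∀ᵐ x ∂μ, ∀ j : ℕ, V (pos n j) (I (n + 1)) x = (B (n + 1)).indicator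
            (fun _ => (1 : ℂ)) ((T.toEquiv ^ (-(pos n j : ℤ)) : Equiv.Perm X) x) := by
          refine ae_all_iff.2 fun j => ?_
          filter_upwards [hV (pos n j) (I (n + 1)),
            (mp (-(pos n j : ℤ))).quasiMeasurePreserving.ae (hI (n + 1))] with x h1 h2
          rw [h1, h2]
        filter_upwards [hI n, s7 n, h1,
          Lp.coeFn_finsetSum (range (q n)) fun j => V (pos n j) (I (n + 1))] with x h2 h3 h4 h5
        rw [h2, h3, h5, Finset.sum_apply]
        exact Finset.sum_congr rfl fun j _ => (h4 j).symm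
      simp only [map_smul]
      rw [← Finset.smul_sum, ← e1, smul_smul, ← Complex.ofReal_mul]
      congr 2
      simp only [c]
      rw [s5 n, Real.sqrt_mul (Nat.cast_nonneg _), div_mul_div_comm, one_mul])
    (fun ξ hξ => by
      refine Lp.eq_zero_iff_ae_eq_zero.2 (s8 ξ (Lp.memLp ξ) fun n k => ?_)
      have := hξ n (-k)
      rw [map_smul, inner_smul_left, hVI, neg_neg] at this
      simpa [(hc n).ne'] using this)
    p6
  refine ⟨X, _, ‹_›, μ, ‹_›, T, f, s1, s2, Lp.memLp f, by rw [← hone', f1], fun m n => ?_,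
    fun g hg hg0 hgn => ?_⟩
  · have := f2 (-n) (-m)
    rw [hin] at this
    have e : (if m = n then (1 : ℂ) else 0) = if -n = -m then 1 else 0 := by
      simp only [neg_inj, eq_comm]
    rw [e, ← this]
    refine integral_congr_ae ?_
    filter_upwards [hV (-n) f, hV (-m) f] with x h1 h2
    rw [h1, h2, neg_neg, neg_neg]
  · have h0 := f3 (hg.toLp g) (by rw [hone', integral_congr_ae hg.coeFn_toLp, hg0]) fun k => by
      rw [hin, ← hgn (-k)]
      refine integral_congr_ae ?_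
      filter_upwards [hV k f, hg.coeFn_toLp] with x h1 h2
      rw [h1, h2]
    exact hg.coeFn_toLp.symm.trans (Lp.eq_zero_iff_ae_eq_zero.1 h0)

end Vale.Agent.P130
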