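import Vale.Agent.P130.FlatA

/-! # P130: flat polynomials with bounded spacers -/

namespace Vale.Agent.P130

open Finset MeasureTheory Vale.Agent.P110

namespace Flat

lemma TP_bound {lo hi : ℤ} {f : ℝ → ℂ} (hf : TP lo hi f) : ∃ C : ℝ, ∀ θ, ‖f θ‖ ≤ C := by
  obtain ⟨ι, S, n, c, -, hf⟩ := hf
  refine ⟨∑ i ∈ S, ‖c i‖, fun θ => ?_⟩
  rw [hf]
  refine (norm_sum_le _ _).trans (le_of_eq (Finset.sum_congr rfl fun i _ => ?_))
  rw [norm_mul, norm_e, mul_one]

lemma err {Ω : Type} [MeasurableSpace Ω] (ν : Measure Ω) [IsProbabilityMeasure ν]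
    (act : ℕ → Ω → Ω) (hact : ∀ j, MeasurePreserving (act j) ν ν) (f : ℝ → Ω → ℝ)
    (hf : Measurable (Function.uncurry f)) (C : ℝ) (hC : ∀ θ y, ‖f θ y‖ ≤ C) (B : ℝ → ℝ)
    (hB : Continuous B) (hb : ∀ θ ∈ Set.Icc (0 : ℝ) 1, ∫ y, f θ y ∂ν ≤ B θ) (q : ℕ) :
    ∃ x, ∑ j ∈ range q, ∫ θ in (0 : ℝ)..1, f θ (act j x) ≤ q * ∫ θ in (0 : ℝ)..1, B θ := by
  have hfin : IsFiniteMeasure (volume.restrict (Set.uIoc (0 : ℝ) 1)) := by
    rw [Set.uIoc_of_le zero_le_one]; infer_instance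
  have hint : Integrable (Function.uncurry f) ((volume.restrict (Set.uIoc (0 : ℝ) 1)).prod ν) :=
    Integrable.of_bound hf.aestronglyMeasurable C (ae_of_all _ fun x => hC x.1 x.2)
  have hswap := intervalIntegral_integral_swap hint
  have hS : Integrable (fun y => ∫ θ in (0 : ℝ)..1, f θ y) ν := by
    have := hint.integral_prod_right
    simp only [Function.uncurry_apply_pair, Set.uIoc_of_le zero_le_one] at this
    simpa only [intervalIntegral.integral_of_le zero_le_one] using this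
  have hL : IntervalIntegrable (fun θ => ∫ y, f θ y ∂ν) volume 0 1 := by
    rw [intervalIntegrable_iff]
    exact hint.integral_prod_left
  have hSj : ∀ j, Integrable (fun x => ∫ θ in (0 : ℝ)..1, f θ (act j x)) ν := fun j =>
    ((hact j).integrable_comp hS.aestronglyMeasurable).mpr hS
  have hIj : ∀ j, ∫ x, (∫ θ in (0 : ℝ)..1, f θ (act j x)) ∂ν
      = ∫ y, (∫ θ in (0 : ℝ)..1, f θ y) ∂ν := by
    intro j
    have h1 := integral_map (μ := ν) (φ := act j) (hact j).measurable.aemeasurable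
      (f := fun y => ∫ θ in (0 : ℝ)..1, f θ y)
      (by rw [(hact j).map_eq]; exact hS.aestronglyMeasurable)
    rw [(hact j).map_eq] at h1
    exact h1.symm
  obtain ⟨x, hx⟩ := exists_le_integral (integrable_finsetSum (range q) fun j _ => hSj j)
  refine ⟨x, hx.trans ?_⟩
  rw [integral_finsetSum _ fun j _ => hSj j]
  simp only [hIj, Finset.sum_const, Finset.card_range, nsmul_eq_mul]
  rw [← hswap]
  exact mul_le_mul_of_nonneg_left (intervalIntegral.integral_mono_on zero_le_one hL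
    (hB.intervalIntegrable 0 1) hb) (Nat.cast_nonneg _)

lemma ii_of_bound (f : ℝ → ℝ) (hf : Measurable f) (C : ℝ) (hC : ∀ φ, ‖f φ‖ ≤ C) :
    IntervalIntegrable f volume 0 1 := by
  rw [intervalIntegrable_iff_integrableOn_Ioc_of_le zero_le_one]
  exact Integrable.of_bound hf.aestronglyMeasurable C (ae_of_all _ hC)

lemma typeA (U : ℝ → ℂ) (A q μ d : ℝ) (hd : 0 ≤ d) (hq0 : 0 < q)
    (h : ∀ φ, U φ = 0 ∨ ‖U φ‖ = A) (hq : ∫ φ in (0 : ℝ)..1, ‖U φ‖ ^ 2 = q)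
    (hμ : μ * A ^ 2 ≤ (1 + d) * q) (c : ℂ) (hc : ‖c‖ ^ 2 ≤ μ) :
    (1 - d) * q * ‖c‖ ^ 2 ≤ √q * (∫ φ in (0 : ℝ)..1, ‖U φ‖) * ‖c‖ := by
  set a : ℝ := ∫ φ in (0 : ℝ)..1, ‖U φ‖ with ha
  have ha0 : 0 ≤ a := intervalIntegral.integral_nonneg zero_le_one fun φ _ => norm_nonneg _
  have h1 : A * a = q := by
    rw [ha, ← hq, ← intervalIntegral.integral_const_mul]
    refine intervalIntegral.integral_congr fun φ _ => ?_
    rcases h φ with h0 | h0 <;> simp only [h0, norm_zero] <;> ring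
  have hsq := Real.sqrt_nonneg q
  have hc0 := norm_nonneg c
  have h2 : ‖c‖ * A ≤ (1 + d) * √q := by
    refine le_of_sq_le_sq ?_ (by positivity)
    rw [mul_pow, mul_pow, Real.sq_sqrt hq0.le]
    have h7 := mul_le_mul_of_nonneg_right hc (sq_nonneg A)
    nlinarith [mul_nonneg hd hq0.le, mul_nonneg (sq_nonneg d) hq0.le]
  have h3 := mul_le_mul_of_nonneg_left h2 (mul_nonneg ha0 hc0)
  have h4 : 0 ≤ √q * a * ‖c‖ := by positivity
  by_cases hd1 : d ≤ 1
  · have h5 := mul_le_mul_of_nonneg_left h3 (show 0 ≤ 1 - d by linarith)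
    have h6 := mul_nonneg (sq_nonneg d) h4
    rw [← h1] at h5 ⊢
    rw [h1] at h5 ⊢
    nlinarith
  · have : (1 - d) * q * ‖c‖ ^ 2 ≤ 0 :=
      mul_nonpos_of_nonpos_of_nonneg (mul_nonpos_of_nonpos_of_nonneg (by linarith) hq0.le)
        (sq_nonneg _)
    linarith

lemma mu_le_one {r : ℕ} {α β : Fin r → ℤ} {μ lo hi : Fin r → ℝ} (hT : Types r α β μ lo hi)
    (i : Fin r) : μ i ≤ 1 := by
  obtain ⟨-, -, hμ, hlh, hcl⟩ := hT
  refine le_trans ?_ (hcl (lo i))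
  have h0 : ∀ (j : Fin r) (P : Prop) [Decidable P], 0 ≤ if P then μ j else 0 := fun j P _ => by
    split_ifs
    · exact (hμ j).le
    · exact le_rfl
  refine le_trans ?_ (Finset.single_le_sum (fun j _ => add_nonneg (h0 j _) (h0 j _))
    (Finset.mem_univ i))
  rw [if_pos ⟨le_rfl, hlh i⟩]
  linarith [h0 i (lo i ≤ 1 - lo i ∧ 1 - lo i ≤ hi i)]

lemma edge (d θ : ℝ) (hd : 0 < d) (hd1 : d ≤ 1) (hθ : θ ∈ Set.Icc (0 : ℝ) 1)
    (h : θ ∉ Set.Icc (d / 8) (1 - d / 8)) : ‖e θ - 1‖ ^ 2 ≤ d := by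
  have h1 : ‖e θ - 1‖ ≤ d := by
    have hpi := Real.pi_le_four
    have hpi0 := Real.pi_pos
    by_cases h2 : θ < d / 8
    · refine (norm_e_sub_one_le θ).trans ?_
      rw [abs_of_nonneg hθ.1]
      nlinarith [hθ.1]
    · have h3 : 1 - d / 8 < θ := by
        by_contra h4
        exact h ⟨not_lt.mp h2, not_lt.mp h4⟩
      have h5 := e_sub_int θ 1
      rw [← h5]
      refine (norm_e_sub_one_le _).trans ?_
      push_cast
      rw [abs_of_nonpos (by linarith [hθ.2])]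
      nlinarith [hθ.2]
  have h2 := norm_nonneg (e θ - 1)
  nlinarith

lemma four (θ : ℝ) : ‖e θ - 1‖ ^ 2 ≤ 4 := by
  have h1 := norm_sub_le (e θ) 1
  rw [norm_e, norm_one] at h1
  have h2 := norm_nonneg (e θ - 1)
  nlinarith

lemma approx2 (c : ℝ → ℂ) (hc : Continuous c) (h01 : c 0 = c 1) (hc1 : ∀ θ, ‖c θ‖ ≤ 1) {κ : ℝ}
    (hκ : 0 < κ) (hκ1 : κ ≤ 1) : ∃ (D : ℕ) (p s : ℝ → ℂ), TP (-D) D p ∧ TP (-D) D s ∧
      (∀ θ ∈ Set.Icc (0 : ℝ) 1, ‖p θ - c θ‖ ≤ κ) ∧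
      ∀ θ ∈ Set.Icc (0 : ℝ) 1, |‖s θ‖ ^ 2 - ‖c θ‖| ≤ 3 * κ := by
  obtain ⟨D1, p, hp1, hp2⟩ := TP.approx c hc h01 hκ
  obtain ⟨D2, s, hs1, hs2⟩ := TP.approx (fun θ => ((√‖c θ‖ : ℝ) : ℂ)) (by fun_prop)
    (by simp only [h01]) hκ
  refine ⟨D1 + D2, p, s, hp1.mono (by omega) (by omega), hs1.mono (by omega) (by omega), hp2,
    fun θ hθ => ?_⟩
  have h1 := abs_le.mp ((abs_norm_sub_norm_le _ _).trans (hs2 θ hθ))
  rw [Complex.norm_real, Real.norm_of_nonneg (Real.sqrt_nonneg _)] at h1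
  have h2 := Real.sq_sqrt (norm_nonneg (c θ))
  have h3 := Real.sqrt_nonneg ‖c θ‖
  have h4 : √‖c θ‖ ≤ 1 := Real.sqrt_le_one.mpr (hc1 θ)
  have h5 := norm_nonneg (s θ)
  rw [abs_le]; constructor <;> nlinarith

set_option maxHeartbeats 800000 in
lemma flat_abs {σ Ω : Type} [Fintype σ] [MeasurableSpace Ω] (ν : Measure Ω)
    [IsProbabilityMeasure ν] (d κ ε : ℝ) (hd : 0 < d) (hd1 : d ≤ 1 / 4) (hκ : 0 ≤ κ)
    (hκ1 : κ ≤ 1) (hNκ : (Fintype.card σ : ℝ) * κ ≤ d) (hNε : (Fintype.card σ : ℝ) ^ 2 * ε ≤ d)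
    (L₀ D : ℕ) (T : Ω → ℕ) (hT : Measurable T) (hTL : ∀ y, T y < L₀)
    (X : σ → Ω → ℂ) (hXm : ∀ τ, Measurable (X τ)) (hX1 : ∀ τ y, ‖X τ y‖ = 1)
    (c p s : σ → ℝ → ℂ) (hc : ∀ τ, Continuous (c τ)) (hp : ∀ τ, TP (-D) D (p τ))
    (hs : ∀ τ, TP (-D) D (s τ)) (hc1 : ∀ τ θ, ‖c τ θ‖ ≤ 1)
    (hpc : ∀ τ, ∀ θ ∈ Set.Icc (0 : ℝ) 1, ‖p τ θ - c τ θ‖ ≤ κ)
    (hsc : ∀ τ, ∀ θ ∈ Set.Icc (0 : ℝ) 1, |‖s τ θ‖ ^ 2 - ‖c τ θ‖| ≤ 3 * κ)
    (hmain : ∀ θ ∈ Set.Icc (d / 8) (1 - d / 8), 1 - d ≤ ∑ τ, ‖c τ θ‖ ^ 2)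
    (herr1 : ∀ θ ∈ Set.Icc (d / 8) (1 - d / 8),
      ∫ y, ‖e (θ * T y) - ∑ τ, c τ θ * X τ y‖ ^ 2 ∂ν ≤ d)
    (herr2 : ∀ θ : ℝ, ∫ y, ‖e (θ * T y) - ∑ τ, c τ θ * X τ y‖ ^ 2 ∂ν ≤ 4)
    (h k : ℕ) (g : ℕ → ℝ → ℂ) (hg : ∀ i < k, TP 0 h (g i)) (q : ℕ) (hq : 0 < q)
    (act : ℕ → Ω → Ω) (hact : ∀ j, MeasurePreserving (act j) ν ν) (ph : σ → ℕ → ℝ)
    (hX : ∀ τ j y, X τ (act j y) = e (ph τ j) * X τ y) (U : σ → ℝ → ℂ)
    (hUm : ∀ τ, Measurable (U τ)) (A : σ → ℝ) (hUA : ∀ τ φ, ‖U τ φ‖ ≤ A τ)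
    (hUq : ∀ τ, ∫ φ in (0 : ℝ)..1, ‖U τ φ‖ ^ 2 = q)
    (hQe : ∀ τ, ∫ φ in (0 : ℝ)..1, ‖∑ j ∈ range q, e (j * φ + ph τ j) - U τ φ‖ ^ 2 ≤ ε * q)
    (hA : ∀ τ θ, (1 - d) * q * ‖c τ θ‖ ^ 2 ≤ √q * (∫ φ in (0 : ℝ)..1, ‖U τ φ‖) * ‖c τ θ‖)
    (hdis : ∀ τ τ', τ ≠ τ' → ∀ θ φ, c τ θ * U τ φ = 0 ∨ c τ' θ * U τ' φ = 0) :
    ∃ x, ∑ i ∈ range k, ∫ θ in (0 : ℝ)..1, ‖e θ - 1‖ ^ 2 * ‖g i θ‖ ^ 2 *
        (‖∑ j ∈ range q, e ((j * (h + (2 * D + L₀ + 1)) + T (act j x) : ℕ) * θ)‖ / √q - 1) ^ 2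
      ≤ 500 * d * ∑ i ∈ range k, ∫ θ in (0 : ℝ)..1, ‖g i θ‖ ^ 2 := by
  set N : ℝ := (Fintype.card σ : ℝ) with hN
  have hN0 : 0 ≤ N := Nat.cast_nonneg _
  set H : ℕ := h + (2 * D + L₀ + 1) with hH
  have hH0 : 0 < H := by omega
  have hqR : (0 : ℝ) < q := by exact_mod_cast hq
  let R : ℝ → Ω → ℂ := fun θ y => e (θ * T y) - ∑ τ, p τ θ * X τ y
  let w : ℕ → ℝ → ℂ := fun i θ => (e θ - 1) * g i θ
  have hw : ∀ i < k, TP 0 (h + 1) (w i) := fun i hi =>
    (TP.e_sub_one.mul (hg i hi)).mono (by omega) (by omega)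
  have hgc : ∀ i ∈ range k, Continuous (g i) := fun i hi =>
    (hg i (Finset.mem_range.mp hi)).continuous
  have hwc : ∀ i ∈ range k, Continuous (w i) := fun i hi =>
    (hw i (Finset.mem_range.mp hi)).continuous
  have hpcont : ∀ τ, Continuous (p τ) := fun τ => (hp τ).continuous
  have hTR : Measurable fun y => (T y : ℝ) := measurable_from_top.comp hT
  have hR : ∀ y, TP (-D) (D + L₀) (fun θ => R θ y) := by
    intro y
    have h1 := hTL y
    refine TP.sub (((TP.single (T y) 1).mono (by omega) (by omega)).congr fun θ => ?_)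
      (TP.sum univ fun τ _ => ((hp τ).mul_const _).mono le_rfl (by omega))
    rw [one_mul, mul_comm]; simp
  have hRint : ∀ θ ∈ Set.Icc (0 : ℝ) 1, ∫ y, ‖R θ y‖ ^ 2 ∂ν
      ≤ 2 * ∫ y, ‖e (θ * T y) - ∑ τ, c τ θ * X τ y‖ ^ 2 ∂ν + 2 * d ^ 2 := by
    intro θ hθ
    have hi : Integrable (fun y => ‖e (θ * T y) - ∑ τ, c τ θ * X τ y‖ ^ 2) ν := by
      refine Integrable.of_bound (Measurable.aestronglyMeasurable ?_) ((1 + N) ^ 2)
        (ae_of_all _ fun y => ?_)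
      · refine Measurable.pow_const (Measurable.norm (Measurable.sub
          (continuous_e.measurable.comp (hTR.const_mul θ))
          (Finset.measurable_sum _ fun τ _ => (hXm τ).const_mul _))) 2
      · rw [Real.norm_of_nonneg (sq_nonneg _)]
        refine pow_le_pow_left₀ (norm_nonneg _) ((norm_sub_le _ _).trans ?_) 2
        rw [norm_e]
        refine add_le_add le_rfl ((norm_sum_le _ _).trans ?_)
        refine (Finset.sum_le_sum (g := fun _ => (1 : ℝ)) fun τ _ => ?_).trans (by simp [hN])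
        rw [norm_mul, hX1, mul_one]; exact hc1 τ θ
    have h1 := integral_mono_of_nonneg (μ := ν) (f := fun y => ‖R θ y‖ ^ 2)
      (ae_of_all _ fun y => sq_nonneg _) ((hi.const_mul 2).add (integrable_const (2 * d ^ 2)))
      (ae_of_all _ fun y => by
        have h2 : R θ y = (e (θ * T y) - ∑ τ, c τ θ * X τ y) - ∑ τ, (p τ θ - c τ θ) * X τ y := by
          simp only [R, sub_mul, Finset.sum_sub_distrib]; ring
        have h3 : ‖∑ τ, (p τ θ - c τ θ) * X τ y‖ ≤ d := by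
          refine (norm_sum_le _ _).trans (le_trans ?_ hNκ)
          refine (Finset.sum_le_sum (g := fun _ => κ) fun τ _ => ?_).trans (by simp [hN])
          rw [norm_mul, hX1, mul_one]; exact hpc τ θ hθ
        have h4 := (norm_sub_le (e (θ * T y) - ∑ τ, c τ θ * X τ y)
          (∑ τ, (p τ θ - c τ θ) * X τ y)).trans (add_le_add le_rfl h3)
        rw [← h2] at h4
        have h5 := pow_le_pow_left₀ (norm_nonneg _) h4 2
        simp only [Pi.add_apply]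
        nlinarith [sq_nonneg (‖e (θ * T y) - ∑ τ, c τ θ * X τ y‖ - d)])
    refine h1.trans (le_of_eq ?_)
    have h6 := integral_add (hi.const_mul 2) (integrable_const (2 * d ^ 2))
    simp only [integral_const_mul, integral_const, probReal_univ, smul_eq_mul, one_mul] at h6
    exact h6
  choose! Cw hCw using fun i (hi : i < k) => TP_bound (hw i hi)
  choose Cp hCp using fun τ => TP_bound (hp τ)
  obtain ⟨x, hx⟩ := err ν act hact (fun θ y => (∑ i ∈ range k, ‖w i θ‖ ^ 2) * ‖R θ y‖ ^ 2)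
    (by
      refine Measurable.mul (Finset.measurable_sum _ fun i hi =>
        (((hwc i hi).measurable.comp measurable_fst).norm.pow_const 2)) ?_
      refine Measurable.pow_const (Measurable.norm (Measurable.sub
        (continuous_e.measurable.comp (measurable_fst.mul (hTR.comp measurable_snd)))
        (Finset.measurable_sum _ fun τ _ => ((hpcont τ).measurable.comp measurable_fst).mul
          ((hXm τ).comp measurable_snd)))) 2)
    ((∑ i ∈ range k, Cw i ^ 2) * (1 + ∑ τ, Cp τ) ^ 2)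
    (by
      intro θ y
      rw [Real.norm_of_nonneg (by positivity)]
      refine mul_le_mul (Finset.sum_le_sum fun i hi => pow_le_pow_left₀ (norm_nonneg _)
        (hCw i (Finset.mem_range.mp hi) θ) 2) ?_ (sq_nonneg _) (by positivity)
      refine pow_le_pow_left₀ (norm_nonneg _) ((norm_sub_le _ _).trans ?_) 2
      rw [norm_e]
      refine add_le_add le_rfl ((norm_sum_le _ _).trans (Finset.sum_le_sum fun τ _ => ?_))
      rw [norm_mul, hX1, mul_one]; exact hCp τ θ)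
    (fun θ => 26 * d * ∑ i ∈ range k, ‖g i θ‖ ^ 2)
    (continuous_const.mul (continuous_finsetSum _ fun i hi => ((hgc i hi).norm.pow 2)))
    (by
      intro θ hθ
      rw [integral_const_mul]
      simp only [w, norm_mul, mul_pow]
      rw [← Finset.mul_sum]
      have hG : 0 ≤ ∑ i ∈ range k, ‖g i θ‖ ^ 2 := by positivity
      have h1 := hRint θ hθ
      have h0 : 0 ≤ ∫ y, ‖R θ y‖ ^ 2 ∂ν := integral_nonneg fun y => sq_nonneg _
      have h2 : ‖e θ - 1‖ ^ 2 * ∫ y, ‖R θ y‖ ^ 2 ∂ν ≤ 26 * d := by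
        by_cases hm : θ ∈ Set.Icc (d / 8) (1 - d / 8)
        · have h3 := herr1 θ hm
          have h4 := mul_le_mul_of_nonneg_right (four θ) h0
          nlinarith
        · have h3 := herr2 θ
          have h4 := mul_le_mul_of_nonneg_right (edge d θ hd (by linarith) hθ hm) h0
          nlinarith
      have h5 := mul_le_mul_of_nonneg_right h2 hG
      linarith) q
  refine ⟨x, ?_⟩
  let E : ℝ → ℂ := fun θ => ∑ j ∈ range q, e (((j * H : ℕ) : ℤ) * θ) * R θ (act j x)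
  let F : ℝ → ℂ := fun θ => ∑ j ∈ range q, e ((j * H + T (act j x) : ℕ) * θ)
  let Q : σ → ℝ → ℂ := fun τ φ => ∑ j ∈ range q, e (j * φ + ph τ j)
  have hRc : ∀ y, Continuous fun θ => R θ y := fun y => (hR y).continuous
  have hE : Continuous E := continuous_finsetSum _ fun j _ =>
    Continuous.mul (by fun_prop) (hRc _)
  have hF : Continuous F := by simp only [F]; fun_prop
  have hFE : ∀ θ, F θ = E θ + ∑ τ, p τ θ * X τ x * Q τ (Int.fract (H * θ)) := by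
    intro θ
    simp only [F, E, Q, R, Finset.mul_sum, mul_sub]
    rw [Finset.sum_comm, ← Finset.sum_add_distrib]
    refine Finset.sum_congr rfl fun j _ => ?_
    have h1 : ∀ τ, p τ θ * X τ x * e (j * Int.fract (H * θ) + ph τ j)
        = e (((j * H : ℕ) : ℤ) * θ) * (p τ θ * X τ (act j x)) := by
      intro τ
      have h2 := e_sub_int (((j * H : ℕ) : ℤ) * θ) (j * ⌊(H : ℝ) * θ⌋)
      rw [hX, e_add, ← h2, Int.fract]
      push_cast
      rw [show (j : ℝ) * (H * θ - ⌊(H : ℝ) * θ⌋) = j * H * θ - j * ⌊(H : ℝ) * θ⌋ by ring]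
      ring
    simp only [h1]
    rw [sub_add_cancel, ← e_add]
    congr 1; push_cast; ring
  have hUb : ∀ τ φ, ‖Q τ φ - U τ φ‖ ≤ q + A τ := fun τ φ => by
    refine (norm_sub_le _ _).trans (add_le_add ((norm_sum_le _ _).trans ?_) (hUA τ φ))
    simp
  have hQm : ∀ τ, Measurable (Q τ) := fun τ => Continuous.measurable (by simp only [Q]; fun_prop)
  have key : ∀ i ∈ range k, ∫ θ in (0 : ℝ)..1, ‖e θ - 1‖ ^ 2 * ‖g i θ‖ ^ 2 * (‖F θ‖ / √q - 1) ^ 2
      ≤ 3 / q * (∑ j ∈ range q, ∫ θ in (0 : ℝ)..1, ‖w i θ‖ ^ 2 * ‖R θ (act j x)‖ ^ 2)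
        + 360 * d * ∫ θ in (0 : ℝ)..1, ‖g i θ‖ ^ 2 := by
    intro i hi
    have hik := Finset.mem_range.mp hi
    have hgi := hgc i hi
    have hwi := hwc i hi
    have h1 := core H D (h + 1) hH0 (by omega) q κ ε d hqR hκ hκ1 c p s hc hp hs hc1 hpc hsc
      (fun τ => X τ x) (fun τ => hX1 τ x) Q U
      (fun τ => ii_of_bound _ ((hUm τ).norm.pow_const 2) (A τ ^ 2) fun φ => by
        rw [Real.norm_of_nonneg (sq_nonneg _)]
        exact pow_le_pow_left₀ (norm_nonneg _) (hUA τ φ) 2)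
      (fun τ => ii_of_bound _ (hUm τ).norm (A τ) fun φ => by rw [norm_norm]; exact hUA τ φ)
      (fun τ => ii_of_bound _ (((hQm τ).sub (hUm τ)).norm.pow_const 2) ((q + A τ) ^ 2) fun φ => by
        rw [Real.norm_of_nonneg (sq_nonneg _)]
        exact pow_le_pow_left₀ (norm_nonneg _) (hUb τ φ) 2)
      hUq hQe hA hdis (w i) E (hw i hik) hE F hF hFE
    rw [← hN] at h1
    have h2 : ∫ θ in (0 : ℝ)..1, ‖w i θ * E θ‖ ^ 2
        = ∑ j ∈ range q, ∫ θ in (0 : ℝ)..1, ‖w i θ‖ ^ 2 * ‖R θ (act j x)‖ ^ 2 := by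
      have h3 := TP.orth (-D) H q
        (fun j θ => w i θ * (1 * e (((j * H : ℕ) : ℤ) * θ) * R θ (act j x)))
        (fun j _ => ((hw i hik).mul ((TP.single ((j * H : ℕ) : ℤ) 1).mul (hR (act j x)))).mono
          (by push_cast; omega) (by push_cast; omega)) (by positivity)
      simp only [one_mul, norm_mul, norm_e, mul_pow, ← Finset.mul_sum] at h3
      simp only [E, norm_mul, mul_pow]
      exact h3
    have h4 : ∫ θ in (0 : ℝ)..1, ‖w i θ‖ ^ 2 ≤ 4 * ∫ θ in (0 : ℝ)..1, ‖g i θ‖ ^ 2 := by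
      rw [← intervalIntegral.integral_const_mul]
      refine intervalIntegral.integral_mono_on zero_le_one
        (Continuous.intervalIntegrable (by fun_prop) _ _)
        (Continuous.intervalIntegrable (by fun_prop) _ _) fun θ _ => ?_
      simp only [w, norm_mul, mul_pow]
      exact mul_le_mul_of_nonneg_right (four θ) (sq_nonneg _)
    have h5 : ∫ θ in (0 : ℝ)..1, (1 - (1 - 2 * d) * ∑ τ, ‖c τ θ‖ ^ 2) * ‖w i θ‖ ^ 2
        ≤ 12 * d * ∫ θ in (0 : ℝ)..1, ‖g i θ‖ ^ 2 := by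
      rw [← intervalIntegral.integral_const_mul]
      refine intervalIntegral.integral_mono_on zero_le_one
        (Continuous.intervalIntegrable (by fun_prop) _ _)
        (Continuous.intervalIntegrable (by fun_prop) _ _) fun θ hθ => ?_
      simp only [w, norm_mul, mul_pow]
      rw [← mul_assoc]
      refine mul_le_mul_of_nonneg_right ?_ (sq_nonneg _)
      have hS : 0 ≤ ∑ τ, ‖c τ θ‖ ^ 2 := by positivity
      have h0 := sq_nonneg ‖e θ - 1‖
      by_cases hm : θ ∈ Set.Icc (d / 8) (1 - d / 8)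
      · have h6 := mul_le_mul_of_nonneg_left (hmain θ hm) (show 0 ≤ 1 - 2 * d by linarith)
        have h7 : 1 - (1 - 2 * d) * ∑ τ, ‖c τ θ‖ ^ 2 ≤ 3 * d := by nlinarith
        have h8 := mul_le_mul_of_nonneg_right h7 h0
        have h9 := four θ
        nlinarith
      · have h6 := edge d θ hd (by linarith) hθ hm
        have h7 : 1 - (1 - 2 * d) * ∑ τ, ‖c τ θ‖ ^ 2 ≤ 1 := by nlinarith
        have h8 := mul_le_mul_of_nonneg_right h7 h0
        nlinarith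
    have h6 : ∫ θ in (0 : ℝ)..1, ‖e θ - 1‖ ^ 2 * ‖g i θ‖ ^ 2 * (‖F θ‖ / √q - 1) ^ 2
        = 1 / q * ∫ θ in (0 : ℝ)..1, ‖w i θ‖ ^ 2 * (‖F θ‖ - √q) ^ 2 := by
      rw [← intervalIntegral.integral_const_mul]
      refine intervalIntegral.integral_congr fun θ _ => ?_
      have h7 : 0 < √(q : ℝ) := Real.sqrt_pos.mpr hqR
      have h8 := Real.sq_sqrt hqR.le
      simp only [w, norm_mul, mul_pow]
      rw [div_sub_one h7.ne', div_pow, h8]; ring
    rw [h6, ← h2, one_div, inv_mul_le_iff₀ hqR, mul_add, ← mul_assoc,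
      mul_div_cancel₀ _ hqR.ne']
    refine h1.trans ?_
    have hg0 : 0 ≤ ∫ θ in (0 : ℝ)..1, ‖g i θ‖ ^ 2 :=
      intervalIntegral.integral_nonneg zero_le_one fun φ _ => sq_nonneg _
    have hw0 : 0 ≤ ∫ θ in (0 : ℝ)..1, ‖w i θ‖ ^ 2 :=
      intervalIntegral.integral_nonneg zero_le_one fun φ _ => sq_nonneg _
    have h7 : 3 * N ^ 2 * (2 * κ ^ 2 + 8 * ε) + 54 * N * κ ≤ 80 * d := by
      have h8 : (N * κ) ^ 2 ≤ d ^ 2 := pow_le_pow_left₀ (by positivity) hNκ 2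
      nlinarith
    have h9 := mul_le_mul h7 h4 hw0 (by positivity)
    have h10 := mul_le_mul_of_nonneg_left h9 hqR.le
    have h11 := mul_le_mul_of_nonneg_left h5 hqR.le
    have h12 := mul_nonneg hqR.le (mul_nonneg hd.le hg0)
    nlinarith
  refine (Finset.sum_le_sum key).trans ?_
  rw [Finset.sum_add_distrib, ← Finset.mul_sum, ← Finset.mul_sum, Finset.sum_comm]
  have h1 : ∀ j ∈ range q, ∑ i ∈ range k, ∫ θ in (0 : ℝ)..1, ‖w i θ‖ ^ 2 * ‖R θ (act j x)‖ ^ 2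
      = ∫ θ in (0 : ℝ)..1, (∑ i ∈ range k, ‖w i θ‖ ^ 2) * ‖R θ (act j x)‖ ^ 2 := by
    intro j _
    rw [← intervalIntegral.integral_finsetSum
      (f := fun i θ => ‖w i θ‖ ^ 2 * ‖R θ (act j x)‖ ^ 2) fun i hi =>
        Continuous.intervalIntegrable (((hwc i hi).norm.pow 2).mul ((hRc _).norm.pow 2)) _ _]
    simp only [Finset.sum_mul]
  rw [Finset.sum_congr rfl h1]
  rw [intervalIntegral.integral_const_mul, intervalIntegral.integral_finsetSum
    (f := fun i θ => ‖g i θ‖ ^ 2)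
    fun i hi => Continuous.intervalIntegrable ((hgc i hi).norm.pow 2) _ _] at hx
  have h2 := mul_le_mul_of_nonneg_left hx (show 0 ≤ 3 / (q : ℝ) by positivity)
  rw [← mul_assoc, div_mul_cancel₀ _ hqR.ne'] at h2
  have h3 : 0 ≤ ∑ i ∈ range k, ∫ θ in (0 : ℝ)..1, ‖g i θ‖ ^ 2 := Finset.sum_nonneg fun i _ =>
    intervalIntegral.integral_nonneg zero_le_one fun φ _ => sq_nonneg _
  nlinarith [mul_nonneg hd.le h3]

end Flat

open Flat in
theorem flat_of (hM : ModelStmt) (hC : Config2Stmt) : FlatStmt := by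
  intro δ hδ
  set d : ℝ := min (δ / 500) (1 / 4) with hddef
  have hd : 0 < d := lt_min (by positivity) (by norm_num)
  have hd1 : d ≤ 1 / 4 := min_le_right _ _
  have hd2 : 500 * d ≤ δ := by have := min_le_left (δ / 500) (1 / 4); linarith
  obtain ⟨Ω, _, ν, _, act, L₀, T, r, α, β, μ, lo, hi, cp, cm, χ, hact, hT, hTL, hTy, hχm, hχ1,
    hχ, hcc, hcp, hcm, hcμ, hmain, herr1, herr2⟩ := hM (d / 8) d (by positivity) (by linarith) hd
  set N : ℝ := (Fintype.card (Fin r ⊕ Fin r) : ℝ) with hN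
  have hN0 : 0 ≤ N := Nat.cast_nonneg _
  let c : Fin r ⊕ Fin r → ℝ → ℂ := Sum.elim cp cm
  let X : Fin r ⊕ Fin r → Ω → ℂ := Sum.elim χ fun i y => (starRingEnd ℂ) (χ i y)
  let μ' : Fin r ⊕ Fin r → ℝ := Sum.elim μ μ
  have hc : ∀ τ, Continuous (c τ) := by
    rintro (i | i)
    · exact (hcc i).1
    · exact (hcc i).2.1
  have hc01 : ∀ τ, c τ 0 = c τ 1 := by
    rintro (i | i)
    · exact (hcc i).2.2.1
    · exact (hcc i).2.2.2
  have hcμ' : ∀ τ θ, ‖c τ θ‖ ^ 2 ≤ μ' τ := by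
    rintro (i | i) θ
    · exact (hcμ i θ).1
    · exact (hcμ i θ).2
  have hc1 : ∀ τ θ, ‖c τ θ‖ ≤ 1 := by
    intro τ θ
    have h1 : μ' τ ≤ 1 := by rcases τ with i | i <;> exact mu_le_one hTy i
    exact le_of_sq_le_sq (((hcμ' τ θ).trans h1).trans (by norm_num)) zero_le_one
  have hκ : 0 < d / (N + 1) := by positivity
  have hκ1 : d / (N + 1) ≤ 1 := by rw [div_le_one (by positivity)]; linarith
  choose D p s hp hs hpc hsc using fun τ => approx2 (c τ) (hc τ) (hc01 τ) (hc1 τ) hκ hκ1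
  have hD : ∀ τ, D τ ≤ ∑ τ, D τ := fun τ =>
    Finset.single_le_sum (f := D) (fun _ _ => Nat.zero_le _) (Finset.mem_univ τ)
  refine ⟨2 * (∑ τ, D τ) + L₀ + 1, fun h q₀ k g hg => ?_⟩
  obtain ⟨q, z, U, A, hq0, hq, hUm, hA, hUA, hUq, hQe, hc1', hc2'⟩ :=
    hC r α β μ lo hi d (d / (N + 1) ^ 2) q₀ hTy hd (by positivity)
  have hqR : (0 : ℝ) < q := by exact_mod_cast hq
  let U' : Fin r ⊕ Fin r → ℝ → ℂ := Sum.elim U fun i φ => (starRingEnd ℂ) (U i (1 - φ))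
  let A' : Fin r ⊕ Fin r → ℝ := Sum.elim A A
  let ph : Fin r ⊕ Fin r → ℕ → ℝ := Sum.elim (fun i j => α i * (z j).1 + β i * (z j).2)
    fun i j => -(α i * (z j).1 + β i * (z j).2)
  have hsum : ∀ θ y, ∑ τ, c τ θ * X τ y
      = ∑ i, (cp i θ * χ i y + cm i θ * (starRingEnd ℂ) (χ i y)) := fun θ y => by
    rw [Fintype.sum_sum_type, Finset.sum_add_distrib]; rfl
  have hUA' : ∀ τ φ, U' τ φ = 0 ∨ ‖U' τ φ‖ = A' τ := by
    rintro (i | i) φ
    · exact hUA i φ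
    · exact (hUA i (1 - φ)).imp (fun h => by simp [U', h]) fun h => by simpa [U', A'] using h
  have hA' : ∀ τ, 0 < A' τ ∧ μ' τ * A' τ ^ 2 ≤ (1 + d) * q := by
    rintro (i | i) <;> exact hA i
  have hrefl : ∀ f : ℝ → ℝ, ∫ φ in (0 : ℝ)..1, f (1 - φ) = ∫ φ in (0 : ℝ)..1, f φ := fun f => by
    simp
  have hUq' : ∀ τ, ∫ φ in (0 : ℝ)..1, ‖U' τ φ‖ ^ 2 = q := by
    rintro (i | i)
    · exact hUq i
    · rw [← hUq i, ← hrefl fun φ => ‖U i φ‖ ^ 2]
      simp only [U', Sum.elim_inr, Complex.norm_conj]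
  obtain ⟨x, hx⟩ := flat_abs ν d (d / (N + 1)) (d / (N + 1) ^ 2) hd hd1 hκ.le hκ1
    (by rw [← hN, ← mul_div_assoc, div_le_iff₀ (by positivity)]; nlinarith)
    (by rw [← hN, ← mul_div_assoc, div_le_iff₀ (by positivity)]; nlinarith)
    L₀ (∑ τ, D τ) T hT hTL X
    (by
      rintro (i | i)
      · exact hχm i
      · exact Complex.continuous_conj.measurable.comp (hχm i))
    (by
      rintro (i | i) y
      · exact hχ1 i y
      · simpa [X] using hχ1 i y)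
    c p s hc (fun τ => (hp τ).mono (by have := hD τ; omega) (by have := hD τ; omega))
    (fun τ => (hs τ).mono (by have := hD τ; omega) (by have := hD τ; omega)) hc1 hpc hsc
    (fun θ hθ => by
      refine (hmain θ hθ).trans (le_of_eq ?_)
      rw [Fintype.sum_sum_type, Finset.sum_add_distrib]; rfl)
    (fun θ hθ => by simp only [hsum]; exact herr1 θ hθ)
    (fun θ => by simp only [hsum]; exact herr2 θ) h k g hg q hq (fun j => act (z j))
    (fun j => hact _) ph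
    (by
      rintro (i | i) j y
      · exact hχ i (z j) y
      · simp only [X, ph, Sum.elim_inr, hχ, map_mul, e_neg])
    U'
    (by
      rintro (i | i)
      · exact hUm i
      · exact Complex.continuous_conj.measurable.comp
          ((hUm i).comp (measurable_const.sub measurable_id)))
    A' (fun τ φ => by
      rcases hUA' τ φ with h0 | h0
      · rw [h0, norm_zero]; exact (hA' τ).1.le
      · exact h0.le) hUq'
    (by
      rintro (i | i)
      · exact hQe i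
      · refine le_trans (le_of_eq ?_) (hQe i)
        rw [← hrefl fun φ =>
          ‖∑ j ∈ range q, e (j * φ + (α i * (z j).1 + β i * (z j).2)) - U i φ‖ ^ 2]
        refine intervalIntegral.integral_congr fun φ _ => ?_
        simp only [U', ph, Sum.elim_inr]
        rw [← Complex.norm_conj (_ - U i (1 - φ)), map_sub, map_sum]
        congr 3
        refine Finset.sum_congr rfl fun j _ => ?_
        rw [← e_neg, ← e_add_nat (-(j * (1 - φ) + (α i * (z j).1 + β i * (z j).2))) j]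
        congr 1; ring)
    (fun τ θ => typeA (U' τ) (A' τ) q (μ' τ) d hd.le hqR (hUA' τ) (hUq' τ) (hA' τ).2 _
      (hcμ' τ θ))
    (by
      intro τ τ' hne θ φ
      by_cases h1 : c τ θ = 0
      · left; rw [h1, zero_mul]
      by_cases h2 : c τ' θ = 0
      · right; rw [h2, zero_mul]
      have h3 : U' τ φ = 0 ∨ U' τ' φ = 0 := by
        rcases τ with i | i <;> rcases τ' with i' | i'
        · exact hc1' i i' (fun h => hne (by rw [h])) ⟨θ, hcp i θ h1, hcp i' θ h2⟩ φ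
        · exact (hc2' i i' ⟨θ, hcp i θ h1, hcm i' θ h2⟩ φ).imp id fun h => by simp [U', h]
        · exact (hc2' i' i ⟨θ, hcp i' θ h2, hcm i θ h1⟩ φ).symm.imp (fun h => by simp [U', h]) id
        · exact (hc1' i i' (fun h => hne (by rw [h])) ⟨1 - θ, hcm i θ h1, hcm i' θ h2⟩
            (1 - φ)).imp (fun h => by simp [U', h]) fun h => by simp [U', h]
      exact h3.imp (fun h => by rw [h, mul_zero]) fun h => by rw [h, mul_zero])
  refine ⟨q, fun j => T (act (z j) x), hq0, hq, fun j => (hTL _).trans_le (by omega),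
    hx.trans (mul_le_mul_of_nonneg_right hd2 (Finset.sum_nonneg fun i _ =>
      intervalIntegral.integral_nonneg zero_le_one fun φ _ => sq_nonneg _))⟩

end Vale.Agent.P130
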