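import Vale.Agent.P130.TP

/-! # P130: the decoupling estimate for flat polynomials -/

namespace Vale.Agent.P130

open Finset MeasureTheory Vale.Agent.P110

namespace Flat

lemma fract_ae (f : ℝ → ℝ) :
    f =ᵐ[volume.restrict (Set.uIoc (0 : ℝ) 1)] fun φ => f (Int.fract φ) := by
  rw [Set.uIoc_of_le zero_le_one, ← Measure.restrict_congr_set Ioo_ae_eq_Ioc]
  refine ae_restrict_of_forall_mem measurableSet_Ioo fun x hx => ?_
  simp only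
  rw [Int.fract_eq_self.mpr ⟨hx.1.le, hx.2⟩]

lemma fract_per (f : ℝ → ℝ) : Function.Periodic (fun φ => f (Int.fract φ)) 1 := fun φ => by
  simp

lemma ii (H : ℕ) (hH : 0 < H) (f : ℝ → ℝ) (hf : IntervalIntegrable f volume 0 1) :
    IntervalIntegrable (fun θ : ℝ => f (Int.fract (H * θ))) volume 0 1 := by
  have hHR : (0 : ℝ) < H := by exact_mod_cast hH
  have h1 := ((fract_per f).intervalIntegrable₀ one_ne_zero (hf.congr_ae (fract_ae f)) 0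
    H).comp_mul_left (c := (H : ℝ))
  simpa [hHR.ne'] using h1

lemma dec {lo : ℤ} (H : ℕ) (hH : 0 < H) {g : ℝ → ℂ} (hg : TP lo (lo + H) g) (f : ℝ → ℝ)
    (hf : IntervalIntegrable f volume 0 1) :
    ∫ θ in (0 : ℝ)..1, ‖g θ‖ ^ 2 * f (Int.fract (H * θ))
      = (∫ θ in (0 : ℝ)..1, ‖g θ‖ ^ 2) * ∫ φ in (0 : ℝ)..1, f φ := by
  rw [hg.decouple H hH _ (fract_per f) (hf.congr_ae (fract_ae f)),
    intervalIntegral.integral_congr_ae_restrict (fract_ae f)]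

lemma close (v : ℝ → ℝ) (hv : IntervalIntegrable v volume 0 1) (hv0 : ∀ θ, 0 ≤ v θ)
    (a b : ℝ → ℝ) (ha : Continuous a) (hb : Continuous b) (κ : ℝ)
    (hκ : ∀ θ ∈ Set.Icc (0 : ℝ) 1, a θ ≤ b θ + κ) :
    ∫ θ in (0 : ℝ)..1, a θ * v θ
      ≤ (∫ θ in (0 : ℝ)..1, b θ * v θ) + κ * ∫ θ in (0 : ℝ)..1, v θ := by
  rw [← intervalIntegral.integral_const_mul, ← intervalIntegral.integral_add
    (hv.continuousOn_mul hb.continuousOn) (hv.const_mul κ)]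
  refine intervalIntegral.integral_mono_on zero_le_one (hv.continuousOn_mul ha.continuousOn)
    ((hv.continuousOn_mul hb.continuousOn).add (hv.const_mul κ)) fun θ hθ => ?_
  have := mul_le_mul_of_nonneg_right (hκ θ hθ) (hv0 θ)
  linarith

lemma slow (H D : ℕ) (h' : ℤ) (hH : 0 < H) (hD : h' + 2 * D ≤ H) {w s : ℝ → ℂ}
    (hw : TP 0 h' w) (hs : TP (-D) D s) (a : ℝ → ℝ) (ha : Continuous a) (κ : ℝ)
    (hκ : ∀ θ ∈ Set.Icc (0 : ℝ) 1, |‖s θ‖ ^ 2 - a θ| ≤ κ) (f : ℝ → ℝ) (hf0 : ∀ φ, 0 ≤ f φ)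
    (hf : IntervalIntegrable f volume 0 1) :
    |(∫ θ in (0 : ℝ)..1, a θ * (‖w θ‖ ^ 2 * f (Int.fract (H * θ))))
      - (∫ θ in (0 : ℝ)..1, a θ * ‖w θ‖ ^ 2) * ∫ φ in (0 : ℝ)..1, f φ|
      ≤ 2 * κ * ((∫ θ in (0 : ℝ)..1, ‖w θ‖ ^ 2) * ∫ φ in (0 : ℝ)..1, f φ) := by
  have hwc := hw.continuous
  have hsc := hs.continuous
  have hw2 : Continuous fun θ => ‖w θ‖ ^ 2 := by fun_prop
  have hs2 : Continuous fun θ => ‖s θ‖ ^ 2 := by fun_prop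
  have hv : IntervalIntegrable (fun θ : ℝ => ‖w θ‖ ^ 2 * f (Int.fract (H * θ))) volume 0 1 :=
    (ii H hH f hf).continuousOn_mul hw2.continuousOn
  have hv0 : ∀ θ : ℝ, 0 ≤ ‖w θ‖ ^ 2 * f (Int.fract (H * θ)) := fun θ =>
    mul_nonneg (sq_nonneg _) (hf0 _)
  have h0 := dec (lo := 0) H hH (hw.mono le_rfl (by omega)) f hf
  have h1 := dec (lo := -D) H hH ((hs.mul hw).mono (by omega) (by omega)) f hf
  simp only [norm_mul, mul_pow, mul_assoc] at h1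
  have hf1 : 0 ≤ ∫ φ in (0 : ℝ)..1, f φ :=
    intervalIntegral.integral_nonneg zero_le_one fun φ _ => hf0 φ
  have a1 := close _ hv hv0 a _ ha hs2 κ fun θ hθ => by linarith [(abs_le.mp (hκ θ hθ)).1]
  have a2 := close _ hv hv0 _ a hs2 ha κ fun θ hθ => by linarith [(abs_le.mp (hκ θ hθ)).2]
  have a3 := close _ (hw2.intervalIntegrable 0 1) (fun θ => sq_nonneg _) a _ ha hs2 κ
    fun θ hθ => by linarith [(abs_le.mp (hκ θ hθ)).1]
  have a4 := close _ (hw2.intervalIntegrable 0 1) (fun θ => sq_nonneg _) _ a hs2 ha κ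
    fun θ hθ => by linarith [(abs_le.mp (hκ θ hθ)).2]
  rw [h0, h1] at a1 a2
  have a5 := mul_le_mul_of_nonneg_right a3 hf1
  have a6 := mul_le_mul_of_nonneg_right a4 hf1
  rw [abs_le]
  constructor <;> nlinarith

lemma ideal {σ : Type} [Fintype σ] (z : σ → ℂ) (hz : ∀ τ τ', τ ≠ τ' → z τ = 0 ∨ z τ' = 0)
    (r : ℝ) : (‖∑ τ, z τ‖ - r) ^ 2 = ∑ τ, ‖z τ‖ ^ 2 - 2 * r * ∑ τ, ‖z τ‖ + r ^ 2 := by
  by_cases h : ∀ τ, z τ = 0
  · simp [h]
  · push Not at h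
    obtain ⟨τ₀, h0⟩ := h
    have h1 : ∀ τ, τ ≠ τ₀ → z τ = 0 := fun τ hτ => (hz τ τ₀ hτ).resolve_right h0
    rw [Finset.sum_eq_single τ₀ (fun τ _ hτ => h1 τ hτ) (by simp),
      Finset.sum_eq_single τ₀ (fun τ _ hτ => by simp [h1 τ hτ]) (by simp),
      Finset.sum_eq_single τ₀ (fun τ _ hτ => by simp [h1 τ hτ]) (by simp)]
    ring

lemma three (E M I : ℂ) (r : ℝ) :
    (‖E + M‖ - r) ^ 2 ≤ 3 * ‖E‖ ^ 2 + 3 * ‖M - I‖ ^ 2 + 3 * (‖I‖ - r) ^ 2 := by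
  have h1 : |‖E + M‖ - ‖I‖| ≤ ‖E‖ + ‖M - I‖ := by
    refine (abs_norm_sub_norm_le _ _).trans ?_
    rw [add_sub_assoc]; exact norm_add_le _ _
  have h2 := abs_le.mp h1
  have h3 := norm_nonneg E
  have h4 := norm_nonneg (M - I)
  set x := ‖E + M‖ - ‖I‖ with hx
  have h5 : x ^ 2 ≤ (‖E‖ + ‖M - I‖) ^ 2 := sq_le_sq' h2.1 h2.2
  have h6 : ‖E + M‖ - r = x + (‖I‖ - r) := by rw [hx]; ring
  rw [h6]
  nlinarith [sq_nonneg (x - 2 * (‖I‖ - r)), sq_nonneg (‖E‖ - ‖M - I‖)]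

lemma core {σ : Type} [Fintype σ] (H D : ℕ) (h' : ℤ) (hH : 0 < H) (hD : h' + 2 * D ≤ H)
    (q κ ε d : ℝ) (hq : 0 < q) (hκ : 0 ≤ κ) (hκ1 : κ ≤ 1)
    (c p s : σ → ℝ → ℂ) (hc : ∀ τ, Continuous (c τ)) (hp : ∀ τ, TP (-D) D (p τ))
    (hs : ∀ τ, TP (-D) D (s τ)) (hc1 : ∀ τ θ, ‖c τ θ‖ ≤ 1)
    (hpc : ∀ τ, ∀ θ ∈ Set.Icc (0 : ℝ) 1, ‖p τ θ - c τ θ‖ ≤ κ)
    (hsc : ∀ τ, ∀ θ ∈ Set.Icc (0 : ℝ) 1, |‖s τ θ‖ ^ 2 - ‖c τ θ‖| ≤ 3 * κ)
    (ξ : σ → ℂ) (hξ : ∀ τ, ‖ξ τ‖ = 1) (Q U : σ → ℝ → ℂ)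
    (hU2 : ∀ τ, IntervalIntegrable (fun φ => ‖U τ φ‖ ^ 2) volume 0 1)
    (hU1 : ∀ τ, IntervalIntegrable (fun φ => ‖U τ φ‖) volume 0 1)
    (hQU : ∀ τ, IntervalIntegrable (fun φ => ‖Q τ φ - U τ φ‖ ^ 2) volume 0 1)
    (hUq : ∀ τ, ∫ φ in (0 : ℝ)..1, ‖U τ φ‖ ^ 2 = q)
    (hQe : ∀ τ, ∫ φ in (0 : ℝ)..1, ‖Q τ φ - U τ φ‖ ^ 2 ≤ ε * q)
    (hA : ∀ τ θ, (1 - d) * q * ‖c τ θ‖ ^ 2 ≤ √q * (∫ φ in (0 : ℝ)..1, ‖U τ φ‖) * ‖c τ θ‖)
    (hdis : ∀ τ τ', τ ≠ τ' → ∀ θ φ, c τ θ * U τ φ = 0 ∨ c τ' θ * U τ' φ = 0)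
    (w E : ℝ → ℂ) (hw : TP 0 h' w) (hE : Continuous E) (F : ℝ → ℂ) (hF : Continuous F)
    (hFE : ∀ θ, F θ = E θ + ∑ τ, p τ θ * ξ τ * Q τ (Int.fract (H * θ))) :
    ∫ θ in (0 : ℝ)..1, ‖w θ‖ ^ 2 * (‖F θ‖ - √q) ^ 2
      ≤ 3 * (∫ θ in (0 : ℝ)..1, ‖w θ * E θ‖ ^ 2)
        + q * (3 * (Fintype.card σ : ℝ) ^ 2 * (2 * κ ^ 2 + 8 * ε) + 54 * Fintype.card σ * κ)
          * (∫ θ in (0 : ℝ)..1, ‖w θ‖ ^ 2)
        + 3 * q * ∫ θ in (0 : ℝ)..1, (1 - (1 - 2 * d) * ∑ τ, ‖c τ θ‖ ^ 2) * ‖w θ‖ ^ 2 := by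
  set N : ℝ := (Fintype.card σ : ℝ) with hN
  have hN0 : 0 ≤ N := Nat.cast_nonneg _
  have hwc := hw.continuous
  have hw2 : Continuous fun θ => ‖w θ‖ ^ 2 := by fun_prop
  set W : ℝ := ∫ θ in (0 : ℝ)..1, ‖w θ‖ ^ 2 with hW
  have hW0 : 0 ≤ W := intervalIntegral.integral_nonneg zero_le_one fun φ _ => sq_nonneg _
  let f0 : ℝ → ℝ := fun φ => N * ∑ τ, (2 * κ ^ 2 * ‖U τ φ‖ ^ 2 + 8 * ‖Q τ φ - U τ φ‖ ^ 2)
  have hf0i : ∀ τ, IntervalIntegrable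
      (fun φ => 2 * κ ^ 2 * ‖U τ φ‖ ^ 2 + 8 * ‖Q τ φ - U τ φ‖ ^ 2) volume 0 1 := fun τ =>
    ((hU2 τ).const_mul _).add ((hQU τ).const_mul _)
  have hf0 : IntervalIntegrable f0 volume 0 1 := by
    have := IntervalIntegrable.sum univ (fun τ _ => hf0i τ)
    rw [Finset.sum_fn] at this
    exact this.const_mul N
  have hf0le : ∫ φ in (0 : ℝ)..1, f0 φ ≤ N ^ 2 * (2 * κ ^ 2 + 8 * ε) * q := by
    simp only [f0]
    rw [intervalIntegral.integral_const_mul,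
      intervalIntegral.integral_finsetSum (fun τ _ => hf0i τ)]
    have h1 : ∀ τ ∈ (univ : Finset σ), ∫ φ in (0 : ℝ)..1,
        (2 * κ ^ 2 * ‖U τ φ‖ ^ 2 + 8 * ‖Q τ φ - U τ φ‖ ^ 2) ≤ (2 * κ ^ 2 + 8 * ε) * q := by
      intro τ _
      rw [intervalIntegral.integral_add ((hU2 τ).const_mul _) ((hQU τ).const_mul _),
        intervalIntegral.integral_const_mul, intervalIntegral.integral_const_mul, hUq]
      linarith [hQe τ]
    have h2 := Finset.sum_le_sum h1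
    rw [Finset.sum_const, Finset.card_univ, nsmul_eq_mul, ← hN] at h2
    have h3 := mul_le_mul_of_nonneg_left h2 hN0
    linarith
  let a2 : σ → ℝ → ℝ := fun τ θ => ‖c τ θ‖ ^ 2 * (‖w θ‖ ^ 2 * ‖U τ (Int.fract (H * θ))‖ ^ 2)
  let a1 : σ → ℝ → ℝ := fun τ θ => ‖c τ θ‖ * (‖w θ‖ ^ 2 * ‖U τ (Int.fract (H * θ))‖)
  have ha2 : ∀ τ, IntervalIntegrable (a2 τ) volume 0 1 := fun τ =>
    ((ii H hH _ (hU2 τ)).continuousOn_mul hw2.continuousOn).continuousOn_mul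
      (by have := hc τ; fun_prop)
  have ha1 : ∀ τ, IntervalIntegrable (a1 τ) volume 0 1 := fun τ =>
    ((ii H hH _ (hU1 τ)).continuousOn_mul hw2.continuousOn).continuousOn_mul
      (by have := hc τ; fun_prop)
  have hb : ∀ τ, IntervalIntegrable (fun θ => a2 τ θ - 2 * √q * a1 τ θ) volume 0 1 := fun τ =>
    (ha2 τ).sub ((ha1 τ).const_mul _)
  have hbs : IntervalIntegrable (fun θ => ∑ τ, (a2 τ θ - 2 * √q * a1 τ θ)) volume 0 1 := by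
    have := IntervalIntegrable.sum univ (fun τ _ => hb τ)
    rwa [Finset.sum_fn] at this
  have i1 : IntervalIntegrable (fun θ => ‖w θ * E θ‖ ^ 2) volume 0 1 :=
    Continuous.intervalIntegrable (by fun_prop) _ _
  have i2 : IntervalIntegrable (fun θ : ℝ => ‖w θ‖ ^ 2 * f0 (Int.fract (H * θ))) volume 0 1 :=
    (ii H hH _ hf0).continuousOn_mul hw2.continuousOn
  have i3 : IntervalIntegrable (fun θ : ℝ => q * ‖w θ‖ ^ 2) volume 0 1 :=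
    (hw2.intervalIntegrable 0 1).const_mul _
  have step1 : ∫ θ in (0 : ℝ)..1, ‖w θ‖ ^ 2 * (‖F θ‖ - √q) ^ 2
      ≤ ∫ θ in (0 : ℝ)..1, 3 * (‖w θ * E θ‖ ^ 2 + ‖w θ‖ ^ 2 * f0 (Int.fract (H * θ))
        + ∑ τ, (a2 τ θ - 2 * √q * a1 τ θ) + q * ‖w θ‖ ^ 2) := by
    refine intervalIntegral.integral_mono_on zero_le_one
      (Continuous.intervalIntegrable (by fun_prop) _ _)
      ((((i1.add i2).add hbs).add i3).const_mul 3) fun θ hθ => ?_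
    set φ := Int.fract (H * θ) with hφ
    have h1 := three (E θ) (∑ τ, p τ θ * ξ τ * Q τ φ) (∑ τ, c τ θ * U τ φ * ξ τ) √q
    rw [← hFE, ideal _ (fun τ τ' hτ => (hdis τ τ' hτ θ φ).imp (fun h => by rw [h, zero_mul])
      (fun h => by rw [h, zero_mul])), Real.sq_sqrt hq.le] at h1
    simp only [norm_mul, hξ, mul_one, mul_pow] at h1
    have h2 : ‖∑ τ, p τ θ * ξ τ * Q τ φ - ∑ τ, c τ θ * U τ φ * ξ τ‖ ^ 2 ≤ f0 φ := by
      rw [← Finset.sum_sub_distrib]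
      have h3 : ‖∑ τ, (p τ θ * ξ τ * Q τ φ - c τ θ * U τ φ * ξ τ)‖
          ≤ ∑ τ, (κ * ‖U τ φ‖ + 2 * ‖Q τ φ - U τ φ‖) := by
        refine (norm_sum_le _ _).trans (Finset.sum_le_sum fun τ _ => ?_)
        have h4 : p τ θ * ξ τ * Q τ φ - c τ θ * U τ φ * ξ τ
            = ξ τ * ((p τ θ - c τ θ) * U τ φ + p τ θ * (Q τ φ - U τ φ)) := by ring
        rw [h4, norm_mul, hξ, one_mul]
        refine (norm_add_le _ _).trans ?_
        rw [norm_mul, norm_mul]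
        have h5 : ‖p τ θ‖ ≤ 2 := by
          have h6 := norm_add_le (p τ θ - c τ θ) (c τ θ)
          rw [sub_add_cancel] at h6
          linarith [hpc τ θ hθ, hc1 τ θ]
        gcongr
        exact hpc τ θ hθ
      refine (pow_le_pow_left₀ (norm_nonneg _) h3 2).trans (sq_sum_le_card_mul_sum_sq.trans ?_)
      simp only [f0]
      rw [Finset.card_univ, ← hN]
      refine mul_le_mul_of_nonneg_left (Finset.sum_le_sum fun τ _ => ?_) hN0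
      nlinarith [sq_nonneg (κ * ‖U τ φ‖ - 2 * ‖Q τ φ - U τ φ‖)]
    have h7 : ∑ τ, (a2 τ θ - 2 * √q * a1 τ θ) = ‖w θ‖ ^ 2 *
        (∑ τ, ‖c τ θ‖ ^ 2 * ‖U τ φ‖ ^ 2 - 2 * √q * ∑ τ, ‖c τ θ‖ * ‖U τ φ‖) := by
      rw [Finset.mul_sum, ← Finset.sum_sub_distrib, Finset.mul_sum]
      refine Finset.sum_congr rfl fun τ _ => ?_
      simp only [a1, a2, ← hφ]; ring
    rw [h7, norm_mul, mul_pow]
    have h8 := mul_le_mul_of_nonneg_left h1 (sq_nonneg ‖w θ‖)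
    have h9 := mul_le_mul_of_nonneg_left h2 (sq_nonneg ‖w θ‖)
    nlinarith
  refine step1.trans ?_
  rw [intervalIntegral.integral_const_mul, intervalIntegral.integral_add ((i1.add i2).add hbs) i3,
    intervalIntegral.integral_add (i1.add i2) hbs, intervalIntegral.integral_add i1 i2,
    intervalIntegral.integral_const_mul, dec (lo := 0) H hH (hw.mono le_rfl (by omega)) _ hf0,
    intervalIntegral.integral_finsetSum (fun τ _ => hb τ), ← hW]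
  have hcw : ∀ τ, IntervalIntegrable (fun θ => ‖c τ θ‖ ^ 2 * ‖w θ‖ ^ 2) volume 0 1 := fun τ =>
    Continuous.intervalIntegrable (by have := hc τ; fun_prop) _ _
  have step2 : ∀ τ ∈ (univ : Finset σ), ∫ θ in (0 : ℝ)..1, (a2 τ θ - 2 * √q * a1 τ θ)
      ≤ 18 * κ * q * W - q * (1 - 2 * d) * ∫ θ in (0 : ℝ)..1, ‖c τ θ‖ ^ 2 * ‖w θ‖ ^ 2 := by
    intro τ _
    have hcτ := hc τ
    rw [intervalIntegral.integral_sub (ha2 τ) ((ha1 τ).const_mul _),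
      intervalIntegral.integral_const_mul]
    have b2 := slow H D h' hH hD hw (hp τ) (fun θ => ‖c τ θ‖ ^ 2) (by fun_prop) (3 * κ)
      (fun θ hθ => by
        have h1 := abs_le.mp ((abs_norm_sub_norm_le _ _).trans (hpc τ θ hθ))
        have h2 := hc1 τ θ
        have h3 := norm_nonneg (c τ θ)
        have h4 := norm_nonneg (p τ θ)
        rw [abs_le]; constructor <;> nlinarith)
      (fun φ => ‖U τ φ‖ ^ 2) (fun φ => sq_nonneg _) (hU2 τ)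
    have b1 := slow H D h' hH hD hw (hs τ) (fun θ => ‖c τ θ‖) (by fun_prop) (3 * κ) (hsc τ)
      (fun φ => ‖U τ φ‖) (fun φ => norm_nonneg _) (hU1 τ)
    rw [hUq, ← hW] at b2
    rw [← hW] at b1
    set a : ℝ := ∫ φ in (0 : ℝ)..1, ‖U τ φ‖ with ha
    have hsq : 0 ≤ √q := Real.sqrt_nonneg q
    have b3 : √q * a ≤ q := by
      have h1 : ∫ φ in (0 : ℝ)..1, 2 * √q * ‖U τ φ‖ ≤ ∫ φ in (0 : ℝ)..1, (q + ‖U τ φ‖ ^ 2) := by
        refine intervalIntegral.integral_mono_on zero_le_one ((hU1 τ).const_mul _)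
          (intervalIntegrable_const.add (hU2 τ)) fun φ _ => ?_
        nlinarith [sq_nonneg (√q - ‖U τ φ‖), Real.sq_sqrt hq.le]
      rw [intervalIntegral.integral_const_mul, intervalIntegral.integral_add
        intervalIntegrable_const (hU2 τ), hUq] at h1
      simp only [intervalIntegral.integral_const, sub_zero, smul_eq_mul, one_mul] at h1
      linarith
    have b4 : (1 - d) * q * ∫ θ in (0 : ℝ)..1, ‖c τ θ‖ ^ 2 * ‖w θ‖ ^ 2
        ≤ √q * a * ∫ θ in (0 : ℝ)..1, ‖c τ θ‖ * ‖w θ‖ ^ 2 := by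
      rw [← intervalIntegral.integral_const_mul, ← intervalIntegral.integral_const_mul]
      refine intervalIntegral.integral_mono_on zero_le_one
        (Continuous.intervalIntegrable (by fun_prop) _ _)
        (Continuous.intervalIntegrable (by fun_prop) _ _) fun θ _ => ?_
      have := mul_le_mul_of_nonneg_right (hA τ θ) (sq_nonneg ‖w θ‖)
      linarith
    have b5 := (abs_le.mp b2).2
    have b6 := mul_le_mul_of_nonneg_left (abs_le.mp b1).1 hsq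
    have b7 := mul_le_mul_of_nonneg_left b3 (mul_nonneg hκ hW0)
    simp only [a1, a2]
    nlinarith
  have step3 := Finset.sum_le_sum step2
  rw [Finset.sum_sub_distrib, Finset.sum_const, Finset.card_univ, nsmul_eq_mul, ← hN,
    ← Finset.mul_sum, ← intervalIntegral.integral_finsetSum (fun τ _ => hcw τ)] at step3
  have step4 : ∫ θ in (0 : ℝ)..1, (1 - (1 - 2 * d) * ∑ τ, ‖c τ θ‖ ^ 2) * ‖w θ‖ ^ 2
      = W - (1 - 2 * d) * ∫ θ in (0 : ℝ)..1, ∑ τ, ‖c τ θ‖ ^ 2 * ‖w θ‖ ^ 2 := by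
    rw [hW, ← intervalIntegral.integral_const_mul, ← intervalIntegral.integral_sub
      (hw2.intervalIntegrable 0 1) (Continuous.intervalIntegrable (by fun_prop) _ _)]
    refine intervalIntegral.integral_congr fun θ _ => ?_
    rw [← Finset.sum_mul]; ring
  rw [step4]
  have := mul_le_mul_of_nonneg_left hf0le hW0
  nlinarith

end Flat

end Vale.Agent.P130
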