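import Vale.Agent.P130.Model1C

/-! # P130: the one-dimensional model -/

namespace Vale.Agent.P130

open Finset MeasureTheory Vale.Agent.P110

namespace Model1

lemma sum_symm {M : Type*} [AddCommMonoid M] (S : Finset ℤ) (hS : ∀ m ∈ S, 0 < m) (f : ℤ → M) :
    ∑ m ∈ S ∪ S.image (fun m => -m), f m = ∑ m ∈ S, f m + ∑ m ∈ S, f (-m) := by
  rw [Finset.sum_union, Finset.sum_image (fun a _ b _ h => neg_injective h)]
  rw [Finset.disjoint_left]
  intro m hm hm'
  obtain ⟨k, hk, rfl⟩ := Finset.mem_image.1 hm'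
  have := hS _ hm
  have := hS _ hk
  omega

lemma norm_four (a b c d : ℂ) :
    ‖a + b + c + d‖ ^ 2 ≤ 4 * (‖a‖ ^ 2 + ‖b‖ ^ 2 + ‖c‖ ^ 2 + ‖d‖ ^ 2) := by
  have h : ‖a + b + c + d‖ ≤ ‖a‖ + ‖b‖ + ‖c‖ + ‖d‖ :=
    (norm_add_le _ _).trans (add_le_add ((norm_add_le _ _).trans
      (add_le_add (norm_add_le _ _) le_rfl)) le_rfl)
  refine (pow_le_pow_left₀ (norm_nonneg _) h 2).trans ?_
  nlinarith [sq_nonneg (‖a‖ - ‖b‖), sq_nonneg (‖a‖ - ‖c‖), sq_nonneg (‖a‖ - ‖d‖),
    sq_nonneg (‖b‖ - ‖c‖), sq_nonneg (‖b‖ - ‖d‖), sq_nonneg (‖c‖ - ‖d‖)]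

lemma sum_sq_le (p : ℕ → ℝ) (Λ : ℝ) (hΛ : 0 < Λ) (h0 : ∀ g, 0 ≤ p g)
    (h1 : ∀ g : ℕ, 2 ≤ g → p g ≤ 1 / g + 1 / Λ) (h2 : ∀ g : ℕ, Λ ^ 2 < g → p g = 0) (G : ℕ) :
    ∑ g ∈ Icc 2 G, p g ^ 2 ≤ 10 := by
  have h3 : ∀ g ∈ Icc 2 G, p g ^ 2 ≤ 2 * ((g : ℝ) ^ 2)⁻¹ +
      (if (g : ℝ) ≤ Λ ^ 2 then 2 / Λ ^ 2 else 0) := by
    intro g hg
    split_ifs with h
    · refine (pow_le_pow_left₀ (h0 g) (h1 g (Finset.mem_Icc.1 hg).1) 2).trans ?_
      have e1 : ((g : ℝ) ^ 2)⁻¹ = (1 / g) ^ 2 := by rw [one_div, inv_pow]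
      have e2 : 2 / Λ ^ 2 = 2 * (1 / Λ) ^ 2 := by ring
      rw [e1, e2]
      nlinarith [sq_nonneg (1 / (g : ℝ) - 1 / Λ)]
    · rw [h2 g (not_le.1 h), zero_pow two_ne_zero]; positivity
  refine (Finset.sum_le_sum h3).trans ?_
  rw [Finset.sum_add_distrib, ← Finset.mul_sum, ← Finset.sum_filter, Finset.sum_const,
    nsmul_eq_mul]
  have h4 : ∑ g ∈ Icc 2 G, ((g : ℝ) ^ 2)⁻¹ ≤ 1 := by
    have := sum_Ioo_inv_sq_le (α := ℝ) 1 (G + 1)
    have e : Finset.Ioo 1 (G + 1) = Icc 2 G := by ext g; simp; omega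
    rw [e] at this
    norm_num at this ⊢
    exact this
  have h5 : ((filter (fun g : ℕ => (g : ℝ) ≤ Λ ^ 2) (Icc 2 G)).card : ℝ) ≤ Λ ^ 2 := by
    have : (filter (fun g : ℕ => (g : ℝ) ≤ Λ ^ 2) (Icc 2 G)) ⊆ Icc 1 ⌊Λ ^ 2⌋₊ := by
      intro g hg
      rw [Finset.mem_filter, Finset.mem_Icc] at hg
      rw [Finset.mem_Icc]
      exact ⟨by omega, Nat.le_floor hg.2⟩
    have h6 := Finset.card_le_card this
    rw [Nat.card_Icc, Nat.add_sub_cancel] at h6
    exact le_trans (by exact_mod_cast h6) (Nat.floor_le (by positivity))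
  have h6 : ((filter (fun g : ℕ => (g : ℝ) ≤ Λ ^ 2) (Icc 2 G)).card : ℝ) * (2 / Λ ^ 2) ≤ 2 := by
    calc _ ≤ Λ ^ 2 * (2 / Λ ^ 2) := mul_le_mul_of_nonneg_right h5 (by positivity)
      _ = 2 := by field_simp
  linarith

end Model1

open Model1

set_option maxHeartbeats 1000000 in
theorem model1 : Model1Stmt := by
  intro η δ hη hη' hδ
  obtain ⟨R, hR⟩ := exists_R (ε := δ / 24) (by positivity)
  obtain ⟨ε, hε, hε1, hεδ⟩ : ∃ ε : ℝ, 0 < ε ∧ ε ≤ 1 / 10 ∧ 8 * (14 * R ^ 2 + 36) * ε ≤ δ := by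
    refine ⟨min (1 / 10) (δ / (8 * (14 * R ^ 2 + 36))), by positivity, min_le_left _ _, ?_⟩
    calc _ ≤ 8 * (14 * R ^ 2 + 36) * (δ / (8 * (14 * R ^ 2 + 36))) :=
          mul_le_mul_of_nonneg_left (min_le_right _ _) (by positivity)
      _ = δ := by field_simp
  obtain ⟨s, κ, Λ, S, μ, lo, hi, c, hs, hκ0, hκ1, hΛ, hS, hμ, hc, hsupp, hcμ, hcl, hL2, hdiv⟩ :=
    half η ε R hη hε hε1
  set N : ℝ := 1 / (1 + 3 * ε) ^ 2 with hN
  have hN0 : 0 < N := by positivity
  have hN4 : N ^ 2 * (1 + 3 * ε) ^ 4 = 1 := by rw [hN]; field_simp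
  have hN1 : N ≤ 1 := by
    rw [hN, div_le_one (by positivity)]; nlinarith
  have hN6 : 1 - N ≤ 6 * ε := by
    have : 1 - 6 * ε ≤ N := by
      rw [hN, le_div_iff₀ (by positivity)]
      nlinarith [mul_pos hε hε, mul_pos (mul_pos hε hε) hε]
    linarith
  have hpos : ∀ m ∈ S, 0 < m := fun m hm => (hS m hm).1
  have hneg : ∀ m ∈ S, ¬ 0 < -m := fun m hm => by have := hpos m hm; omega
  let S' : Finset ℤ := S ∪ S.image fun m => -m
  let μ' : ℤ → ℝ := fun m => N ^ 2 * μ (if 0 < m then m else -m)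
  let lo' : ℤ → ℝ := fun m => if 0 < m then lo m else 1 - hi (-m)
  let hi' : ℤ → ℝ := fun m => if 0 < m then hi m else 1 - lo (-m)
  let c' : ℤ → ℝ → ℂ := fun m θ =>
    (N : ℂ) * if 0 < m then c m θ else (starRingEnd ℂ) (c (-m) (1 - θ))
  have hcases : ∀ Q : ℤ → Prop, (∀ m ∈ S, Q m) → (∀ m ∈ S, Q (-m)) → ∀ m ∈ S', Q m := by
    intro Q h1 h2 m hm
    rcases Finset.mem_union.1 hm with h | h
    · exact h1 m h
    · obtain ⟨k, hk, rfl⟩ := Finset.mem_image.1 h
      exact h2 k hk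
  have hp : ∀ θ : ℝ, ∀ g : ℕ, ∑ m ∈ S'.filter (fun m => (g : ℤ) ∣ m), ‖c' m θ‖ ^ 2
      = N ^ 2 * (∑ m ∈ S.filter (fun m => (g : ℤ) ∣ m), ‖c m θ‖ ^ 2 +
        ∑ m ∈ S.filter (fun m => (g : ℤ) ∣ m), ‖c m (1 - θ)‖ ^ 2) := by
    intro θ g
    simp only [Finset.sum_filter]
    rw [sum_symm S hpos, mul_add, Finset.mul_sum, Finset.mul_sum]
    refine congrArg₂ (· + ·) (Finset.sum_congr rfl fun m hm => ?_)
      (Finset.sum_congr rfl fun m hm => ?_)
    · simp only [c', if_pos (hpos m hm), norm_mul, mul_pow, Complex.norm_real, Real.norm_eq_abs,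
        sq_abs, mul_ite, mul_zero]
    · simp only [c', if_neg (hneg m hm), norm_mul, mul_pow, Complex.norm_real, Real.norm_eq_abs,
        sq_abs, mul_ite, mul_zero, dvd_neg, neg_neg, RCLike.norm_conj]
  have hpg : ∀ θ : ℝ, ∀ g : ℕ, 2 ≤ g →
      ∑ m ∈ S'.filter (fun m => (g : ℤ) ∣ m), ‖c' m θ‖ ^ 2 ≤ 1 / g + 1 / Λ := by
    intro θ g hg
    rw [hp]
    have h1 := hdiv θ g (by omega)
    have h2 := hdiv (1 - θ) g (by omega)
    have h3 := bessel R θ
    have h4 : 0 ≤ 1 / (g : ℝ) + 1 / Λ := by positivity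
    have h5 : N ^ 2 * (1 + 3 * ε) ≤ 1 := by
      refine le_trans ?_ hN4.le
      refine mul_le_mul_of_nonneg_left ?_ (by positivity)
      exact le_self_pow₀ (by linarith) (by norm_num)
    calc _ ≤ N ^ 2 * ((1 / g + 1 / Λ) * ((1 + 3 * ε) * F R θ) +
          (1 / g + 1 / Λ) * ((1 + 3 * ε) * F R (1 - θ))) :=
          mul_le_mul_of_nonneg_left (add_le_add h1 h2) (by positivity)
      _ = (1 / g + 1 / Λ) * ((N ^ 2 * (1 + 3 * ε)) * (F R θ + F R (1 - θ))) := by ring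
      _ ≤ (1 / g + 1 / Λ) * (1 * 1) := by
          refine mul_le_mul_of_nonneg_left ?_ h4
          exact mul_le_mul h5 h3 (add_nonneg (F_nonneg _ _) (F_nonneg _ _)) zero_le_one
      _ = _ := by ring
  refine ⟨⌈2 * s⌉₊ + 1, fun y => ⌊Ph s κ y⌋₊, S', μ', lo', hi', c', ?_, ?_, ?_, ?_, ?_, ?_, ?_, ?_,
    ?_, ?_, ?_, ?_, ?_⟩
  · exact Nat.measurable_floor.comp (continuous_Ph s κ).measurable
  · intro y hy
    have h1 : Ph s κ y ≤ 2 * s := by
      have h2 : y ^ 2 ≤ 1 := pow_le_one₀ hy.1 hy.2.le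
      have h3 : κ * s * y ^ 2 ≤ 1 * s * 1 := by gcongr
      have h4 : s * y ≤ s := mul_le_of_le_one_right (by linarith) hy.2.le
      unfold Ph; linarith
    exact Nat.lt_succ_of_le ((Nat.floor_le_floor h1).trans (Nat.floor_le_ceil _))
  · refine hcases _ (fun m hm => ?_) fun m hm => ?_
    · exact Finset.mem_union_right _ (Finset.mem_image_of_mem _ hm)
    · rw [neg_neg]; exact Finset.mem_union_left _ hm
  · refine hcases _ (fun m hm => ?_) fun m hm => ?_
    · simp only [μ', if_pos (hpos m hm)]; exact mul_pos (by positivity) (hμ m hm)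
    · simp only [μ', if_neg (hneg m hm), neg_neg]; exact mul_pos (by positivity) (hμ m hm)
  · refine hcases _ (fun m hm => ?_) fun m hm => ?_ <;>
      simp only [μ', if_pos (hpos m hm), if_neg (hneg m hm), neg_neg]
  · refine hcases _ (fun m hm => ?_) fun m hm => ?_ <;>
      simp only [lo', hi', if_pos (hpos m hm), if_neg (hneg m hm), neg_neg, sub_sub_cancel,
        and_self]
  · refine hcases _ (fun m hm => ?_) fun m hm => ?_
    · obtain ⟨h1, h2, h3⟩ := hc m hm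
      simp only [c', if_pos (hpos m hm), h2, h3, mul_zero, and_self, and_true]
      exact continuous_const.mul h1
    · obtain ⟨h1, h2, h3⟩ := hc m hm
      simp only [c', if_neg (hneg m hm), neg_neg, sub_zero, sub_self, h2, h3, map_zero, mul_zero,
        and_self, and_true]
      exact continuous_const.mul (Complex.continuous_conj.comp (h1.comp (by fun_prop)))
  · refine hcases _ (fun m hm θ h => ?_) fun m hm θ h => ?_
    · simp only [c', lo', hi', if_pos (hpos m hm)] at h ⊢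
      exact hsupp m hm θ (right_ne_zero_of_mul h)
    · simp only [c', lo', hi', if_neg (hneg m hm), neg_neg] at h ⊢
      have h1 := hsupp m hm (1 - θ) (fun h0 => right_ne_zero_of_mul h (by rw [h0, map_zero]))
      exact ⟨by linarith [h1.2], by linarith [h1.1]⟩
  · refine hcases _ (fun m hm θ => ?_) fun m hm θ => ?_
    · simp only [c', μ', if_pos (hpos m hm), norm_mul, mul_pow, Complex.norm_real,
        Real.norm_eq_abs, sq_abs]
      exact mul_le_mul_of_nonneg_left (hcμ m hm θ) (by positivity)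
    · simp only [c', μ', if_neg (hneg m hm), neg_neg, norm_mul, mul_pow, Complex.norm_real,
        Real.norm_eq_abs, sq_abs, RCLike.norm_conj]
      exact mul_le_mul_of_nonneg_left (hcμ m hm _) (by positivity)
  · intro θ
    rw [sum_symm S hpos]
    have h1 : ∑ m ∈ S, (if lo' m ≤ θ ∧ θ ≤ hi' m then μ' m else 0)
        = N ^ 2 * ∑ m ∈ S, (if lo m ≤ θ ∧ θ ≤ hi m then μ m else 0) := by
      rw [Finset.mul_sum]
      refine Finset.sum_congr rfl fun m hm => ?_
      simp only [lo', hi', μ', if_pos (hpos m hm), mul_ite, mul_zero]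
    have h2 : ∑ m ∈ S, (if lo' (-m) ≤ θ ∧ θ ≤ hi' (-m) then μ' (-m) else 0)
        = N ^ 2 * ∑ m ∈ S, (if lo m ≤ 1 - θ ∧ 1 - θ ≤ hi m then μ m else 0) := by
      rw [Finset.mul_sum]
      refine Finset.sum_congr rfl fun m hm => ?_
      simp only [lo', hi', μ', if_neg (hneg m hm), neg_neg, mul_ite, mul_zero]
      refine if_congr ⟨fun h => ⟨by linarith [h.2], by linarith [h.1]⟩,
        fun h => ⟨by linarith [h.2], by linarith [h.1]⟩⟩ rfl rfl
    rw [h1, h2, ← mul_add]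
    have h3 := bessel R θ
    calc _ ≤ N ^ 2 * ((1 + 3 * ε) ^ 3 * (F R θ + ε) + (1 + 3 * ε) ^ 3 * (F R (1 - θ) + ε)) :=
          mul_le_mul_of_nonneg_left (add_le_add (hcl θ) (hcl (1 - θ))) (by positivity)
      _ = N ^ 2 * (1 + 3 * ε) ^ 3 * (F R θ + F R (1 - θ) + 2 * ε) := by ring
      _ ≤ N ^ 2 * (1 + 3 * ε) ^ 3 * (1 + 3 * ε) :=
          mul_le_mul_of_nonneg_left (by linarith) (by positivity)
      _ = 1 := by linear_combination hN4
  · intro θ hθ
    have hθ' : 1 - θ ∈ Set.Icc η (1 - η) := ⟨by linarith [hθ.2], by linarith [hθ.1]⟩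
    have hPc := continuous_Ph s κ
    let E : ℝ → ℂ := fun y => e (θ * ⌊Ph s κ y⌋) - P R θ (Ph s κ y)
        - (starRingEnd ℂ) (P R (1 - θ) (Ph s κ y))
    let D : ℝ → ℝ → ℂ := fun t y => P R t (Ph s κ y) - ∑ m ∈ S, c m t * e (m * y)
    have hDc : ∀ t, Continuous (D t) := by
      intro t
      have := continuous_P R t
      simp only [D]; fun_prop
    have hfl : Measurable fun y => e (θ * ⌊Ph s κ y⌋) :=
      continuous_e.measurable.comp (measurable_const.mul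
        ((measurable_of_countable (fun n : ℤ => (n : ℝ))).comp
          (Int.measurable_floor.comp hPc.measurable)))
    have hfi : IntervalIntegrable (fun y => e (θ * ⌊Ph s κ y⌋)) volume 0 1 :=
      (intervalIntegrable_const (c := (1 : ℝ))).mono_fun' hfl.aestronglyMeasurable
        (Filter.Eventually.of_forall fun y => by simp)
    have hsq : ∀ u : ℝ → ℂ, Continuous u →
        IntervalIntegrable (fun y => ‖e (θ * ⌊Ph s κ y⌋) - u y‖ ^ 2) volume 0 1 := by
      intro u hu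
      refine IntervalIntegrable.mono_fun' (g := fun y => (1 + ‖u y‖) ^ 2)
        (by apply Continuous.intervalIntegrable; fun_prop)
        ((hfl.sub hu.measurable).norm.pow_const 2).aestronglyMeasurable
        (Filter.Eventually.of_forall fun y => ?_)
      simp only [Real.norm_eq_abs, abs_pow, abs_norm]
      refine pow_le_pow_left₀ (norm_nonneg _) ((norm_sub_le _ _).trans ?_) 2
      rw [norm_e]
    have hEi : IntervalIntegrable (fun y => ‖E y‖ ^ 2) volume 0 1 := by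
      have := hsq (fun y => P R θ (Ph s κ y) + (starRingEnd ℂ) (P R (1 - θ) (Ph s κ y)))
        (((continuous_P R θ).comp hPc).add
          (Complex.continuous_conj.comp ((continuous_P R (1 - θ)).comp hPc)))
      simpa only [E, sub_add_eq_sub_sub] using this
    have hT : ∀ y ∈ Set.uIcc (0 : ℝ) 1, ((⌊Ph s κ y⌋₊ : ℕ) : ℝ) = ((⌊Ph s κ y⌋ : ℤ) : ℝ) := by
      intro y hy
      rw [Set.uIcc_of_le zero_le_one] at hy
      have h0 : 0 ≤ Ph s κ y := by have := hy.1; unfold Ph; positivity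
      exact_mod_cast natCast_floor_eq_intCast_floor h0
    have hcongr : ∫ y in (0 : ℝ)..1, ‖e (θ * ((⌊Ph s κ y⌋₊ : ℕ) : ℝ))
          - ∑ m ∈ S', c' m θ * e (m * y)‖ ^ 2
        = ∫ y in (0 : ℝ)..1, ‖e (θ * ⌊Ph s κ y⌋) - ∑ m ∈ S', c' m θ * e (m * y)‖ ^ 2 :=
      intervalIntegral.integral_congr fun y hy => by simp only [hT y hy]
    have hpt : ∀ y, ‖e (θ * ⌊Ph s κ y⌋) - ∑ m ∈ S', c' m θ * e (m * y)‖ ^ 2
        ≤ 4 * (‖E y‖ ^ 2 + ‖D θ y‖ ^ 2 + ‖D (1 - θ) y‖ ^ 2 + 36 * ε ^ 2) := by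
      intro y
      have h1 : ∑ m ∈ S', c' m θ * e (m * y) = N * ∑ m ∈ S, c m θ * e (m * y) +
          N * (starRingEnd ℂ) (∑ m ∈ S, c m (1 - θ) * e (m * y)) := by
        rw [sum_symm S hpos, map_sum, Finset.mul_sum, Finset.mul_sum]
        refine congrArg₂ (· + ·) (Finset.sum_congr rfl fun m hm => ?_)
          (Finset.sum_congr rfl fun m hm => ?_)
        · simp only [c', if_pos (hpos m hm), mul_assoc]
        · simp only [c', if_neg (hneg m hm), neg_neg, map_mul, ← e_neg, mul_assoc]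
          congr 3; push_cast; ring
      have h2 : e (θ * ⌊Ph s κ y⌋) - ∑ m ∈ S', c' m θ * e (m * y)
          = N * E y + N * D θ y + N * (starRingEnd ℂ) (D (1 - θ) y)
            + ((1 - N : ℝ) : ℂ) * e (θ * ⌊Ph s κ y⌋) := by
        rw [h1]; simp only [E, D, map_sub]; push_cast; ring
      rw [h2]
      refine (norm_four _ _ _ _).trans (mul_le_mul_of_nonneg_left ?_ (by norm_num))
      have h3 : ∀ z : ℂ, ‖(N : ℂ) * z‖ ^ 2 ≤ ‖z‖ ^ 2 := by
        intro z
        refine pow_le_pow_left₀ (norm_nonneg _) ?_ 2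
        rw [norm_mul, Complex.norm_real, Real.norm_eq_abs, abs_of_pos hN0]
        exact mul_le_of_le_one_left (norm_nonneg _) hN1
      refine add_le_add (add_le_add (add_le_add (h3 _) (h3 _)) ((h3 _).trans ?_)) ?_
      · rw [RCLike.norm_conj]
      · rw [norm_mul, norm_e, mul_one, Complex.norm_real, Real.norm_eq_abs, sq_abs]
        nlinarith
    have hD : ∀ t, IntervalIntegrable (fun y => ‖D t y‖ ^ 2) volume 0 1 := fun t => by
      have := hDc t
      apply Continuous.intervalIntegrable; fun_prop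
    have h1 := saw_comp R θ hs hκ0 hκ1
    have h2 := hL2 θ hθ
    have h3 := hL2 (1 - θ) hθ'
    have h4 := hR θ ⟨by linarith [hθ.1], by linarith [hθ.2]⟩
    refine le_trans (le_of_eq hcongr) ?_
    calc _ ≤ ∫ y in (0 : ℝ)..1,
          4 * (‖E y‖ ^ 2 + ‖D θ y‖ ^ 2 + ‖D (1 - θ) y‖ ^ 2 + 36 * ε ^ 2) := by
          refine intervalIntegral.integral_mono_on zero_le_one (hsq _ (by fun_prop)) ?_
            fun y _ => hpt y
          exact (((hEi.add (hD _)).add (hD _)).add intervalIntegrable_const).const_mul _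
      _ = 4 * ((∫ y in (0 : ℝ)..1, ‖E y‖ ^ 2) + (∫ y in (0 : ℝ)..1, ‖D θ y‖ ^ 2) +
          (∫ y in (0 : ℝ)..1, ‖D (1 - θ) y‖ ^ 2) + 36 * ε ^ 2) := by
          rw [intervalIntegral.integral_const_mul,
            intervalIntegral.integral_add ((hEi.add (hD _)).add (hD _)) intervalIntegrable_const,
            intervalIntegral.integral_add (hEi.add (hD _)) (hD _),
            intervalIntegral.integral_add hEi (hD _)]
          simp
      _ ≤ 4 * (3 * (δ / 24) + 7 * R ^ 2 * ε + 7 * R ^ 2 * ε + 36 * ε) := by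
          refine mul_le_mul_of_nonneg_left ?_ (by norm_num)
          refine add_le_add (add_le_add (add_le_add (h1.trans (by linarith)) h2) h3) ?_
          nlinarith
      _ ≤ δ := by linarith
  · intro θ _ g hg
    refine (hpg θ g hg).trans ?_
    have h1 : 1 / (g : ℝ) ≤ 1 / 2 := one_div_le_one_div_of_le (by norm_num) (by exact_mod_cast hg)
    have h2 : 1 / Λ ≤ 1 / 10 := one_div_le_one_div_of_le (by norm_num) hΛ
    linarith
  · intro θ _ G
    refine sum_sq_le _ Λ (by linarith) (fun g => Finset.sum_nonneg fun _ _ => by positivity)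
      (hpg θ) (fun g hg => ?_) G
    have h1 : S.filter (fun m => (g : ℤ) ∣ m) = ∅ := by
      rw [Finset.filter_eq_empty_iff]
      intro m hm hd
      have h2 : ((g : ℤ) : ℝ) ≤ m := by exact_mod_cast Int.le_of_dvd (hpos m hm) hd
      have h3 := (hS m hm).2
      push_cast at h2
      linarith
    rw [hp, h1]; simp

end Vale.Agent.P130
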