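import Vale.Agent.P130.Main0
import Vale.Agent.P130.Model1

/-! # P130: the main theorem -/

namespace Vale.Agent.P130

theorem main : MainStmt := main_of_model1 model1

end Vale.Agent.P130
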