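import Vale.Agent.P130.SpectralA

/-! # P130: the abstract spectral lemma -/

namespace Vale.Agent.P130

open Finset MeasureTheory AddCircle Filter Topology

namespace Spectral

section Circle

variable (q : ℕ → ℕ) (pos : ℕ → ℕ → ℕ)

/-- the normalised polynomial of stage `N`. -/
noncomputable def Pf (N : ℕ) (x : C) : ℂ :=
  (∑ j ∈ range (q N), fourier (pos N j : ℤ) x) / ((√(q N) : ℝ) : ℂ)

lemma continuous_Pf (N : ℕ) : Continuous (Pf q pos N) := by
  unfold Pf; fun_prop

open Classical in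
/-- the conjugate phase of `Pf`. -/
noncomputable def uc (N : ℕ) (x : C) : ℂ :=
  if Pf q pos N x = 0 then 1 else (starRingEnd ℂ) (Pf q pos N x) / (‖Pf q pos N x‖ : ℝ)

lemma measurable_uc (N : ℕ) : Measurable (uc q pos N) := by
  have h := (continuous_Pf q pos N).measurable
  unfold uc
  refine Measurable.ite (h (measurableSet_singleton 0)) measurable_const ?_
  exact (Complex.continuous_conj.measurable.comp h).div
    (Complex.continuous_ofReal.measurable.comp h.norm)

lemma norm_uc (N : ℕ) (x : C) : ‖uc q pos N x‖ = 1 := by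
  unfold uc
  split_ifs with h
  · simp
  · have : ‖Pf q pos N x‖ ≠ 0 := norm_ne_zero_iff.mpr h
    rw [norm_div, RCLike.norm_conj, Complex.norm_real, norm_norm, div_self this]

lemma uc_mul (N : ℕ) (x : C) : uc q pos N x * Pf q pos N x = (‖Pf q pos N x‖ : ℝ) := by
  unfold uc
  split_ifs with h
  · simp [h]
  · have : ((‖Pf q pos N x‖ : ℝ) : ℂ) ≠ 0 := by exact_mod_cast norm_ne_zero_iff.mpr h
    rw [div_mul_eq_mul_div, div_eq_iff this, Complex.conj_mul']
    ring

/-- product of the conjugate phases. -/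
noncomputable def Uc (N : ℕ) (x : C) : ℂ := ∏ i ∈ range N, uc q pos i x

lemma measurable_Uc (N : ℕ) : Measurable (Uc q pos N) :=
  Finset.measurable_prod _ fun i _ => measurable_uc q pos i

lemma norm_Uc (N : ℕ) (x : C) : ‖Uc q pos N x‖ = 1 := by
  simp [Uc, norm_prod, norm_uc]

/-- multiplication by `Pf`. -/
noncomputable def mulP (N : ℕ) (f : K) : K :=
  ((1 / √(q N) : ℝ) : ℂ) • ∑ j ∈ range (q N), M (pos N j) f

lemma coeFn_sum {ι : Type*} (S : Finset ι) (F : ι → K) :
    (∑ i ∈ S, F i : K) =ᵐ[m] fun x => ∑ i ∈ S, F i x := by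
  classical
  induction S using Finset.induction_on with
  | empty =>
    simp only [sum_empty]
    exact Lp.coeFn_zero _ _ _
  | insert a S ha ih =>
    simp only [sum_insert ha]
    filter_upwards [Lp.coeFn_add (F a) (∑ i ∈ S, F i), ih] with x h1 h2
    rw [h1, Pi.add_apply, h2]

lemma coeFn_mulP (N : ℕ) (f : K) : mulP q pos N f =ᵐ[m] fun x => Pf q pos N x * f x := by
  have h1 : ∀ᵐ x ∂m, ∀ j : ℕ, (M (pos N j) f) x = fourier (pos N j : ℤ) x * f x :=
    ae_all_iff.mpr fun j => coeFn_M _ f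
  filter_upwards [h1, coeFn_sum (range (q N)) (fun j => M (pos N j) f),
    Lp.coeFn_smul ((1 / √(q N) : ℝ) : ℂ) (∑ j ∈ range (q N), M (pos N j) f)] with x a1 a2 a3
  rw [mulP, a3, Pi.smul_apply, a2, Pf]
  simp only [a1, ← sum_mul, smul_eq_mul]
  push_cast
  ring

/-- `(e - 1) ∏_{n ≤ i < n + d} P_i`. -/
noncomputable def p (n : ℕ) : ℕ → K
  | 0 => ε 1 - ε 0
  | d + 1 => mulP q pos (n + d) (p n d)

lemma coeFn_p (n d : ℕ) :
    p q pos n d =ᵐ[m] fun x => (fourier 1 x - 1) * ∏ i ∈ Ico n (n + d), Pf q pos i x := by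
  induction d with
  | zero =>
    filter_upwards [Lp.coeFn_sub (ε 1) (ε 0), coeFn_ε 1, coeFn_ε 0] with x a1 a2 a3
    rw [p, a1, Pi.sub_apply, a2, a3]
    simp
  | succ d ih =>
    filter_upwards [coeFn_mulP q pos (n + d) (p q pos n d), ih] with x a1 a2
    rw [p, a1, a2, ← add_assoc, prod_Ico_succ_top (Nat.le_add_right n d)]
    ring

/-- the rotated polynomials. -/
noncomputable def r (n d : ℕ) : K :=
  mulU (Uc q pos (n + d)) (measurable_Uc q pos _) (norm_Uc q pos _) (p q pos n d)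

lemma coeFn_r (n d : ℕ) : r q pos n d =ᵐ[m] fun x =>
    Uc q pos (n + d) x * ((fourier 1 x - 1) * ∏ i ∈ Ico n (n + d), Pf q pos i x) := by
  filter_upwards [coeFn_mulU (measurable_Uc q pos (n + d)) (norm_Uc q pos _) (p q pos n d),
    coeFn_p q pos n d] with x a1 a2
  rw [r, a1, a2]

lemma Pf_coe (N : ℕ) (θ : ℝ) : Pf q pos N (θ : C)
    = (∑ j ∈ range (q N), P110.e (pos N j * θ)) / ((√(q N) : ℝ) : ℂ) := by
  simp only [Pf, fourier_coe, Int.cast_natCast]

lemma dist_r (n d : ℕ)
    (h : ∫ θ in (0 : ℝ)..1, ‖P110.e θ - 1‖ ^ 2 *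
      ‖∏ i ∈ Ico n (n + d), ((∑ j ∈ range (q i), P110.e (pos i j * θ)) / ((√(q i) : ℝ) : ℂ))‖ ^ 2 *
      (‖∑ j ∈ range (q (n + d)), P110.e (pos (n + d) j * θ)‖ / √(q (n + d)) - 1) ^ 2
        ≤ 1 / 4 ^ (n + d)) :
    dist (r q pos n d) (r q pos n (d + 1)) ≤ (2 / 2 ^ n) / 2 / 2 ^ d := by
  have h1 : ‖r q pos n (d + 1) - r q pos n d‖ ^ 2 = ∫ x, ‖fourier 1 x - 1‖ ^ 2 *
      ‖∏ i ∈ Ico n (n + d), Pf q pos i x‖ ^ 2 * (‖Pf q pos (n + d) x‖ - 1) ^ 2 ∂m := by
    rw [norm_sq_K]
    refine integral_congr_ae ?_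
    filter_upwards [Lp.coeFn_sub (r q pos n (d + 1)) (r q pos n d), coeFn_r q pos n (d + 1),
      coeFn_r q pos n d] with x a1 a2 a3
    rw [a1, Pi.sub_apply, a2, a3, ← add_assoc, prod_Ico_succ_top (Nat.le_add_right n d), Uc,
      prod_range_succ, ← Uc]
    have : Uc q pos (n + d) x * uc q pos (n + d) x *
        ((fourier 1 x - 1) * ((∏ i ∈ Ico n (n + d), Pf q pos i x) * Pf q pos (n + d) x)) -
        Uc q pos (n + d) x * ((fourier 1 x - 1) * ∏ i ∈ Ico n (n + d), Pf q pos i x)
        = Uc q pos (n + d) x * ((fourier 1 x - 1) * (∏ i ∈ Ico n (n + d), Pf q pos i x) *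
          ((‖Pf q pos (n + d) x‖ - 1 : ℝ) : ℂ)) := by
      push_cast
      rw [← uc_mul]
      ring
    rw [this, norm_mul, norm_Uc, one_mul, norm_mul, norm_mul, Complex.norm_real,
      Real.norm_eq_abs, mul_pow, mul_pow, sq_abs]
  have h2 : ‖r q pos n (d + 1) - r q pos n d‖ ^ 2 ≤ (1 / 2 ^ (n + d)) ^ 2 := by
    rw [h1, integral_m]
    have e1 : ((1 : ℝ) / 2 ^ (n + d)) ^ 2 = 1 / 4 ^ (n + d) := by
      rw [div_pow, one_pow, ← pow_mul, mul_comm, pow_mul]; norm_num
    rw [e1]
    refine le_of_eq_of_le ?_ h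
    refine intervalIntegral.integral_congr fun θ _ => ?_
    simp only [Pf_coe, fourier_coe, Int.cast_one, one_mul, norm_div, Complex.norm_real,
      Real.norm_eq_abs, abs_of_nonneg (Real.sqrt_nonneg _)]
  rw [dist_comm, dist_eq_norm]
  have h3 := abs_le_of_sq_le_sq' h2 (by positivity)
  refine h3.2.trans (le_of_eq ?_)
  rw [pow_add]
  field_simp

/-- density of the limit functions. -/
lemma dense_K (β : ℕ → K) (hβ : ∀ n, dist (r q pos n 0) (β n) ≤ 2 / 2 ^ n)
    (ξ : K) (hξ : ∀ n k, inner ℂ (M k (β n)) ξ = 0) : ξ = 0 := by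
  classical
  have hξm : Measurable ξ := (Lp.stronglyMeasurable ξ).measurable
  have h1 : ∀ n, (fun x => inner ℂ (β n x) (ξ x)) =ᵐ[m] 0 := by
    intro n
    refine L1_unique _ (L2.integrable_inner (β n) ξ)
      ((Lp.stronglyMeasurable (β n)).measurable.inner hξm) fun k => ?_
    rw [← hξ n (-k), L2.inner_def]
    refine integral_congr_ae ?_
    filter_upwards [coeFn_M (-k) (β n)] with x a1
    rw [a1, fourier_neg]
    simp only [RCLike.inner_apply, map_mul, Complex.conj_conj]
    ring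
  let G : C → ℝ := fun x => if ξ x = 0 then 0 else ‖fourier 1 x - 1‖ ^ 2
  have hGm : Measurable G := by
    refine Measurable.ite (hξm (measurableSet_singleton 0)) measurable_const ?_
    exact (by fun_prop : Continuous fun x : C => ‖fourier 1 x - 1‖ ^ 2).measurable
  have hG0 : ∀ x, 0 ≤ G x := by
    intro x; simp only [G]; split_ifs <;> positivity
  have hle : ∀ n, G ≤ᵐ[m] fun x => ‖(r q pos n 0 - β n) x‖ ^ 2 := by
    intro n
    filter_upwards [h1 n, Lp.coeFn_sub (r q pos n 0) (β n), coeFn_r q pos n 0] with x a1 a2 a3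
    simp only [G]
    split_ifs with hx
    · positivity
    · have hb : β n x = 0 := by
        simp only [RCLike.inner_apply, Pi.zero_apply, mul_eq_zero, hx, false_or] at a1
        simpa using a1
      rw [a2, Pi.sub_apply, hb, a3, sub_zero, norm_mul, norm_Uc]
      simp
  have hGi : Integrable G m :=
    (integrable_norm_sq (r q pos 0 0 - β 0)).mono' hGm.aestronglyMeasurable (by
      filter_upwards [hle 0] with x hx
      rwa [Real.norm_eq_abs, abs_of_nonneg (hG0 x)])
  have hI : ∀ n : ℕ, ∫ x, G x ∂m ≤ 4 * (1 / 4) ^ n := by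
    intro n
    refine (integral_mono_ae hGi (integrable_norm_sq _) (hle n)).trans ?_
    rw [← norm_sq_K, ← dist_eq_norm]
    refine (pow_le_pow_left₀ dist_nonneg (hβ n) 2).trans (le_of_eq ?_)
    rw [div_pow, ← pow_mul, mul_comm n 2, pow_mul, one_div, inv_pow]
    norm_num
    ring
  have hI0 : ∫ x, G x ∂m = 0 := by
    refine le_antisymm ?_ (integral_nonneg hG0)
    have : Tendsto (fun n : ℕ => (4 : ℝ) * (1 / 4) ^ n) atTop (𝓝 (4 * 0)) :=
      (tendsto_pow_atTop_nhds_zero_of_lt_one (by norm_num) (by norm_num)).const_mul 4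
    rw [mul_zero] at this
    exact ge_of_tendsto' this hI
  rw [integral_eq_zero_iff_of_nonneg hG0 hGi] at hI0
  apply Lp.ext
  filter_upwards [hI0, ae_fourier_ne_one, Lp.coeFn_zero ℂ 2 m] with x a1 a2 a3
  rw [a3]
  by_contra hx
  simp only [G, Pi.zero_apply] at a1 hx
  rw [if_neg hx] at a1
  exact a2 (sub_eq_zero.mp (norm_eq_zero.mp (pow_eq_zero_iff two_ne_zero |>.mp a1)))

end Circle

section Gram

variable {H : Type*} [NormedAddCommGroup H] [InnerProductSpace ℂ H]
  (V : ℤ → H →ₗᵢ[ℂ] H) (b : ℕ → H)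

/-- simultaneous expansions in `V i (b N)` and in the Fourier basis. -/
noncomputable def R (N : ℕ) (lo hi : ℤ) : Submodule ℂ (H × K) :=
  Submodule.span ℂ {z | ∃ i : ℤ, lo ≤ i ∧ i ≤ hi ∧ z = (V i (b N), ε i)}

lemma R_mono (N : ℕ) {lo hi lo' hi' : ℤ} (h1 : lo' ≤ lo) (h2 : hi ≤ hi') :
    R V b N lo hi ≤ R V b N lo' hi' := by
  apply Submodule.span_mono
  rintro z ⟨i, a1, a2, rfl⟩
  exact ⟨i, h1.trans a1, a2.trans h2, rfl⟩

lemma R_gen (N : ℕ) {lo hi i : ℤ} (h1 : lo ≤ i) (h2 : i ≤ hi) :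
    (V i (b N), ε i) ∈ R V b N lo hi :=
  Submodule.subset_span ⟨i, h1, h2, rfl⟩

variable {V}

lemma R_shift (hV : ∀ k l x, V (k + l) x = V k (V l x)) (N : ℕ) {lo hi : ℤ} (k : ℤ) {z : H × K}
    (hz : z ∈ R V b N lo hi) : (V k z.1, M k z.2) ∈ R V b N (k + lo) (k + hi) := by
  induction hz using Submodule.span_induction with
  | mem x hx =>
    obtain ⟨i, a1, a2, rfl⟩ := hx
    simp only [← hV, M_ε]
    exact R_gen V b N (by omega) (by omega)
  | zero => simp only [Prod.fst_zero, Prod.snd_zero, map_zero]; exact Submodule.zero_mem _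
  | add x y _ _ hx hy =>
    simp only [Prod.fst_add, Prod.snd_add, map_add]
    exact Submodule.add_mem _ hx hy
  | smul c x _ hx =>
    simp only [Prod.smul_fst, Prod.smul_snd, map_smul]
    exact Submodule.smul_mem _ c hx

lemma R_gram (hV : ∀ k l x, V (k + l) x = V k (V l x)) (N : ℕ) (hN : ℤ) {lo hi : ℤ}
    (hw : hi - lo < hN)
    (ho : ∀ k : ℤ, |k| < hN → inner ℂ (V k (b N)) (b N) = if k = 0 then 1 else 0)
    {z w : H × K} (hz : z ∈ R V b N lo hi) (hw' : w ∈ R V b N lo hi) :
    inner ℂ z.1 w.1 = inner ℂ z.2 w.2 := by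
  induction hz using Submodule.span_induction with
  | mem x hx =>
    obtain ⟨i, a1, a2, rfl⟩ := hx
    induction hw' using Submodule.span_induction with
    | mem y hy =>
      obtain ⟨j, b1, b2, rfl⟩ := hy
      have e1 : V i (b N) = V j (V (i - j) (b N)) := by rw [← hV]; congr 2; ring
      simp only
      rw [e1, (V j).inner_map_map, ho _ (by rw [abs_lt]; omega),
        orthonormal_iff_ite.mp ε.orthonormal i j]
      simp only [sub_eq_zero]
    | zero => simp
    | add x y _ _ hx hy =>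
      simp only [Prod.fst_add, Prod.snd_add, inner_add_right] at hx hy ⊢
      rw [hx, hy]
    | smul c x _ hx =>
      simp only [Prod.smul_fst, Prod.smul_snd, inner_smul_right] at hx ⊢
      rw [hx]
  | zero => simp
  | add x y _ _ hx hy =>
    simp only [Prod.fst_add, Prod.snd_add, inner_add_left]
    rw [hx, hy]
  | smul c x _ hx =>
    simp only [Prod.smul_fst, Prod.smul_snd, inner_smul_left]
    rw [hx]

lemma R_step (hV : ∀ k l x, V (k + l) x = V k (V l x)) (q : ℕ → ℕ) (pos : ℕ → ℕ → ℕ) (N : ℕ)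
    (D : ℤ) (hD : ∀ j < q N, (pos N j : ℤ) ≤ D)
    (hb : b N = ((1 / √(q N) : ℝ) : ℂ) • ∑ j ∈ range (q N), V (pos N j) (b (N + 1)))
    {lo hi : ℤ} {z : H × K} (hz : z ∈ R V b N lo hi) :
    (z.1, mulP q pos N z.2) ∈ R V b (N + 1) lo (hi + D) := by
  induction hz using Submodule.span_induction with
  | mem x hx =>
    obtain ⟨i, a1, a2, rfl⟩ := hx
    have : ((V i (b N), ε i).1, mulP q pos N (V i (b N), ε i).2)
        = ((1 / √(q N) : ℝ) : ℂ) • ∑ j ∈ range (q N),
          (V (pos N j + i) (b (N + 1)), ε (pos N j + i)) := by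
      refine Prod.ext ?_ ?_
      · simp only [Prod.smul_fst, Prod.fst_sum]
        conv_lhs => rw [hb]
        simp only [map_smul, map_sum, ← hV, add_comm i]
      · simp only [Prod.smul_snd, Prod.snd_sum, mulP, M_ε]
    rw [this]
    refine Submodule.smul_mem _ _ (Submodule.sum_mem _ fun j hj => ?_)
    have := hD j (mem_range.mp hj)
    exact R_gen V b (N + 1) (by omega) (by omega)
  | zero =>
    simp only [Prod.fst_zero, Prod.snd_zero, mulP, map_zero, sum_const_zero, smul_zero]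
    exact Submodule.zero_mem _
  | add x y _ _ hx hy =>
    have := Submodule.add_mem _ hx hy
    simpa only [Prod.fst_add, Prod.snd_add, mulP, map_add, sum_add_distrib, smul_add,
      Prod.mk_add_mk] using this
  | smul c x _ hx =>
    have := Submodule.smul_mem _ c hx
    simpa only [Prod.smul_fst, Prod.smul_snd, mulP, map_smul, ← smul_sum, smul_comm c,
      Prod.smul_mk] using this

lemma R_p (hV : ∀ k l x, V (k + l) x = V k (V l x)) (hV0 : ∀ x, V 0 x = x) (h q : ℕ → ℕ)
    (pos : ℕ → ℕ → ℕ) (hpos : ∀ n j, j < q n → pos n j + h n < h (n + 1))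
    (hb : ∀ N, b N = ((1 / √(q N) : ℝ) : ℂ) • ∑ j ∈ range (q N), V (pos N j) (b (N + 1)))
    (n d : ℕ) :
    (V 1 (b n) - b n, p q pos n d) ∈ R V b (n + d) 0 (1 + h (n + d) - h n - d) := by
  induction d with
  | zero =>
    have h1 := R_gen V b n (lo := 0) (hi := 1) (i := 1) (by omega) (by omega)
    have h0 := R_gen V b n (lo := 0) (hi := 1) (i := 0) (by omega) (by omega)
    have := Submodule.sub_mem _ h1 h0
    rw [hV0] at this
    simpa [p] using this
  | succ d ih =>
    have := R_step b hV q pos (n + d) ((h (n + d + 1) : ℤ) - h (n + d) - 1)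
      (fun j hj => by have := hpos _ j hj; omega) (hb _) ih
    refine R_mono V b _ le_rfl (le_of_eq ?_) this
    rw [← add_assoc]
    push_cast
    ring

end Gram

end Spectral

open Spectral in
theorem spectral : SpectralStmt := by
  intro H _ _ _ V one b h q pos hV hV0 h1 h0 _ hq hpos ho hb hd hflat
  have hdist : ∀ n d, dist (r q pos n d) (r q pos n (d + 1)) ≤ (2 / 2 ^ n) / 2 / 2 ^ d :=
    fun n d => dist_r q pos n d (hflat n (n + d) (Nat.le_add_right n d))
  have hlim : ∀ n, ∃ β : K, Tendsto (r q pos n) atTop (𝓝 β) := fun n =>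
    cauchySeq_tendsto_of_complete (cauchySeq_of_le_geometric_two (hdist n))
  choose β hβ using hlim
  refine transfer V M one (fun n => V 1 (b n) - b n) β ε hV M_add (fun k => ?_) (fun n k => ?_)
    (fun n k n' l => ?_) (dense_K q pos β fun n => ?_) (fun ξ a1 a2 => ?_)
  · rw [M_ε, add_zero]
  · have e1 : ∀ j x, inner ℂ one (V j x) = inner ℂ one x := by
      intro j x
      conv_lhs => rw [← h1 j]
      exact (V j).inner_map_map _ _
    rw [e1, inner_sub_right, e1, sub_self]
  · have t1 : Tendsto (fun N => inner ℂ (M k (r q pos n (N - n))) (M l (r q pos n' (N - n'))))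
        atTop (𝓝 (inner ℂ (M k (β n)) (M l (β n')))) := by
      refine Filter.Tendsto.inner ?_ ?_
      · exact ((M k).continuous.tendsto _).comp ((hβ n).comp (tendsto_sub_atTop_nat n))
      · exact ((M l).continuous.tendsto _).comp ((hβ n').comp (tendsto_sub_atTop_nat n'))
    refine tendsto_nhds_unique ?_ t1
    refine tendsto_const_nhds.congr' ?_
    filter_upwards [eventually_ge_atTop (2 * (k.natAbs + l.natAbs) + 2 + n + n')] with N hN
    have e1 : n + (N - n) = N := by omega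
    have e2 : n' + (N - n') = N := by omega
    have p1 := R_shift b hV _ k (R_p b hV hV0 h q pos hpos hb n (N - n))
    have p2 := R_shift b hV _ l (R_p b hV hV0 h q pos hpos hb n' (N - n'))
    rw [e1] at p1
    rw [e2] at p2
    have g := R_gram b hV N (h N) (lo := -(k.natAbs + l.natAbs))
      (hi := k.natAbs + l.natAbs + 1 + h N - N + n + n') (by omega) (ho N)
      (R_mono V b N (by omega) (by omega) p1) (R_mono V b N (by omega) (by omega) p2)
    simp only at g
    rw [g]
    simp only [r, e1, e2, M]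
    rw [mulU_comm, mulU_comm (fourier l).continuous.measurable, LinearIsometry.inner_map_map]
  · exact dist_le_of_le_geometric_two_of_tendsto₀ (hdist n) (hβ n)
  · exact dense_diff V one b q pos hV hV0 h1 h0 hq hb hd ξ a1 a2

end Vale.Agent.P130
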