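import Vale.Agent.P130.Stmts

/-! The rank-one system with prescribed cutting and stacking data. -/

namespace Vale.Agent.P130

open Finset MeasureTheory Filter Topology

namespace SystemAux

/-- the symbolic space -/
abbrev XX := ℤ × ℕ → Bool

/-- the shift -/
def sh (k : ℤ) (x : XX) : XX := fun p => x (p.1 + k, p.2)

theorem sh_sh (k l : ℤ) (x : XX) : sh k (sh l x) = sh (k + l) x := by
  funext p; simp [sh, add_assoc]

theorem sh_zero (x : XX) : sh 0 x = x := by
  funext p; simp [sh]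

theorem continuous_sh (k : ℤ) : Continuous (sh k) :=
  continuous_pi fun _ => continuous_apply _

theorem measurable_sh (k : ℤ) : Measurable (sh k) :=
  measurable_pi_lambda _ fun _ => measurable_pi_apply _

/-- the shift as a measurable equivalence -/
def TT : XX ≃ᵐ XX where
  toFun := sh 1
  invFun := sh (-1)
  left_inv x := by rw [sh_sh]; simp [sh_zero]
  right_inv x := by rw [sh_sh]; simp [sh_zero]
  measurable_toFun := measurable_sh 1
  measurable_invFun := measurable_sh (-1)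

theorem zpow_apply (k : ℤ) (x : XX) : (TT.toEquiv ^ k : Equiv.Perm XX) x = sh k x := by
  induction k using Int.induction_on generalizing x with
  | zero => simp [sh_zero]
  | succ k ih =>
    rw [zpow_add_one, Equiv.Perm.mul_apply, ih]
    exact sh_sh _ _ _
  | pred k ih =>
    rw [zpow_sub_one, Equiv.Perm.mul_apply, ih]
    exact sh_sh _ _ _

theorem mp_sh {μ : Measure XX} (h : MeasurePreserving (sh 1) μ μ) (k : ℤ) :
    MeasurePreserving (sh k) μ μ := by
  have h' : MeasurePreserving (sh (-1)) μ μ := MeasurePreserving.symm TT h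
  induction k using Int.induction_on with
  | zero =>
    have : sh 0 = id := funext sh_zero
    rw [this]; exact MeasurePreserving.id μ
  | succ k ih =>
    have : sh (k + 1) = sh k ∘ sh 1 := funext fun x => (sh_sh _ _ _).symm
    rw [this]; exact ih.comp h
  | pred k ih =>
    have : sh (-k - 1) = sh (-k) ∘ sh (-1) := funext fun x => (sh_sh _ _ _).symm
    rw [this]; exact ih.comp h'

/-- a level -/
def Lv (n : ℕ) (i : ℤ) : Set XX := {x | x (i, n) = true}

theorem isClopen_Lv (n : ℕ) (i : ℤ) : IsClopen (Lv n i) :=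
  (isClopen_discrete {true}).preimage (continuous_apply (i, n))

theorem meas_Lv (n : ℕ) (i : ℤ) : MeasurableSet (Lv n i) := (isClopen_Lv n i).isOpen.measurableSet

theorem preimage_Lv (n : ℕ) (k : ℤ) : sh k ⁻¹' Lv n 0 = Lv n k := by
  ext x; simp [Lv, sh]

theorem real_Lv {μ : Measure XX} (hμ : MeasurePreserving (sh 1) μ μ) (n : ℕ) (k : ℤ) :
    μ.real (Lv n k) = μ.real (Lv n 0) := by
  rw [← preimage_Lv, measureReal_def, (mp_sh hμ k).measure_preimage (meas_Lv n 0).nullMeasurableSet]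
  rfl

/-- the stacking rule -/
def G1 (q : ℕ → ℕ) (pos : ℕ → ℕ → ℕ) (n : ℕ) (x : XX) : Prop :=
  ∀ i : ℤ, x (i, n) = true ↔ ∃ j < q n, x (i - pos n j, n + 1) = true

/-- the separation rule -/
def G2 (h : ℕ → ℕ) (n : ℕ) (x : XX) : Prop :=
  ∀ i i' : ℤ, i < i' → x (i, n) = true → x (i', n) = true → i + h n ≤ i'

theorem G1.shift {q : ℕ → ℕ} {pos : ℕ → ℕ → ℕ} {n : ℕ} {x : XX} (hx : G1 q pos n x) (k : ℤ) :
    G1 q pos n (sh k x) := by
  intro i
  simp only [sh, hx (i + k), add_sub_right_comm]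

theorem G2.shift {h : ℕ → ℕ} {n : ℕ} {x : XX} (hx : G2 h n x) (k : ℤ) : G2 h n (sh k x) := by
  intro i i' hi h1 h2
  have := hx (i + k) (i' + k) (by omega) h1 h2
  omega

theorem G2.eq {h : ℕ → ℕ} {n : ℕ} {x : XX} (hx : G2 h n x) {i i' : ℤ} (h1 : x (i, n) = true)
    (h2 : x (i', n) = true) (h3 : i < i' + h n) (h4 : i' < i + h n) : i = i' := by
  rcases lt_trichotomy i i' with hl | hl | hl
  · have := hx i i' hl h1 h2; omega
  · exact hl
  · have := hx i' i hl h2 h1; omega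

theorem levels {μ : Measure XX} [IsFiniteMeasure μ] (hμ : MeasurePreserving (sh 1) μ μ)
    {h : ℕ → ℕ} {n : ℕ} (hG : ∀ᵐ x ∂μ, G2 h n x) {ι : Type} (s : Finset ι) (c : ι → ℤ)
    (hs : ∀ a ∈ s, ∀ b ∈ s, c a < c b + h n) (hc : ∀ a ∈ s, ∀ b ∈ s, c a = c b → a = b) :
    μ.real (⋃ a ∈ s, Lv n (c a)) = s.card * μ.real (Lv n 0) := by
  rw [measureReal_biUnion_finset₀ ?_ (fun a _ => (meas_Lv n _).nullMeasurableSet)]
  · simp only [real_Lv hμ n (c _), sum_const, nsmul_eq_mul]
  · intro a ha b hb hab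
    refine measure_eq_zero_iff_ae_notMem.2 ?_
    filter_upwards [hG] with x hx hx'
    exact hab (hc a ha b hb (hx.eq hx'.1 hx'.2 (hs a ha b hb) (hs b hb a ha)))

section data

variable {h q : ℕ → ℕ} {pos : ℕ → ℕ → ℕ}

theorem pos_mono (h1 : ∀ n j, j + 1 < q n → pos n j + h n ≤ pos n (j + 1)) {n j j' : ℕ}
    (hj : j < j') (hj' : j' < q n) : pos n j + h n ≤ pos n j' := by
  induction j' with
  | zero => omega
  | succ k ih =>
    have := h1 n k hj'
    rcases Nat.lt_succ_iff_lt_or_eq.1 hj with hl | rfl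
    · have := ih hl (by omega); omega
    · exact this

theorem G2_down (h1 : ∀ n j, j + 1 < q n → pos n j + h n ≤ pos n (j + 1))
    (h2 : ∀ n j, j < q n → pos n j + h n ≤ h (n + 1)) {n : ℕ} {x : XX}
    (g1 : G1 q pos n x) (g2 : G2 h (n + 1) x) : G2 h n x := by
  intro i i' hi hx hx'
  obtain ⟨j, hj, hy⟩ := (g1 i).1 hx
  obtain ⟨j', hj', hy'⟩ := (g1 i').1 hx'
  have a1 := h2 n j hj
  have a2 := h2 n j' hj'
  rcases lt_trichotomy (i - pos n j) (i' - pos n j') with hl | hl | hl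
  · have := g2 _ _ hl hy hy'; omega
  · have := pos_mono h1 (show j < j' by
      by_contra hc
      rcases Nat.lt_or_eq_of_le (not_lt.1 hc) with h3 | h3
      · have := pos_mono h1 h3 hj; omega
      · subst h3; omega) hj'
    omega
  · have := g2 _ _ hl hy' hy; omega

theorem G2_le (h1 : ∀ n j, j + 1 < q n → pos n j + h n ≤ pos n (j + 1))
    (h2 : ∀ n j, j < q n → pos n j + h n ≤ h (n + 1)) {N : ℕ} {x : XX}
    (g1 : ∀ n < N, G1 q pos n x) (g2 : G2 h N x) {n : ℕ} (hn : n ≤ N) : G2 h n x := by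
  induction hn using Nat.decreasingInduction with
  | self => exact g2
  | of_succ k hk ih => exact G2_down h1 h2 (g1 k hk) ih

theorem nest (h2 : ∀ n j, j < q n → pos n j + h n ≤ h (n + 1)) {N : ℕ} {x : XX}
    (g1 : ∀ n, G1 q pos n x) (g2 : G2 h N x) {a : ℤ} (ha : x (a, N) = true) {n : ℕ} (hn : n ≤ N) :
    ∀ b : ℤ, x (b, n) = true → b < a → b + h n ≤ a := by
  induction hn using Nat.decreasingInduction with
  | self => exact fun b hb hba => g2 b a hba hb ha
  | of_succ k _ ih =>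
    intro b hb hba
    obtain ⟨j, hj, hy⟩ := (g1 k b).1 hb
    have := ih _ hy (by omega)
    have := h2 k j hj
    omega

theorem determined (h0 : ∀ n, n < h n) (h2 : ∀ n j, j < q n → pos n j + h n ≤ h (n + 1)) {N : ℕ}
    {x y : XX} (g1 : ∀ n, G1 q pos n x) (g2 : G2 h N x) (g1' : ∀ n, G1 q pos n y) {a : ℤ}
    (ha : x (a, N) = true) (ha' : y (a, N) = true) {n : ℕ} (hn : n ≤ N) :
    ∀ i : ℤ, a ≤ i → i < a + h N → x (i, n) = true → y (i, n) = true := by
  induction hn using Nat.decreasingInduction with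
  | self =>
    intro i h3 h4 hx
    have : i = a := g2.eq hx ha h4 (by have := h0 N; omega)
    rwa [this]
  | of_succ k hk ih =>
    intro i h3 h4 hx
    obtain ⟨j, hj, hy⟩ := (g1 k i).1 hx
    refine (g1' k i).2 ⟨j, hj, ih _ ?_ (by omega) hy⟩
    by_contra hc
    have := nest h2 g1 g2 ha (n := k + 1) hk _ hy (not_le.1 hc)
    have := h2 k j hj
    have := h0 k
    omega

theorem ratio (h0 : ∀ n, n < h n) (h1 : ∀ n j, j + 1 < q n → pos n j + h n ≤ pos n (j + 1))
    (h2 : ∀ n j, j < q n → pos n j + h n ≤ h (n + 1)) {μ : Measure XX} [IsFiniteMeasure μ]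
    (hμ : MeasurePreserving (sh 1) μ μ) {n : ℕ} (g1 : ∀ᵐ x ∂μ, G1 q pos n x)
    (g2 : ∀ᵐ x ∂μ, G2 h (n + 1) x) : μ.real (Lv n 0) = q n * μ.real (Lv (n + 1) 0) := by
  have h3 := levels hμ g2 (range (q n)) (fun j => 0 - (pos n j : ℤ))
    (fun a _ b hb => by
      have := h2 n b (mem_range.1 hb)
      have := h0 n
      omega)
    (fun a ha b hb hab => by
      have := h0 n
      rcases lt_trichotomy a b with hl | hl | hl
      · have := pos_mono h1 hl (mem_range.1 hb); omega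
      · exact hl
      · have := pos_mono h1 hl (mem_range.1 ha); omega)
  rw [card_range] at h3
  rw [← h3]
  refine measureReal_congr ?_
  filter_upwards [g1] with x hx
  refine propext ((hx 0).trans ?_)
  change _ ↔ x ∈ ⋃ a ∈ range (q n), Lv (n + 1) (0 - (pos n a : ℤ))
  simp [Lv]

/-- the periodic marking -/
def mk (h q : ℕ → ℕ) (pos : ℕ → ℕ → ℕ) (N : ℕ) : ℕ → ℤ → Prop
  | 0, i => (h N : ℤ) ∣ i
  | d + 1, i => ∃ j < q (N - (d + 1)), mk h q pos N d (i - pos (N - (d + 1)) j)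

theorem mk_per (N d : ℕ) (i : ℤ) : mk h q pos N d (i + h N) ↔ mk h q pos N d i := by
  induction d generalizing i with
  | zero => simp [mk]
  | succ d ih => simp only [mk, add_sub_right_comm, ih]

open Classical in
/-- the periodic point -/
noncomputable def xN (h q : ℕ → ℕ) (pos : ℕ → ℕ → ℕ) (N : ℕ) : XX :=
  fun p => decide (mk h q pos N (N - p.2) p.1)

theorem xN_per (N : ℕ) : sh (h N) (xN h q pos N) = xN h q pos N := by
  funext p
  exact decide_eq_decide.2 (mk_per N _ _)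

theorem xN_G1 {N n : ℕ} (hn : n < N) : G1 q pos n (xN h q pos N) := by
  intro i
  have e1 : N - n = N - (n + 1) + 1 := by omega
  have e2 : N - (N - (n + 1) + 1) = n := by omega
  simp only [xN, decide_eq_true_eq, e1, mk, e2]

theorem xN_top (N : ℕ) (i : ℤ) : xN h q pos N (i, N) = true ↔ (h N : ℤ) ∣ i := by
  simp [xN, mk]

theorem xN_G2 (N : ℕ) : G2 h N (xN h q pos N) := by
  intro i i' hi h1 h2
  rw [xN_top] at h1 h2
  have := Int.le_of_dvd (by omega) (dvd_sub h2 h1)
  omega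

/-- the uniform measure on the periodic orbit -/
noncomputable def muN (h q : ℕ → ℕ) (pos : ℕ → ℕ → ℕ) (N : ℕ) : Measure XX :=
  ((h N : ENNReal)⁻¹) • ∑ l ∈ range (h N), Measure.dirac (sh l (xN h q pos N))

theorem muN_prob (h0 : ∀ n, n < h n) (N : ℕ) : IsProbabilityMeasure (muN h q pos N) := by
  constructor
  have : (h N : ENNReal) ≠ 0 := by have := h0 N; simp; omega
  simp [muN, ENNReal.inv_mul_cancel this]

theorem muN_ae (N : ℕ) {P : XX → Prop} (hP : ∀ l < h N, P (sh l (xN h q pos N))) :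
    ∀ᵐ x ∂muN h q pos N, P x := by
  refine Measure.ae_smul_measure (ae_finsetSum_measure_iff.2 fun l hl => ?_) _
  rw [ae_dirac_eq]
  exact hP l (mem_range.1 hl)

theorem muN_mp (h0 : ∀ n, n < h n) (N : ℕ) :
    MeasurePreserving (sh 1) (muN h q pos N) (muN h q pos N) := by
  refine ⟨measurable_sh 1, ?_⟩
  rw [muN, Measure.map_smul, Measure.map_finset_sum (measurable_sh 1).aemeasurable]
  congr 1
  simp only [Measure.map_dirac' (measurable_sh 1), sh_sh]
  have hp := xN_per (h := h) (q := q) (pos := pos) N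
  obtain ⟨k, hk⟩ : ∃ k, h N = k + 1 := ⟨h N - 1, by have := h0 N; omega⟩
  rw [hk] at hp ⊢
  rw [sum_range_succ, sum_range_succ']
  congr 1
  · exact sum_congr rfl fun l _ => by rw [add_comm]; rfl
  · rw [add_comm]
    simp only [Nat.cast_zero, sh_zero]
    exact congrArg _ hp

theorem muN_low (h0 : ∀ n, n < h n) (h1 : ∀ n j, j + 1 < q n → pos n j + h n ≤ pos n (j + 1))
    (h2 : ∀ n j, j < q n → pos n j + h n ≤ h (n + 1))
    (h3 : ∀ n, (h (n + 1) : ℝ) ≤ (1 + 1 / 2 ^ n) * (q n * h n)) {N n : ℕ} (hn : n ≤ N) :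
    1 - 2 / 2 ^ n ≤ h n * (muN h q pos N).real (Lv n 0) := by
  have := muN_prob (q := q) (pos := pos) h0 N
  have g2 : ∀ n ≤ N, ∀ᵐ x ∂muN h q pos N, G2 h n x := fun n hn => muN_ae N fun l _ =>
    (G2_le h1 h2 (fun n hn => xN_G1 hn) (xN_G2 N) hn).shift l
  induction hn using Nat.decreasingInduction with
  | self =>
    have h4 := levels (muN_mp h0 N) (g2 N le_rfl) (range (h N)) (fun l => -(l : ℤ))
      (fun a _ b hb => by have := mem_range.1 hb; omega) (fun a _ b _ hab => by omega)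
    rw [card_range] at h4
    have h5 : (muN h q pos N).real (⋃ a ∈ range (h N), Lv N (-(a : ℤ))) =
        (muN h q pos N).real Set.univ := by
      refine measureReal_congr (ae_eq_univ.2 (measure_eq_zero_iff_ae_notMem.2
        (muN_ae N fun l hl hx => hx ?_)))
      refine Set.mem_biUnion (mem_coe.2 (mem_range.2 hl)) ?_
      simp [Lv, sh, xN_top]
    rw [← h4, h5, probReal_univ]
    have : (0 : ℝ) ≤ 2 / 2 ^ N := by positivity
    linarith
  | of_succ k hk ih =>
    rw [ratio h0 h1 h2 (muN_mp h0 N) (muN_ae N fun l _ => (xN_G1 hk).shift l) (g2 (k + 1) hk)]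
    have a0 : 0 ≤ (muN h q pos N).real (Lv (k + 1) 0) := measureReal_nonneg
    have a1 := mul_le_mul_of_nonneg_right (h3 k) a0
    generalize (muN h q pos N).real (Lv (k + 1) 0) = y at *
    have e1 : (2 : ℝ) / 2 ^ (k + 1) = 1 / 2 ^ k := by rw [pow_succ]; field_simp
    have e2 : (2 : ℝ) / 2 ^ k = 2 * (1 / 2 ^ k) := by ring
    have a2 : (0 : ℝ) < 1 / 2 ^ k := by positivity
    rw [e1] at ih
    rw [e2]
    generalize (1 : ℝ) / 2 ^ k = t at *
    by_contra hc
    have a3 := mul_lt_mul_of_pos_left (not_le.1 hc) (by linarith : 0 < 1 + t)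
    nlinarith [sq_nonneg t]

theorem exists_limit (h0 : ∀ n, n < h n)
    (h1 : ∀ n j, j + 1 < q n → pos n j + h n ≤ pos n (j + 1))
    (h2 : ∀ n j, j < q n → pos n j + h n ≤ h (n + 1))
    (h3 : ∀ n, (h (n + 1) : ℝ) ≤ (1 + 1 / 2 ^ n) * (q n * h n)) :
    ∃ μ : Measure XX, IsProbabilityMeasure μ ∧ MeasurePreserving (sh 1) μ μ ∧
      (∀ n, ∀ᵐ x ∂μ, G1 q pos n x) ∧ (∀ n, ∀ᵐ x ∂μ, G2 h n x) ∧
      ∀ n, 1 - 2 / 2 ^ n ≤ h n * μ.real (Lv n 0) := by
  let μs : ℕ → ProbabilityMeasure XX := fun N => ⟨muN h q pos N, muN_prob h0 N⟩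
  obtain ⟨μ, -, hμ⟩ := isCompact_univ.ultrafilter_le_nhds
    (Ultrafilter.map μs (hyperfilter ℕ)) (by simp)
  have hlim : Tendsto μs (hyperfilter ℕ) (𝓝 μ) := hμ
  have hC : ∀ C : Set XX, IsClopen C →
      Tendsto (fun N => muN h q pos N C) (hyperfilter ℕ) (𝓝 ((μ : Measure XX) C)) :=
    fun C hC => ProbabilityMeasure.tendsto_measure_of_null_frontier_of_tendsto' hlim
      (by simp [hC])
  have hae : ∀ (C : Set XX) (n : ℕ), IsClopen C → (∀ N, n < N → ∀ l : ℕ, sh l (xN h q pos N) ∈ C) →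
      ∀ᵐ x ∂(μ : Measure XX), x ∈ C := by
    intro C n hc hN
    have h4 : ∀ᶠ N in (hyperfilter ℕ : Filter ℕ), muN h q pos N Cᶜ = 0 :=
      ((eventually_gt_atTop n).filter_mono Nat.hyperfilter_le_atTop).mono fun N hn =>
        mem_ae_iff.1 (muN_ae (P := fun x => x ∈ C) N fun l _ => hN N hn l)
    exact mem_ae_iff.2 (tendsto_nhds_unique (hC _ hc.compl)
      (tendsto_const_nhds.congr' (h4.mono fun N hN => hN.symm)))
  refine ⟨μ, μ.2, ⟨measurable_sh 1, ?_⟩, fun n => ?_, fun n => ?_, fun n => ?_⟩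
  · have h4 := ProbabilityMeasure.tendsto_map_of_tendsto_of_continuous μs μ hlim (continuous_sh 1)
    have h5 : (fun N => (μs N).map (continuous_sh 1).measurable.aemeasurable) = μs := by
      funext N
      exact Subtype.ext (muN_mp h0 N).2
    rw [h5] at h4
    have h6 := tendsto_nhds_unique h4 hlim
    exact congrArg ProbabilityMeasure.toMeasure h6
  · refine ae_all_iff.2 fun i => ?_
    have hU : IsClopen (⋃ j ∈ range (q n), Lv (n + 1) (i - pos n j)) :=
      isClopen_biUnion_finset fun j _ => isClopen_Lv _ _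
    have key : ∀ x : XX, x ∈ (Lv n i ∩ ⋃ j ∈ range (q n), Lv (n + 1) (i - pos n j)) ∪
        ((Lv n i)ᶜ ∩ (⋃ j ∈ range (q n), Lv (n + 1) (i - pos n j))ᶜ) ↔
        (x (i, n) = true ↔ ∃ j < q n, x (i - pos n j, n + 1) = true) := by
      intro x
      have : x ∈ (⋃ j ∈ range (q n), Lv (n + 1) (i - pos n j)) ↔
          ∃ j < q n, x (i - pos n j, n + 1) = true := by simp [Lv]
      rw [← this]
      change _ ↔ (x ∈ Lv n i ↔ _)
      simp only [Set.mem_union, Set.mem_inter_iff, Set.mem_compl_iff]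
      tauto
    filter_upwards [hae _ n (((isClopen_Lv n i).inter hU).union ((isClopen_Lv n i).compl.inter
      hU.compl)) fun N hN l => (key _).2 ((xN_G1 hN).shift l i)] with x hx
    exact (key x).1 hx
  · refine ae_all_iff.2 fun i => ae_all_iff.2 fun i' => ?_
    by_cases hc : i < i' ∧ ¬ i + h n ≤ i'
    · filter_upwards [hae _ n ((isClopen_Lv n i).inter (isClopen_Lv n i')).compl
        fun N hN l hx => hc.2 ((G2_le h1 h2 (fun n hn => xN_G1 hn) (xN_G2 N) hN.le).shift l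
          i i' hc.1 hx.1 hx.2)] with x hx _ a1 a2
      exact absurd ⟨a1, a2⟩ hx
    · refine Eventually.of_forall fun x a0 _ _ => ?_
      by_contra a3
      exact hc ⟨a0, a3⟩
  · have h4 := ((ENNReal.tendsto_toReal (measure_ne_top _ _)).comp
      (hC _ (isClopen_Lv n 0))).const_mul (h n : ℝ)
    refine ge_of_tendsto h4 ?_
    exact ((eventually_ge_atTop n).filter_mono Nat.hyperfilter_le_atTop).mono fun N hn =>
      muN_low h0 h1 h2 h3 hn

theorem small (h0 : ∀ n, n < h n) {μ : Measure XX} [IsProbabilityMeasure μ]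
    (hμ : MeasurePreserving (sh 1) μ μ) (g2 : ∀ n, ∀ᵐ x ∂μ, G2 h n x)
    (hl : ∀ n, 1 - 2 / 2 ^ n ≤ h n * μ.real (Lv n 0)) (K N : ℕ) :
    μ.real (Lv N 0) ≤ 1 / ((N : ℝ) + 1) ∧
    μ.real (⋃ a ∈ Ioc ((K : ℤ) - h N) (-K), Lv N a)ᶜ ≤ 2 / 2 ^ N + 2 * K * (1 / ((N : ℝ) + 1)) := by
  have a0 : 0 ≤ μ.real (Lv N 0) := measureReal_nonneg
  have h4 : μ.real (Lv N 0) ≤ 1 / ((N : ℝ) + 1) := by
    have h5 := levels hμ (g2 N) (range (h N)) (fun l => -(l : ℤ))
      (fun a _ b hb => by have := mem_range.1 hb; omega) (fun a _ b _ hab => by omega)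
    rw [card_range] at h5
    have h6 : μ.real (⋃ a ∈ range (h N), Lv N (-(a : ℤ))) ≤ 1 := measureReal_le_one
    have h7 : (N : ℝ) + 1 ≤ h N := by exact_mod_cast h0 N
    rw [le_div_iff₀ (by positivity)]
    nlinarith
  refine ⟨h4, ?_⟩
  have h5 := levels hμ (g2 N) (Ioc ((K : ℤ) - h N) (-K)) (fun l => l)
    (fun a ha b hb => by
      have := mem_Ioc.1 ha
      have := mem_Ioc.1 hb
      omega) (fun a _ b _ hab => hab)
  rw [probReal_compl_eq_one_sub (Finset.measurableSet_biUnion _ fun a _ => meas_Lv N a), h5,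
    Int.card_Ioc]
  have h6 : (h N : ℝ) - 2 * K ≤ ((-(K : ℤ) - ((K : ℤ) - h N)).toNat : ℝ) := by
    have : (h N : ℤ) - 2 * K ≤ ((-(K : ℤ) - ((K : ℤ) - h N)).toNat : ℤ) := by omega
    exact_mod_cast this
  have h7 := mul_le_mul_of_nonneg_right h6 a0
  have h8 := mul_le_mul_of_nonneg_left h4 (by positivity : (0 : ℝ) ≤ 2 * K)
  have h9 := hl N
  nlinarith

theorem tend (K : ℝ) : Tendsto (fun N : ℕ => 2 / (2 : ℝ) ^ N + K * (1 / ((N : ℝ) + 1))) atTop
    (𝓝 0) := by
  have h1 : Tendsto (fun N : ℕ => 2 / (2 : ℝ) ^ N) atTop (𝓝 0) :=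
    tendsto_const_nhds.div_atTop (tendsto_pow_atTop_atTop_of_one_lt one_lt_two)
  simpa using h1.add (tendsto_one_div_add_atTop_nhds_zero_nat.const_mul K)

theorem cyl_zero (h0 : ∀ n, n < h n) (h2 : ∀ n j, j < q n → pos n j + h n ≤ h (n + 1))
    {μ : Measure XX} [IsProbabilityMeasure μ]
    (hμ : MeasurePreserving (sh 1) μ μ) (g1 : ∀ n, ∀ᵐ x ∂μ, G1 q pos n x)
    (g2 : ∀ n, ∀ᵐ x ∂μ, G2 h n x) (hl : ∀ n, 1 - 2 / 2 ^ n ≤ h n * μ.real (Lv n 0))
    {g : XX → ℂ} (hg : Integrable g μ) (hz : ∀ n k, ∫ x in Lv n k, g x ∂μ = 0)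
    {C : Set XX} (hC : MeasurableSet C) (s : Finset (ℤ × ℕ))
    (hs : ∀ x y : XX, (∀ p ∈ s, x p = y p) → x ∈ C → y ∈ C) : ∫ x in C, g x ∂μ = 0 := by
  obtain ⟨K, hK⟩ : ∃ K : ℕ, ∀ p ∈ s, p.1.natAbs ≤ K ∧ p.2 ≤ K :=
    ⟨s.sup fun p => max p.1.natAbs p.2, fun p hp => max_le_iff.1
      (le_sup (f := fun p : ℤ × ℕ => max p.1.natAbs p.2) hp)⟩
  have hgood : ∀ᵐ x ∂μ, (∀ n, G1 q pos n x) ∧ ∀ n, G2 h n x :=
    (ae_all_iff.2 g1).and (ae_all_iff.2 g2)
  have hU : ∀ N, MeasurableSet (⋃ a ∈ Ioc ((K : ℤ) - h N) (-K), Lv N a) := fun N =>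
    Finset.measurableSet_biUnion _ fun a _ => meas_Lv N a
  have hlev : ∀ N, K ≤ N → ∀ a ∈ Ioc ((K : ℤ) - h N) (-K), ∫ x in C ∩ Lv N a, g x ∂μ = 0 := by
    intro N hN a ha
    have ha' := mem_Ioc.1 ha
    by_cases hex : ∃ y, y ∈ C ∧ y ∈ Lv N a ∧ (∀ n, G1 q pos n y) ∧ ∀ n, G2 h n y
    · obtain ⟨y, hy1, hy2, hy3, hy4⟩ := hex
      rw [← hz N a]
      refine setIntegral_congr_set ?_
      filter_upwards [hgood] with x hx
      refine propext ⟨fun hx' => hx'.2, fun hx' => ⟨hs y x (fun p hp => ?_) hy1, hx'⟩⟩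
      have := hK p hp
      exact Bool.eq_iff_iff.2
        ⟨determined h0 h2 hy3 (hy4 N) hx.1 hy2 hx' (by omega) p.1 (by omega) (by omega),
          determined h0 h2 hx.1 (hx.2 N) hy3 hx' hy2 (by omega) p.1 (by omega) (by omega)⟩
    · refine setIntegral_measure_zero _ (measure_eq_zero_iff_ae_notMem.2 ?_)
      filter_upwards [hgood] with x hx hx'
      exact hex ⟨x, hx'.1, hx'.2, hx⟩
  have hin : ∀ N, K ≤ N →
      ∫ x in C ∩ ⋃ a ∈ Ioc ((K : ℤ) - h N) (-K), Lv N a, g x ∂μ = 0 := by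
    intro N hN
    have e : C ∩ ⋃ a ∈ Ioc ((K : ℤ) - h N) (-K), Lv N a =
        ⋃ a : Ioc ((K : ℤ) - h N) (-K), C ∩ Lv N a := by
      ext x; simp
    rw [e, integral_iUnion_ae (s := fun a : Ioc ((K : ℤ) - h N) (-K) => C ∩ Lv N a)
      (fun a => (hC.inter (meas_Lv N a)).nullMeasurableSet) ?_ hg.integrableOn]
    · simp only [hlev N hN _ (Subtype.prop _), tsum_zero]
    · intro a b hab
      refine measure_eq_zero_iff_ae_notMem.2 ?_
      filter_upwards [g2 N] with x hx hx'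
      have := mem_Ioc.1 a.2
      have := mem_Ioc.1 b.2
      exact hab (Subtype.ext (hx.eq hx'.1.2 hx'.2.2 (by omega) (by omega)))
  have hout : Tendsto (fun N => ∫ x in C \ ⋃ a ∈ Ioc ((K : ℤ) - h N) (-K), Lv N a, g x ∂μ)
      atTop (𝓝 0) := by
    refine hg.tendsto_setIntegral_nhds_zero ?_
    have h5 := ENNReal.tendsto_ofReal (tend (2 * K))
    rw [ENNReal.ofReal_zero] at h5
    refine tendsto_of_tendsto_of_tendsto_of_le_of_le tendsto_const_nhds h5
      (fun _ => zero_le) fun N => ?_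
    refine (measure_mono (Set.sdiff_subset_compl _ _)).trans ?_
    rw [← ofReal_measureReal]
    exact ENNReal.ofReal_le_ofReal (small h0 hμ g2 hl K N).2
  refine tendsto_nhds_unique tendsto_const_nhds (hout.congr' ?_)
  filter_upwards [eventually_ge_atTop K] with N hN
  rw [← integral_inter_add_sdiff (hU N) hg.integrableOn (s := C), hin N hN, zero_add]

end data

end SystemAux

open SystemAux

theorem system : SystemStmt := by
  intro h q pos h0 hq h1 h2 h3
  obtain ⟨μ, hprob, hμ, g1, g2, hl⟩ := exists_limit h0 h1 h2 h3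
  have hr : ∀ n, μ.real (Lv n 0) = q n * μ.real (Lv (n + 1) 0) := fun n =>
    ratio h0 h1 h2 hμ (g1 n) (g2 (n + 1))
  have hpre : ∀ n k, (TT.toEquiv ^ k : Equiv.Perm XX) ⁻¹' Lv n 0 = Lv n k := by
    intro n k
    rw [← preimage_Lv n k]
    congr 1
    exact funext (zpow_apply k)
  refine ⟨XX, inferInstance, inferInstance, μ, hprob, TT, fun n => Lv n 0, fun x => ?_, hμ,
    fun n => meas_Lv n 0, fun n => ?_, hr, fun n k hk hkn => ?_, fun n => ?_, fun g hg hz => ?_⟩
  · have h4 : μ.real {x} ≤ 0 := by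
      refine ge_of_tendsto' (tend 1) fun N => ?_
      obtain ⟨a1, a2⟩ := small h0 hμ g2 hl 0 N
      have a3 : (0 : ℝ) ≤ 2 / 2 ^ N := by positivity
      have a4 : (0 : ℝ) ≤ 1 / ((N : ℝ) + 1) := by positivity
      by_cases hx : x ∈ ⋃ a ∈ Ioc (((0 : ℕ) : ℤ) - h N) (-((0 : ℕ) : ℤ)), Lv N a
      · obtain ⟨a, _, ha⟩ := Set.mem_iUnion₂.1 hx
        have a5 : μ.real {x} ≤ μ.real (Lv N a) := measureReal_mono (Set.singleton_subset_iff.2 ha)
        rw [real_Lv hμ] at a5
        linarith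
      · have a5 := measureReal_mono (μ := μ) (Set.singleton_subset_iff.2 (Set.mem_compl hx))
        simp only [Nat.cast_zero, mul_zero, zero_mul, add_zero] at a2 a5
        linarith
    exact (measureReal_eq_zero_iff).1 (le_antisymm h4 measureReal_nonneg)
  · have hstep : ∀ n, 0 < μ.real (Lv (n + 1) 0) → 0 < μ.real (Lv n 0) := by
      intro n hn
      have : (0 : ℝ) < q n := by exact_mod_cast hq n
      rw [hr n]
      positivity
    refine hstep n (hstep (n + 1) ?_)
    have a1 := hl (n + 1 + 1)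
    have a2 : (2 : ℝ) / 2 ^ (n + 1 + 1) < 1 := by
      rw [div_lt_one (by positivity), pow_succ, pow_succ]
      have : (1 : ℝ) ≤ 2 ^ n := one_le_pow₀ one_le_two
      linarith
    by_contra hc
    have := mul_nonpos_of_nonneg_of_nonpos (Nat.cast_nonneg (α := ℝ) (h (n + 1 + 1))) (not_lt.1 hc)
    linarith
  · rw [hpre]
    refine measure_eq_zero_iff_ae_notMem.2 ?_
    filter_upwards [g2 n] with x hx hx'
    have := abs_lt.1 hkn
    exact hk (hx.eq hx'.1 hx'.2 (by omega) (by omega)).symm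
  · filter_upwards [g1 n, g2 (n + 1)] with x a1 a2
    have key : ∀ j, (TT.toEquiv ^ (-(pos n j : ℤ)) : Equiv.Perm XX) x ∈ Lv (n + 1) 0 ↔
        x (0 - pos n j, n + 1) = true := by
      intro j
      rw [zpow_apply]
      simp [Lv, sh]
    by_cases hx : x ∈ Lv n 0
    · obtain ⟨j, hj, hy⟩ := (a1 0).1 hx
      rw [Set.indicator_of_mem hx, sum_eq_single j, Set.indicator_of_mem ((key j).2 hy)]
      · intro b hb hbj
        refine Set.indicator_of_notMem (fun hc => hbj ?_) _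
        have hb' := mem_range.1 hb
        have a3 := h2 n j hj
        have a4 := h2 n b hb'
        have a5 := h0 n
        have a6 := a2.eq hy ((key b).1 hc) (by omega) (by omega)
        rcases lt_trichotomy b j with hl | hl | hl
        · have := pos_mono h1 hl hj; omega
        · exact hl
        · have := pos_mono h1 hl hb'; omega
      · exact fun hc => absurd (mem_range.2 hj) hc
    · rw [Set.indicator_of_notMem hx]
      refine (sum_eq_zero fun j hj => Set.indicator_of_notMem (fun hc => hx ?_) _).symm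
      exact (a1 0).2 ⟨j, mem_range.1 hj, (key j).1 hc⟩
  · have hg' : Integrable g μ := hg.integrable one_le_two
    simp only [hpre] at hz
    have hcyl : ∀ t ∈ measurableCylinders (fun _ : ℤ × ℕ => Bool), ∫ x in t, g x ∂μ = 0 := by
      intro t ht
      have hm := MeasurableSet.of_mem_measurableCylinders ht
      obtain ⟨s, S, _, rfl⟩ := (mem_measurableCylinders t).1 ht
      refine cyl_zero h0 h2 hμ g1 g2 hl hg' hz hm s fun x y hxy hx => ?_
      have : s.restrict x = s.restrict y := funext fun p => hxy p p.2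
      rw [mem_cylinder] at hx ⊢
      rwa [← this]
    refine hg'.ae_eq_zero_of_forall_setIntegral_eq_zero fun t ht _ => ?_
    induction t, ht using MeasurableSpace.induction_on_inter
      generateFrom_measurableCylinders.symm isPiSystem_measurableCylinders with
    | empty => simp
    | basic t ht => exact hcyl t ht
    | compl t ht ih =>
      have a1 := integral_add_compl ht hg'
      have a2 := hcyl _ (univ_mem_measurableCylinders _)
      rw [setIntegral_univ] at a2
      rw [ih (measure_lt_top _ _), a2, zero_add] at a1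
      exact a1
    | iUnion f hd hm ih =>
      rw [integral_iUnion hm hd hg'.integrableOn]
      simp only [ih _ (measure_lt_top _ _), tsum_zero]

end Vale.Agent.P130
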