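import Vale.Agent.P130.Model
import Vale.Agent.P130.Design2
import Vale.Agent.P130.Layout2
import Vale.Agent.P130.Chirp
import Vale.Agent.P130.Config2
import Vale.Agent.P130.Flat
import Vale.Agent.P130.System
import Vale.Agent.P130.Spectral
import Vale.Agent.P130.Final

/-! # P130: everything from the one-dimensional model -/

namespace Vale.Agent.P130

theorem main_of_model1 (h : Model1Stmt) : MainStmt :=
  main_of (flat_of (model_of h) (config2_of chirp (layout2_of design2))) system spectral

end Vale.Agent.P130
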