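import Vale.Agent.P130.ModelA
import Vale.Agent.P110.Profile

/-! # P130: from the one-dimensional model to the model with non-parallel frequencies -/

namespace Vale.Agent.P130

open Finset MeasureTheory Vale.Agent.P110

namespace Model

lemma drop_le (S : Finset ℤ) (w : ℤ → ℝ) (hw : ∀ m, 0 ≤ w m) (n : ℕ)
    (h1 : ∀ g : ℕ, 2 ≤ g → ∑ m ∈ S.filter (fun m => (g : ℤ) ∣ m), w m ≤ 3 / 5)
    (h2 : ∀ G : ℕ, ∑ g ∈ Icc 2 G, (∑ m ∈ S.filter (fun m => (g : ℤ) ∣ m), w m) ^ 2 ≤ 10)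
    (D : Finset (Fin (n + 2) → ℤ))
    (hD : ∀ m ∈ D, (∀ l, m l ∈ S) ∧
      (∏ l, w (m l) = 0 ∨ ∃ g : ℕ, 2 ≤ g ∧ ∀ l, (g : ℤ) ∣ m l)) :
    ∑ m ∈ D, ∏ l, w (m l) ≤ 10 * (3 / 5) ^ n := by
  classical
  set γ : (Fin (n + 2) → ℤ) → ℕ := fun m =>
    if h : ∃ g : ℕ, 2 ≤ g ∧ ∀ l, (g : ℤ) ∣ m l then h.choose else 0 with hγ
  set G := D.sup γ with hG
  have hW : ∀ m : Fin (n + 2) → ℤ, 0 ≤ ∏ l, w (m l) := fun m => prod_nonneg fun l _ => hw _
  have h3 : ∀ m ∈ D, ∏ l, w (m l)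
      ≤ ∑ g ∈ Icc 2 G, if ∀ l, ((g : ℕ) : ℤ) ∣ m l then ∏ l, w (m l) else 0 := by
    intro m hm
    have hnn : ∀ g ∈ Icc 2 G, 0 ≤ if ∀ l, ((g : ℕ) : ℤ) ∣ m l then ∏ l, w (m l) else 0 := by
      intro g _; split_ifs
      · exact hW m
      · exact le_rfl
    rcases (hD m hm).2 with h0 | h
    · rw [h0] at hnn ⊢; exact sum_nonneg hnn
    · have hγm : γ m = h.choose := by simp only [hγ, dif_pos h]
      have hmem : γ m ∈ Icc 2 G := mem_Icc.2 ⟨hγm ▸ h.choose_spec.1, le_sup hm⟩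
      have := single_le_sum hnn hmem
      rwa [if_pos (hγm ▸ h.choose_spec.2)] at this
  refine (sum_le_sum h3).trans ?_
  rw [sum_comm]
  have h4 : ∀ g ∈ Icc 2 G, ∑ m ∈ D, (if ∀ l, ((g : ℕ) : ℤ) ∣ m l then ∏ l, w (m l) else 0)
      ≤ (∑ m ∈ S.filter (fun m => (g : ℤ) ∣ m), w m) ^ 2 * (3 / 5) ^ n := by
    intro g hg
    rw [← sum_filter]
    have h5 : D.filter (fun m => ∀ l, ((g : ℕ) : ℤ) ∣ m l)
        ⊆ Fintype.piFinset (fun _ : Fin (n + 2) => S.filter (fun m => (g : ℤ) ∣ m)) := by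
      intro m hm
      rw [mem_filter] at hm
      exact Fintype.mem_piFinset.2 fun l => mem_filter.2 ⟨(hD m hm.1).1 l, hm.2 l⟩
    refine (sum_le_sum_of_subset_of_nonneg h5 fun m _ _ => hW m).trans ?_
    rw [← prod_univ_sum (fun _ : Fin (n + 2) => S.filter (fun m => (g : ℤ) ∣ m)) (fun _ k => w k),
      prod_const, card_univ, Fintype.card_fin, pow_add, mul_comm]
    have hp0 : 0 ≤ ∑ m ∈ S.filter (fun m => (g : ℤ) ∣ m), w m := sum_nonneg fun m _ => hw m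
    exact mul_le_mul_of_nonneg_left (pow_le_pow_left₀ hp0 (h1 g (mem_Icc.1 hg).1) n) (sq_nonneg _)
  refine (sum_le_sum h4).trans ?_
  rw [← sum_mul]
  exact mul_le_mul_of_nonneg_right (h2 G) (by positivity)

lemma exists_nonparallel {d : ℕ} [NeZero d] (B : Finset (Fin d → ℤ))
    (hB : ∀ m ∈ B, ∀ g : ℕ, 2 ≤ g → ¬ ∀ l, (g : ℤ) ∣ m l) :
    ∃ u v : Fin d → ℤ, (∀ m ∈ B, ∑ l, m l * u l ≠ 0) ∧
      ∀ m ∈ B, ∀ m' ∈ B, 0 < ∑ l, m l * u l → 0 < ∑ l, m' l * u l → m ≠ m' →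
        (∑ l, m l * u l) * (∑ l, m' l * v l) ≠ (∑ l, m' l * u l) * (∑ l, m l * v l) := by
  classical
  obtain ⟨u, hu⟩ := Profile.exists_generic B (by
    intro m hm h0
    exact hB m hm 2 le_rfl fun l => by simp [h0])
  set S := B.filter (fun m => 0 < ∑ l, m l * u l) with hS
  obtain ⟨v, hv⟩ := Profile.exists_generic (S.offDiag.image (fun q =>
      fun l => (∑ l, q.1 l * u l) * q.2 l - (∑ l, q.2 l * u l) * q.1 l)) (by
    intro w hw h0
    obtain ⟨⟨m, m'⟩, hq, rfl⟩ := mem_image.1 hw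
    obtain ⟨hm, hm', hne⟩ := mem_offDiag.1 hq
    rw [hS, mem_filter] at hm hm'
    have h1 : ∀ l, (∑ l, m l * u l) * m' l = (∑ l, m' l * u l) * m l := fun l => by
      have := congrFun h0 l
      simpa [sub_eq_zero] using this
    exact hne (eq_of_parallel (hB m hm.1) (hB m' hm'.1) hm.2 hm'.2 h1))
  refine ⟨u, v, hu, fun m hm m' hm' p1 p2 hne heq => ?_⟩
  refine hv _ (mem_image.2 ⟨(m, m'), mem_offDiag.2
    ⟨mem_filter.2 ⟨hm, p1⟩, mem_filter.2 ⟨hm', p2⟩, hne⟩, rfl⟩) ?_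
  simp only [sub_mul, sum_sub_distrib, mul_assoc, ← mul_sum]
  rw [heq, sub_self]

lemma prob_circle : IsProbabilityMeasure (volume : Measure UnitAddCircle) :=
  ⟨UnitAddCircle.measure_univ⟩

end Model

open Model in
theorem model_of : Model1Stmt → ModelStmt := by
  classical
  intro H η δ hη hη' hδ
  have := prob_circle
  obtain ⟨n, hn⟩ := exists_pow_lt_of_lt_one (show 0 < δ / 80 by positivity)
    (show (3 / 5 : ℝ) < 1 by norm_num)
  set τ : ℝ := δ / (8 * ((n + 2 : ℕ) : ℝ)) with hτ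
  have hτ0 : 0 < τ := by positivity
  have hτd : 2 * ((n + 2 : ℕ) : ℝ) * τ = δ / 4 := by rw [hτ]; field_simp; ring
  obtain ⟨L, T1, S, μ, lo, hi, c, hT, hTL, hSneg, hμ0, hμneg, hlohi, hc, hsupp, hcμ, hcl, herr,
    hp1, hp2⟩ := H η (τ ^ 2) hη hη' (by positivity)
  set ν : Measure (Fin (n + 2) → UnitAddCircle) :=
    Measure.pi fun _ => (volume : Measure UnitAddCircle) with hν
  set P : Finset (Fin (n + 2) → ℤ) := Fintype.piFinset fun _ => S with hP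
  have hPmem : ∀ m, m ∈ P ↔ ∀ l, m l ∈ S := fun m => Fintype.mem_piFinset
  set C : (Fin (n + 2) → ℤ) → ℝ → ℂ := fun m θ => ∏ l, c (m l) θ with hC
  set M : (Fin (n + 2) → ℤ) → ℝ := fun m => ∏ l, μ (m l) with hM
  set Lo : (Fin (n + 2) → ℤ) → ℝ := fun m => univ.sup' univ_nonempty fun l => lo (m l) with hLo
  set Hi : (Fin (n + 2) → ℤ) → ℝ := fun m => univ.inf' univ_nonempty fun l => hi (m l) with hHi
  have hact : ∀ m θ, (Lo m ≤ θ ∧ θ ≤ Hi m) ↔ ∀ l, lo (m l) ≤ θ ∧ θ ≤ hi (m l) := by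
    intro m θ
    simp only [hLo, hHi, sup'_le_iff, le_inf'_iff, mem_univ, true_imp_iff, forall_and]
  have hactneg : ∀ m ∈ P, ∀ θ,
      (Lo (-m) ≤ θ ∧ θ ≤ Hi (-m)) ↔ (Lo m ≤ 1 - θ ∧ 1 - θ ≤ Hi m) := by
    intro m hm θ
    rw [hact, hact]
    refine forall_congr' fun l => ?_
    have := hlohi (m l) ((hPmem m).1 hm l)
    rw [Pi.neg_apply, this.1, this.2]
    constructor <;> rintro ⟨a, b⟩ <;> constructor <;> linarith
  have hPneg : ∀ m ∈ P, -m ∈ P := fun m hm =>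
    (hPmem _).2 fun l => hSneg _ ((hPmem m).1 hm l)
  have hCsupp : ∀ m ∈ P, ∀ θ, C m θ ≠ 0 → Lo m ≤ θ ∧ θ ≤ Hi m := by
    intro m hm θ h
    rw [hact]
    intro l
    exact hsupp (m l) ((hPmem m).1 hm l) θ (prod_ne_zero_iff.1 h l (mem_univ l))
  have hCsq : ∀ m θ, ‖C m θ‖ ^ 2 = ∏ l, ‖c (m l) θ‖ ^ 2 := by
    intro m θ; simp only [hC, norm_prod, prod_pow]
  have hCM : ∀ m ∈ P, ∀ θ, ‖C m θ‖ ^ 2 ≤ M m := by
    intro m hm θ
    rw [hCsq]
    exact prod_le_prod (fun l _ => sq_nonneg _) fun l _ => hcμ _ ((hPmem m).1 hm l) θ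
  have hMneg : ∀ m ∈ P, M (-m) = M m := fun m hm =>
    prod_congr rfl fun l _ => hμneg _ ((hPmem m).1 hm l)
  have hM0 : ∀ m ∈ P, 0 < M m := fun m hm => prod_pos fun l _ => hμ0 _ ((hPmem m).1 hm l)
  have hCc : ∀ m ∈ P, Continuous (C m) ∧ C m 0 = C m 1 := by
    intro m hm
    refine ⟨continuous_finsetProd _ fun l _ => (hc _ ((hPmem m).1 hm l)).1, ?_⟩
    exact prod_congr rfl fun l _ => by
      rw [(hc _ ((hPmem m).1 hm l)).2.1, (hc _ ((hPmem m).1 hm l)).2.2]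
  set B0 : Finset (Fin (n + 2) → ℤ) := P.filter fun m =>
    (∀ g : ℕ, 2 ≤ g → ¬ ∀ l, (g : ℤ) ∣ m l) ∧ Lo m ≤ Hi m with hB0
  have hB0P : B0 ⊆ P := filter_subset _ _
  have hB0neg : ∀ m ∈ B0, -m ∈ B0 := by
    intro m hm
    obtain ⟨h1, h2, h3⟩ := mem_filter.1 hm
    refine mem_filter.2 ⟨hPneg m h1, fun g hg h => h2 g hg fun l => by simpa using h l, ?_⟩
    have := (hactneg m h1 (1 - Lo m)).2 ⟨by linarith, by linarith⟩
    linarith [this.1, this.2]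
  obtain ⟨u, v, hu, huv⟩ := exists_nonparallel B0 fun m hm => (mem_filter.1 hm).2.1
  set Bp := B0.filter (fun m => 0 < ∑ l, m l * u l) with hBp
  set g := Bp.equivFin.symm with hg
  have hgB : ∀ i, (g i).1 ∈ B0 := fun i => (mem_filter.1 (g i).2).1
  have hgP : ∀ i, (g i).1 ∈ P := fun i => hB0P (hgB i)
  have hsumR : ∀ φ : (Fin (n + 2) → ℤ) → ℝ, ∑ i, (φ (g i) + φ (-(g i).1)) = ∑ m ∈ B0, φ m := by
    intro φ
    rw [Profile.split_sum B0 hB0neg u hu, Equiv.sum_comp g (fun m : Bp => φ m + φ (-m.1)),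
      sum_coe_sort Bp (fun m => φ m + φ (-m))]
  have hsumC : ∀ φ : (Fin (n + 2) → ℤ) → ℂ, ∑ i, (φ (g i) + φ (-(g i).1)) = ∑ m ∈ B0, φ m := by
    intro φ
    rw [Profile.split_sum B0 hB0neg u hu, Equiv.sum_comp g (fun m : Bp => φ m + φ (-m.1)),
      sum_coe_sort Bp (fun m => φ m + φ (-m))]
  -- energy facts
  have hB1 : ∀ θ, ∑ m ∈ S, ‖c m θ‖ ^ 2 ≤ 1 := by
    intro θ
    refine le_trans (sum_le_sum fun m hm => ?_) (hcl θ)
    split_ifs with h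
    · exact hcμ m hm θ
    · have : c m θ = 0 := by
        by_contra h0; exact h (hsupp m hm θ h0)
      simp [this]
  have hPen : ∀ θ, ∑ m ∈ P, ‖C m θ‖ ^ 2 = (∑ m ∈ S, ‖c m θ‖ ^ 2) ^ (n + 2) := by
    intro θ
    simp only [hCsq]
    rw [hP, ← prod_univ_sum (fun _ : Fin (n + 2) => S) (fun _ k => ‖c k θ‖ ^ 2), prod_const,
      card_univ, Fintype.card_fin]
  have hdrop : ∀ θ ∈ Set.Icc η (1 - η), ∑ m ∈ P \ B0, ‖C m θ‖ ^ 2 ≤ δ / 8 := by
    intro θ hθ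
    simp only [hCsq]
    refine (drop_le S (fun k => ‖c k θ‖ ^ 2) (fun _ => sq_nonneg _) n (hp1 θ hθ) (hp2 θ hθ)
      (P \ B0) fun m hm => ?_).trans (by linarith)
    obtain ⟨h1, h2⟩ := mem_sdiff.1 hm
    refine ⟨(hPmem m).1 h1, ?_⟩
    by_contra hcon
    push Not at hcon
    refine h2 (mem_filter.2 ⟨h1, fun g hg h => ?_, ?_⟩)
    · obtain ⟨l, hl⟩ := hcon.2 g hg
      exact hl (h l)
    · have h3 : C m θ ≠ 0 := by
        intro h0
        have := hCsq m θ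
        rw [h0] at this
        exact hcon.1 (by simpa using this.symm)
      exact (hCsupp m h1 θ h3).1.trans (hCsupp m h1 θ h3).2
  have hpars : ∀ (D : Finset (Fin (n + 2) → ℤ)) θ,
      ∫ y, ‖∑ m ∈ D, C m θ * chi m y‖ ^ 2 ∂ν = ∑ m ∈ D, ‖C m θ‖ ^ 2 :=
    fun D θ => parseval_gen D (fun m => C m θ) bd_chi chi_orth
  have hbdD : ∀ (D : Finset (Fin (n + 2) → ℤ)) θ, Bd fun y => ∑ m ∈ D, C m θ * chi m y :=
    fun D θ => Bd.sum D fun m _ => (Bd.const _).mul (bd_chi m)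
  have hT1m : Measurable fun x : UnitAddCircle => T1 (rep x) := hT.comp measurable_rep
  have hbda : ∀ θ : ℝ, Bd fun x : UnitAddCircle => e (θ * T1 (rep x)) := fun θ =>
    Bd.e_comp (measurable_const.mul ((measurable_from_nat (f := fun k : ℕ => (k : ℝ))).comp hT1m))
  have hbdb : ∀ θ : ℝ, Bd fun x : UnitAddCircle => ∑ m ∈ S, c m θ * e (m * rep x) := fun θ =>
    Bd.sum S fun m _ => (Bd.const _).mul (Bd.e_comp (measurable_const.mul measurable_rep))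
  have hbint : ∀ θ : ℝ, ∫ x : UnitAddCircle, ‖∑ m ∈ S, c m θ * e (m * rep x)‖ ^ 2
      = ∑ m ∈ S, ‖c m θ‖ ^ 2 := by
    intro θ
    rw [integral_rep (fun x => ‖∑ m ∈ S, c m θ * e (m * x)‖ ^ 2)]
    have := parseval S (fun m => m) (fun _ _ _ _ h => h) (fun m => c m θ) 0
    rwa [zero_add] at this
  have hten : ∀ θ ∈ Set.Icc η (1 - η),
      ∫ y : Fin (n + 2) → UnitAddCircle, ‖∏ l, e (θ * T1 (rep (y l)))
        - ∑ m ∈ P, C m θ * chi m y‖ ^ 2 ∂ν ≤ δ / 4 ∧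
      1 - δ / 4 ≤ ∑ m ∈ P, ‖C m θ‖ ^ 2 := by
    intro θ hθ
    have h1 := tensor_err (volume : Measure UnitAddCircle) (hbda θ) (hbdb θ) (fun _ => norm_e _)
      (by rw [hbint]; exact hB1 θ) hτ0 (by
        rw [integral_rep (fun x => ‖e (θ * T1 x) - ∑ m ∈ S, c m θ * e (m * x)‖ ^ 2)]
        exact herr θ hθ) (n + 2)
    rw [hτd, hbint, ← hPen] at h1
    refine ⟨le_of_eq_of_le ?_ h1.1, h1.2⟩
    congr 1
    funext y
    rw [prod_univ_sum (fun _ : Fin (n + 2) => S) (fun l k => c k θ * e (k * rep (y l)))]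
    simp only [hC, chi, prod_mul_distrib, hP]
  have heT : ∀ (θ : ℝ) (y : Fin (n + 2) → UnitAddCircle),
      e (θ * ((∑ l, T1 (rep (y l)) : ℕ) : ℝ)) = ∏ l, e (θ * T1 (rep (y l))) := by
    intro θ y
    rw [← e_sum, Nat.cast_sum, mul_sum]
  have hbdT : ∀ θ : ℝ, Bd fun y : Fin (n + 2) → UnitAddCircle => ∏ l, e (θ * T1 (rep (y l))) :=
    fun θ => Bd.prod _ fun l _ => (hbda θ).comp (measurable_pi_apply l)
  have hrw : ∀ (θ : ℝ) (y : Fin (n + 2) → UnitAddCircle),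
      ∑ i, (C (g i) θ * chi (g i).1 y + C (-(g i).1) θ * (starRingEnd ℂ) (chi (g i).1 y))
        = ∑ m ∈ B0, C m θ * chi m y := by
    intro θ y
    rw [← hsumC (fun m => C m θ * chi m y)]
    simp only [chi_neg]
  refine ⟨Fin (n + 2) → UnitAddCircle, inferInstance, ν, inferInstance,
    fun z y => y + fun l => ((z.1 * u l + z.2 * v l : ℝ) : UnitAddCircle),
    (n + 2) * (L + T1 1) + 1, fun y => ∑ l, T1 (rep (y l)), Bp.card,
    fun i => ∑ l, (g i).1 l * u l, fun i => ∑ l, (g i).1 l * v l,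
    fun i => M (g i), fun i => Lo (g i), fun i => Hi (g i),
    fun i => C (g i), fun i => C (-(g i).1), fun i => chi (g i).1,
    fun z => measurePreserving_add_right ν _, ?_, ?_, ⟨fun i => (mem_filter.1 (g i).2).2, ?_,
      fun i => hM0 _ (hgP i), fun i => (mem_filter.1 (hgB i)).2.2, ?_⟩,
    fun i => (bd_chi _).1, fun i y => norm_chi _ y, ?_, ?_, ?_, ?_, ?_, ?_, ?_, ?_⟩
  · exact Finset.measurable_sum _ fun l _ => hT1m.comp (measurable_pi_apply l)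
  · intro y
    have h1 : ∀ l, T1 (rep (y l)) ≤ L + T1 1 := by
      intro l
      obtain ⟨a, b⟩ := rep_mem (y l)
      rcases b.eq_or_lt with h | h
      · rw [h]; omega
      · have := hTL _ ⟨a.le, h⟩; omega
    have h2 := sum_le_card_nsmul univ (fun l => T1 (rep (y l))) _ (fun l _ => h1 l)
    rw [card_univ, Fintype.card_fin, smul_eq_mul] at h2
    exact Nat.lt_succ_of_le h2
  · intro i j hij
    exact huv _ (hgB i) _ (hgB j) (mem_filter.1 (g i).2).2 (mem_filter.1 (g j).2).2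
      fun h => hij (g.injective (Subtype.ext h))
  · intro θ
    have h1 := hsumR (fun m => if Lo m ≤ θ ∧ θ ≤ Hi m then M m else 0)
    have h2 : ∑ i, ((if Lo (g i) ≤ θ ∧ θ ≤ Hi (g i) then M (g i) else 0) +
        (if Lo (g i) ≤ 1 - θ ∧ 1 - θ ≤ Hi (g i) then M (g i) else 0))
        = ∑ m ∈ B0, (if Lo m ≤ θ ∧ θ ≤ Hi m then M m else 0) := by
      rw [← h1]
      refine sum_congr rfl fun i _ => ?_
      simp only [hactneg _ (hgP i), hMneg _ (hgP i)]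
    refine h2.trans_le ?_
    have h3 : ∑ m ∈ B0, (if Lo m ≤ θ ∧ θ ≤ Hi m then M m else 0)
        ≤ ∑ m ∈ P, (if Lo m ≤ θ ∧ θ ≤ Hi m then M m else 0) := by
      refine sum_le_sum_of_subset_of_nonneg hB0P fun m hm _ => ?_
      split_ifs
      · exact (hM0 m hm).le
      · exact le_rfl
    refine h3.trans ?_
    have h4 : ∀ m, (if Lo m ≤ θ ∧ θ ≤ Hi m then M m else 0)
        = ∏ l, (if lo (m l) ≤ θ ∧ θ ≤ hi (m l) then μ (m l) else 0) := by
      intro m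
      rw [prod_ite_zero]
      simp only [hact, mem_univ, true_imp_iff, hM]
    simp only [h4]
    rw [hP, ← prod_univ_sum (fun _ : Fin (n + 2) => S)
      (fun _ k => if lo k ≤ θ ∧ θ ≤ hi k then μ k else 0), prod_const]
    refine pow_le_one₀ (sum_nonneg fun m hm => ?_) (hcl θ)
    split_ifs
    · exact (hμ0 m hm).le
    · exact le_rfl
  · intro i z y
    beta_reduce
    rw [chi_add (g i).1 y (fun l => z.1 * u l + z.2 * v l)]
    congr 2
    push_cast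
    rw [sum_mul, sum_mul, ← sum_add_distrib]
    exact sum_congr rfl fun l _ => by ring
  · intro i
    exact ⟨(hCc _ (hgP i)).1, (hCc _ (hPneg _ (hgP i))).1, (hCc _ (hgP i)).2,
      (hCc _ (hPneg _ (hgP i))).2⟩
  · intro i θ h
    exact hCsupp _ (hgP i) θ h
  · intro i θ h
    exact (hactneg _ (hgP i) θ).1 (hCsupp _ (hPneg _ (hgP i)) θ h)
  · intro i θ
    refine ⟨hCM _ (hgP i) θ, ?_⟩
    have := hCM _ (hPneg _ (hgP i)) θ
    rwa [hMneg _ (hgP i)] at this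
  · intro θ hθ
    rw [hsumR (fun m => ‖C m θ‖ ^ 2)]
    have h1 := sum_sdiff (f := fun m => ‖C m θ‖ ^ 2) hB0P
    linarith [hdrop θ hθ, (hten θ hθ).2]
  · intro θ hθ
    simp only [hrw, heT]
    have h1 : ∀ y : Fin (n + 2) → UnitAddCircle,
        ∏ l, e (θ * T1 (rep (y l))) - ∑ m ∈ B0, C m θ * chi m y
        = (∏ l, e (θ * T1 (rep (y l))) - ∑ m ∈ P, C m θ * chi m y)
          + ∑ m ∈ P \ B0, C m θ * chi m y := by
      intro y
      rw [← sum_sdiff (f := fun m => C m θ * chi m y) hB0P]; ring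
    simp only [h1]
    refine (integral_norm_add_sq_le ((hbdT θ).sub (hbdD P θ)) (hbdD (P \ B0) θ)).trans ?_
    rw [hpars]
    linarith [hdrop θ hθ, (hten θ hθ).1]
  · intro θ
    simp only [hrw, heT, sub_eq_add_neg]
    have hneg : Bd fun y => -∑ m ∈ B0, C m θ * chi m y := by
      simpa using (Bd.const 0).sub (hbdD B0 θ)
    refine (integral_norm_add_sq_le (hbdT θ) hneg).trans ?_
    simp only [norm_neg, norm_prod, norm_e, prod_const_one, one_pow, integral_const,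
      probReal_univ, smul_eq_mul, mul_one]
    rw [hpars]
    have h1 : ∑ m ∈ B0, ‖C m θ‖ ^ 2 ≤ ∑ m ∈ P, ‖C m θ‖ ^ 2 :=
      sum_le_sum_of_subset_of_nonneg hB0P fun _ _ _ => sq_nonneg _
    have h2 : (∑ m ∈ S, ‖c m θ‖ ^ 2) ^ (n + 2) ≤ 1 :=
      pow_le_one₀ (sum_nonneg fun _ _ => sq_nonneg _) (hB1 θ)
    rw [hPen] at h1
    linarith

end Vale.Agent.P130
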