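import Vale.Agent.P130.Stmts
import Vale.Agent.P110.Line

/-! # P130: analytic lemmas for the one-dimensional model -/

namespace Vale.Agent.P130.Model1

open Finset MeasureTheory Vale.Agent.P110

/-- Fourier coefficients of the saw-tooth exponential. -/
noncomputable def sh (v : ℝ) : ℂ := ∫ x in (0 : ℝ)..1, e (-(v * x))

/-- the quadratic phase. -/
noncomputable def Ph (s κ y : ℝ) : ℝ := s * y + κ * s * y ^ 2 / 2

/-- Fourier coefficients of the chirp. -/
noncomputable def co (s κ v : ℝ) (m : ℤ) : ℂ :=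
  ∫ y in (0 : ℝ)..1, e (v * Ph s κ y) * e (-(m * y))

/-- energy of the non-negative harmonics. -/
noncomputable def F (R : ℕ) (θ : ℝ) : ℝ := ∑ l ∈ range R, ‖sh (θ + l)‖ ^ 2

/-- the non-negative harmonics. -/
noncomputable def P (R : ℕ) (θ x : ℝ) : ℂ := ∑ l ∈ range R, sh (θ + l) * e ((θ + l) * x)

lemma continuous_sh : Continuous sh := by
  unfold sh
  apply intervalIntegral.continuous_parametric_intervalIntegral_of_continuous'
  fun_prop

lemma continuous_Ph (s κ : ℝ) : Continuous (Ph s κ) := by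
  unfold Ph; fun_prop

lemma continuous_co (s κ : ℝ) (m : ℤ) : Continuous fun v => co s κ v m := by
  unfold co Ph
  apply intervalIntegral.continuous_parametric_intervalIntegral_of_continuous'
  fun_prop

lemma continuous_P (R : ℕ) (θ : ℝ) : Continuous (P R θ) := by
  unfold P; fun_prop

lemma norm_sh_le (v : ℝ) : ‖sh v‖ ≤ 1 := by
  have := intervalIntegral.norm_integral_le_of_norm_le_const (a := 0) (b := 1) (C := 1)
    (f := fun x : ℝ => e (-(v * x))) (fun x _ => by simp)
  simpa [sh] using this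

lemma sh_neg (v : ℝ) : sh (-v) = (starRingEnd ℂ) (sh v) := by
  unfold sh
  rw [intervalIntegral.integral_of_le zero_le_one, intervalIntegral.integral_of_le zero_le_one,
    ← integral_conj]
  refine integral_congr_ae (Filter.Eventually.of_forall fun x => ?_)
  simp only
  rw [← e_neg]; congr 1; ring

lemma norm_sh_neg (v : ℝ) : ‖sh (-v)‖ = ‖sh v‖ := by
  rw [sh_neg, RCLike.norm_conj]

lemma F_nonneg (R : ℕ) (θ : ℝ) : 0 ≤ F R θ := Finset.sum_nonneg fun _ _ => by positivity

/-- `L²` distance of a unimodular function to a weighted piece of its Fourier series. -/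
lemma proj {ι : Type*} (S : Finset ι) (n : ι → ℤ) (hn : Set.InjOn n S) (f : ℝ → ℂ)
    (hf : Continuous f) (h1 : ∀ y, ‖f y‖ = 1) (w : ι → ℝ) (a : ι → ℂ)
    (ha : ∀ i ∈ S, a i = ∫ y in (0 : ℝ)..1, f y * e (-(n i * y))) :
    ∫ y in (0 : ℝ)..1, ‖f y - ∑ i ∈ S, ((w i : ℂ) * a i) * e (n i * y)‖ ^ 2
      = 1 - ∑ i ∈ S, (2 * w i - w i ^ 2) * ‖a i‖ ^ 2 := by
  set G : ℝ → ℂ := fun y => ∑ i ∈ S, ((w i : ℂ) * a i) * e (n i * y) with hG
  have hGc : Continuous G := by simp only [hG]; fun_prop
  have hpt : ∀ y, ‖f y - G y‖ ^ 2 = 1 + ‖G y‖ ^ 2 - 2 * (f y * (starRingEnd ℂ) (G y)).re := by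
    intro y
    have := Complex.normSq_sub (f y) (G y)
    rw [Complex.normSq_eq_norm_sq, Complex.normSq_eq_norm_sq, Complex.normSq_eq_norm_sq,
      h1 y] at this
    rw [this]; ring
  have hpar : ∫ y in (0 : ℝ)..1, ‖G y‖ ^ 2 = ∑ i ∈ S, w i ^ 2 * ‖a i‖ ^ 2 := by
    have := parseval S n hn (fun i => (w i : ℂ) * a i) 0
    rw [zero_add] at this
    rw [this]
    refine Finset.sum_congr rfl fun i _ => ?_
    rw [norm_mul, mul_pow, Complex.norm_real, Real.norm_eq_abs, sq_abs]
  have hin : ∫ y in (0 : ℝ)..1, f y * (starRingEnd ℂ) (G y)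
      = ((∑ i ∈ S, w i * ‖a i‖ ^ 2 : ℝ) : ℂ) := by
    have h2 : ∀ y, f y * (starRingEnd ℂ) (G y)
        = ∑ i ∈ S, ((w i : ℂ) * (starRingEnd ℂ) (a i)) * (f y * e (-(n i * y))) := by
      intro y
      simp only [hG, map_sum, Finset.mul_sum]
      refine Finset.sum_congr rfl fun i _ => ?_
      rw [map_mul, map_mul, Complex.conj_ofReal, e_neg]; ring
    simp_rw [h2]
    rw [intervalIntegral.integral_finsetSum (fun i _ => by
      apply Continuous.intervalIntegrable; fun_prop)]
    push_cast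
    refine Finset.sum_congr rfl fun i hi => ?_
    rw [intervalIntegral.integral_const_mul, ← ha i hi, mul_assoc, Complex.conj_mul']
  have hre : ∫ y in (0 : ℝ)..1, (f y * (starRingEnd ℂ) (G y)).re
      = ∑ i ∈ S, w i * ‖a i‖ ^ 2 := by
    have hc : Continuous fun y => f y * (starRingEnd ℂ) (G y) :=
      hf.mul (Complex.continuous_conj.comp hGc)
    have := (Complex.reCLM.intervalIntegral_comp_comm (hc.intervalIntegrable (μ := volume) 0 1))
    simp only [Complex.reCLM_apply] at this
    rw [this, hin, Complex.ofReal_re]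
  have hc2 : Continuous fun y => (f y * (starRingEnd ℂ) (G y)).re :=
    Complex.continuous_re.comp (hf.mul (Complex.continuous_conj.comp hGc))
  show ∫ y in (0 : ℝ)..1, ‖f y - G y‖ ^ 2 = _
  simp_rw [hpt]
  rw [intervalIntegral.integral_sub (by apply Continuous.intervalIntegrable; fun_prop)
    (by apply Continuous.intervalIntegrable; fun_prop),
    intervalIntegral.integral_add (by apply Continuous.intervalIntegrable; fun_prop)
    (by apply Continuous.intervalIntegrable; fun_prop), intervalIntegral.integral_const_mul,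
    hpar, hre]
  simp only [intervalIntegral.integral_const, sub_zero, smul_eq_mul, mul_one, sub_mul,
    Finset.sum_sub_distrib, Finset.mul_sum]
  have : ∀ i ∈ S, 2 * w i * ‖a i‖ ^ 2 = 2 * (w i * ‖a i‖ ^ 2) := fun i _ => by ring
  rw [Finset.sum_congr rfl this]
  ring

/-- the saw-tooth error on one period. -/
lemma saw_int (R : ℕ) (θ : ℝ) :
    ∫ x in (0 : ℝ)..1, ‖1 - P R θ x - (starRingEnd ℂ) (P R (1 - θ) x)‖ ^ 2
      = 1 - (F R θ + F R (1 - θ)) := by
  have h := proj ((range R).disjSum (range R))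
    (Sum.elim (fun l : ℕ => (l : ℤ)) (fun l : ℕ => -((l : ℤ) + 1)))
    (by
      rintro (a | a) _ (b | b) _ hab <;> simp only [Sum.elim_inl, Sum.elim_inr] at hab
      · congr 1; omega
      · omega
      · omega
      · congr 1; omega)
    (fun x => e (-(θ * x))) (by fun_prop) (fun y => norm_e _) (fun _ => 1)
    (Sum.elim (fun l : ℕ => sh (θ + l)) (fun l : ℕ => sh (-(1 - θ + l))))
    (by
      rintro (a | a) _ <;> simp only [Sum.elim_inl, Sum.elim_inr, sh]
      · refine intervalIntegral.integral_congr fun x _ => ?_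
        rw [← e_add]; congr 1; push_cast; ring
      · refine intervalIntegral.integral_congr fun x _ => ?_
        rw [← e_add]; congr 1; push_cast; ring)
  simp only [Finset.sum_disjSum, Sum.elim_inl, Sum.elim_inr, norm_sh_neg] at h
  have h2 : (∑ x ∈ range R, (2 * (1 : ℝ) - 1 ^ 2) * ‖sh (θ + x)‖ ^ 2) = F R θ := by
    unfold F; refine Finset.sum_congr rfl fun i _ => by ring
  have h3 : (∑ x ∈ range R, (2 * (1 : ℝ) - 1 ^ 2) * ‖sh (1 - θ + x)‖ ^ 2) = F R (1 - θ) := by
    unfold F; refine Finset.sum_congr rfl fun i _ => by ring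
  rw [h2, h3] at h
  rw [← h]
  refine intervalIntegral.integral_congr fun x _ => ?_
  congr 1
  have hn : ‖1 - P R θ x - (starRingEnd ℂ) (P R (1 - θ) x)‖
      = ‖e (-(θ * x)) * (1 - P R θ x - (starRingEnd ℂ) (P R (1 - θ) x))‖ := by
    rw [norm_mul, norm_e, one_mul]
  rw [hn]
  congr 1
  simp only [P, map_sum, mul_sub, mul_one, Finset.mul_sum, sub_add_eq_sub_sub]
  congr 1
  · congr 1
    refine Finset.sum_congr rfl fun l _ => ?_
    have : e (((l : ℤ) : ℝ) * x) = e (-(θ * x)) * e ((θ + l) * x) := by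
      rw [← e_add]; congr 1; push_cast; ring
    rw [this]; push_cast; ring
  · refine Finset.sum_congr rfl fun l _ => ?_
    have : e (((-((l : ℤ) + 1) : ℤ) : ℝ) * x) = e (-(θ * x)) * e (-((1 - θ + l) * x)) := by
      rw [← e_add]; congr 1; push_cast; ring
    rw [this, map_mul, ← e_neg, ← sh_neg]; push_cast; ring

lemma bessel (R : ℕ) (θ : ℝ) : F R θ + F R (1 - θ) ≤ 1 := by
  have h := saw_int R θ
  have : 0 ≤ ∫ x in (0 : ℝ)..1, ‖1 - P R θ x - (starRingEnd ℂ) (P R (1 - θ) x)‖ ^ 2 :=
    intervalIntegral.integral_nonneg zero_le_one fun x _ => by positivity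
  linarith

lemma tendsto_F (θ : ℝ) :
    Filter.Tendsto (fun R => F R θ + F R (1 - θ)) Filter.atTop (nhds 1) := by
  have hc : Continuous fun x : ℝ => e (-(θ * x)) := by fun_prop
  have hL : MemLp (fun x : ℝ => e (-(θ * x))) 2 (volume.restrict (Set.Ioc (0 : ℝ) 1)) :=
    MemLp.of_bound hc.aestronglyMeasurable 1 (Filter.Eventually.of_forall fun x => by simp)
  have h := hasSum_sq_fourierCoeffOn (zero_lt_one' ℝ) hL
  have h2 : ∀ n : ℤ, fourierCoeffOn (zero_lt_one' ℝ) (fun x : ℝ => e (-(θ * x))) n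
      = sh (θ + n) := by
    intro n
    rw [fourierCoeffOn_eq_integral]
    simp only [sub_zero, div_one, one_smul, sh, fourier_coe_apply, smul_eq_mul]
    refine intervalIntegral.integral_congr fun x _ => ?_
    simp only [e]
    rw [← Complex.exp_add]; congr 1; push_cast; ring
  simp only [h2, norm_e, one_pow, intervalIntegral.integral_const, sub_zero, inv_one,
    smul_eq_mul, mul_one] at h
  have h3 := h.nat_add_neg_add_one.tendsto_sum_nat
  refine h3.congr fun R => ?_
  simp only [F, Finset.sum_add_distrib]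
  refine congrArg₂ (· + ·) (by simp) (Finset.sum_congr rfl fun l _ => ?_)
  rw [← norm_sh_neg]; congr 3; push_cast; ring

lemma exists_R {ε : ℝ} (hε : 0 < ε) :
    ∃ R : ℕ, ∀ θ ∈ Set.Icc (0 : ℝ) 1, 1 - (F R θ + F R (1 - θ)) ≤ ε := by
  have hcont : ∀ R, Continuous fun θ => F R θ + F R (1 - θ) := by
    intro R
    have := continuous_sh
    unfold F; fun_prop
  have hmono : ∀ θ ∈ Set.Icc (0 : ℝ) 1, Monotone fun R => F R θ + F R (1 - θ) := by
    intro θ _ R R' hR
    have : ∀ t, F R t ≤ F R' t := fun t =>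
      Finset.sum_le_sum_of_subset_of_nonneg (Finset.range_mono hR) fun _ _ _ => by positivity
    exact add_le_add (this _) (this _)
  have h := Monotone.tendstoUniformlyOn_of_forall_tendsto (F := fun R θ => F R θ + F R (1 - θ))
    (f := fun _ => (1 : ℝ)) isCompact_Icc (fun R => (hcont R).continuousOn) hmono
    continuousOn_const (fun θ _ => tendsto_F θ)
  rw [Metric.tendstoUniformlyOn_iff] at h
  obtain ⟨R, hR⟩ := (h ε hε).exists
  refine ⟨R, fun θ hθ => ?_⟩
  have := hR θ hθ
  rw [Real.dist_eq] at this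
  exact (le_abs_self _).trans this.le

/-- change of variables for a periodic function. -/
lemma cov (g : ℝ → ℝ) (hg : Measurable g) (C : ℝ) (h0 : ∀ x, 0 ≤ g x) (hC : ∀ x, g x ≤ C)
    (hp : Function.Periodic g 1) {s κ : ℝ} (hs : 1 ≤ s) (hκ : 0 ≤ κ) (hκ1 : κ ≤ 1) :
    ∫ y in (0 : ℝ)..1, g (Ph s κ y) ≤ 3 * ∫ x in (0 : ℝ)..1, g x := by
  have hint : ∀ (u : ℝ → ℝ), Measurable u → ∀ a b : ℝ,
      IntervalIntegrable (fun y => g (u y)) volume a b := by
    intro u hu a b
    refine (intervalIntegrable_const (c := C)).mono_fun' (hg.comp hu).aestronglyMeasurable ?_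
    exact Filter.Eventually.of_forall fun y => by
      simp only [Real.norm_eq_abs]; rw [abs_of_nonneg (h0 _)]; exact hC _
  have hgi : ∀ a b : ℝ, IntervalIntegrable g volume a b := hint id measurable_id
  have hd : ∀ y, HasDerivAt (Ph s κ) (s + κ * s * y) y := by
    intro y
    have h1 := ((hasDerivAt_id y).const_mul s).add
      ((((hasDerivAt_id y).pow 2).const_mul (κ * s)).div_const 2)
    refine HasDerivAt.congr_deriv h1 ?_
    simp; ring
  have hcv := intervalIntegral.integral_comp_mul_deriv_of_deriv_nonneg (a := 0) (b := 1)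
    (f := Ph s κ) (f' := fun y => s + κ * s * y) (g := g) (continuous_Ph s κ).continuousOn
    (fun x _ => hd x) (fun x hx => by
      have : 0 < x := by simpa using hx.1
      positivity)
  have hI0 : 0 ≤ ∫ x in (0 : ℝ)..1, g x := intervalIntegral.integral_nonneg zero_le_one
    fun x _ => h0 x
  have h1 : s * ∫ y in (0 : ℝ)..1, g (Ph s κ y)
      ≤ ∫ y in (0 : ℝ)..1, (g ∘ Ph s κ) y * (s + κ * s * y) := by
    rw [← intervalIntegral.integral_const_mul]
    refine intervalIntegral.integral_mono_on zero_le_one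
      ((hint _ (continuous_Ph s κ).measurable 0 1).const_mul s)
      ((hint _ (continuous_Ph s κ).measurable 0 1).mul_continuousOn (by fun_prop)) fun y hy => ?_
    have h2 : 0 ≤ κ * s * y := by have := hy.1; positivity
    have := h0 (Ph s κ y)
    simp only [Function.comp]
    nlinarith
  set n : ℤ := ⌈Ph s κ 1⌉ with hn
  have hP0 : Ph s κ 0 = 0 := by simp [Ph]
  have hP1 : Ph s κ 1 = s + κ * s / 2 := by simp [Ph]
  have h2 : ∫ u in Ph s κ 0..Ph s κ 1, g u ≤ ∫ u in (0 : ℝ)..(0 + n • (1 : ℝ)), g u := by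
    rw [hP0]
    refine intervalIntegral.integral_mono_interval le_rfl (by rw [hP1]; positivity) ?_
      (Filter.Eventually.of_forall h0) (hgi _ _)
    simpa using Int.le_ceil _
  rw [hp.intervalIntegral_add_zsmul_eq n 0 hgi, zero_add, zsmul_eq_mul] at h2
  have h3 : (n : ℝ) ≤ 3 * s := by
    have := Int.ceil_lt_add_one (Ph s κ 1)
    rw [← hn, hP1] at this
    nlinarith
  have h4 : s * ∫ y in (0 : ℝ)..1, g (Ph s κ y) ≤ s * (3 * ∫ x in (0 : ℝ)..1, g x) := by
    calc _ ≤ _ := h1
      _ = _ := hcv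
      _ ≤ _ := h2
      _ ≤ 3 * s * ∫ x in (0 : ℝ)..1, g x := mul_le_mul_of_nonneg_right h3 hI0
      _ = _ := by ring
  exact le_of_mul_le_mul_left h4 (by linarith)

/-- the saw-tooth error along the quadratic phase. -/
lemma saw_comp (R : ℕ) (θ : ℝ) {s κ : ℝ} (hs : 1 ≤ s) (hκ : 0 ≤ κ) (hκ1 : κ ≤ 1) :
    ∫ y in (0 : ℝ)..1, ‖e (θ * ⌊Ph s κ y⌋) - P R θ (Ph s κ y)
        - (starRingEnd ℂ) (P R (1 - θ) (Ph s κ y))‖ ^ 2
      ≤ 3 * (1 - (F R θ + F R (1 - θ))) := by
  have hP : ∀ t x, ‖P R t x‖ ≤ R := by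
    intro t x
    refine (norm_sum_le _ _).trans ?_
    calc _ ≤ ∑ _l ∈ range R, (1 : ℝ) := Finset.sum_le_sum fun l _ => by
          rw [norm_mul, norm_e, mul_one]; exact norm_sh_le _
      _ = R := by simp
  have hPp : ∀ t x, P R t (x + 1) = e t * P R t x := by
    intro t x
    simp only [P, Finset.mul_sum]
    refine Finset.sum_congr rfl fun l _ => ?_
    have : (t + l) * (x + 1) = (t + (t + l) * x) + l := by ring
    rw [this, e_add_nat, e_add]; ring
  have h := cov (fun x => ‖e (θ * ⌊x⌋) - P R θ x - (starRingEnd ℂ) (P R (1 - θ) x)‖ ^ 2)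
    (by
      have h1 : Measurable fun x : ℝ => e (θ * ⌊x⌋) :=
        continuous_e.measurable.comp (measurable_const.mul
          ((measurable_of_countable (fun n : ℤ => (n : ℝ))).comp Int.measurable_floor))
      exact ((h1.sub (continuous_P R θ).measurable).sub
        (Complex.continuous_conj.comp (continuous_P R (1 - θ))).measurable).norm.pow_const 2)
    ((1 + R + R) ^ 2) (fun x => by positivity)
    (fun x => by
      refine pow_le_pow_left₀ (norm_nonneg _) ?_ 2
      refine (norm_sub_le _ _).trans (add_le_add ((norm_sub_le _ _).trans ?_) ?_)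
      · rw [norm_e]; exact add_le_add le_rfl (hP _ _)
      · rw [RCLike.norm_conj]; exact hP _ _)
    (fun x => by
      simp only
      rw [hPp, hPp, Int.floor_add_one, map_mul, ← e_neg]
      have h1 : e (θ * ((⌊x⌋ + 1 : ℤ) : ℝ)) = e θ * e (θ * ⌊x⌋) := by
        rw [← e_add]; congr 1; push_cast; ring
      have h2 : e (-(1 - θ)) = e θ := by
        have := e_sub_int θ 1
        rw [← this]; congr 1; push_cast; ring
      rw [h1, h2, ← mul_sub, ← mul_sub, norm_mul, norm_e, one_mul])
    hs hκ hκ1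
  refine h.trans (le_of_eq ?_)
  rw [← saw_int]
  congr 1
  refine intervalIntegral.integral_congr_ae ?_
  have hne : ∀ᵐ x : ℝ, x ≠ 1 := by simp [ae_iff]
  filter_upwards [hne] with x hx hx2
  rw [Set.uIoc_of_le zero_le_one] at hx2
  have : ⌊x⌋ = 0 := Int.floor_eq_zero_iff.2 ⟨hx2.1.le, lt_of_le_of_ne hx2.2 hx⟩
  simp [this]

end Vale.Agent.P130.Model1
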