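import Vale.Agent.P130.Model1A

/-! # P130: the Fourier coefficients of a chirp -/

namespace Vale.Agent.P130.Model1

open Finset MeasureTheory Vale.Agent.P110

lemma fres : ∃ γ : ℂ, ‖γ‖ = 1 ∧ ∀ A B : ℝ, 0 < A → 0 < B →
    ‖(∫ x in (-A)..B, e (x ^ 2 / 2)) - γ‖ ≤ 1 / A + 1 / B := by
  obtain ⟨γ, h1, h⟩ := Line.fresnel
  refine ⟨γ, h1, fun A B hA hB => ?_⟩
  have hi : ∀ a b : ℝ, IntervalIntegrable (fun x : ℝ => e (x ^ 2 / 2)) volume a b := fun a b => by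
    apply Continuous.intervalIntegrable; fun_prop
  have hev : ∀ A : ℝ, ∫ x in (-A)..0, e (x ^ 2 / 2) = ∫ x in (0 : ℝ)..A, e (x ^ 2 / 2) := by
    intro A
    have := intervalIntegral.integral_comp_neg (a := 0) (b := A) (fun x : ℝ => e (x ^ 2 / 2))
    simp only [neg_zero, neg_sq] at this
    exact this.symm
  have hA' := h A hA
  have hB' := h B hB
  rw [← intervalIntegral.integral_add_adjacent_intervals (hi (-A) 0) (hi 0 A), hev] at hA'
  rw [← intervalIntegral.integral_add_adjacent_intervals (hi (-B) 0) (hi 0 B), hev] at hB'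
  rw [← intervalIntegral.integral_add_adjacent_intervals (hi (-A) 0) (hi 0 B), hev]
  set a := ∫ x in (0 : ℝ)..A, e (x ^ 2 / 2)
  set b := ∫ x in (0 : ℝ)..B, e (x ^ 2 / 2)
  have : a + b - γ = (1 / 2 : ℂ) * ((a + a - γ) + (b + b - γ)) := by ring
  rw [this, norm_mul]
  have h2 : ‖(1 / 2 : ℂ)‖ = 1 / 2 := by simp
  rw [h2]
  have := norm_add_le (a + a - γ) (b + b - γ)
  have e1 : 2 / A = 2 * (1 / A) := by ring
  have e2 : 2 / B = 2 * (1 / B) := by ring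
  linarith

/-- completing the square. -/
lemma norm_co (s κ v : ℝ) (m : ℤ) (hν : 0 < v * κ * s) :
    ‖co s κ v m‖ * √(v * κ * s) =
      ‖∫ x in (-(√(v * κ * s) * ((m - v * s) / (v * κ * s))))..(√(v * κ * s) *
        (1 - (m - v * s) / (v * κ * s))), e (x ^ 2 / 2)‖ := by
  set ν := v * κ * s with hνdef
  set w := √ν with hw
  have hw0 : 0 < w := Real.sqrt_pos.2 hν
  have hw2 : w ^ 2 = ν := Real.sq_sqrt hν.le
  set y0 := (m - v * s) / ν with hy0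
  have h1 : co s κ v m = e (-(ν * y0 ^ 2 / 2)) *
      ∫ y in (0 : ℝ)..1, (fun x => e (x ^ 2 / 2)) (w * y - w * y0) := by
    unfold co
    rw [← intervalIntegral.integral_const_mul]
    refine intervalIntegral.integral_congr fun y _ => ?_
    simp only
    rw [← e_add, ← e_add]
    congr 1
    have h2 : (w * y - w * y0) ^ 2 = ν * (y - y0) ^ 2 := by rw [← hw2]; ring
    have h3 : ν * y0 = m - v * s := by rw [hy0]; field_simp
    rw [h2, Ph]
    have h4 : v * (s * y + κ * s * y ^ 2 / 2) = v * s * y + ν * y ^ 2 / 2 := by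
      rw [hνdef]; ring
    rw [h4]
    linear_combination y * h3
  rw [h1, intervalIntegral.integral_comp_mul_sub (fun x => e (x ^ 2 / 2)) hw0.ne' (w * y0),
    norm_mul, norm_e, one_mul,
    norm_smul, Real.norm_eq_abs, abs_of_pos (inv_pos.2 hw0)]
  have e1 : w * 0 - w * y0 = -(w * y0) := by ring
  have e2 : w * 1 - w * y0 = w * (1 - y0) := by ring
  rw [e1, e2]
  field_simp

/-- the modulus of the coefficients inside the band. -/
lemma co_bounds {ε : ℝ} (hε : 0 < ε) (hε1 : ε ≤ 1) (s κ v : ℝ) (m : ℤ)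
    (hν : 4 / ε ^ 4 ≤ v * κ * s) (h1 : v * s + v * κ * s * ε ≤ m)
    (h2 : (m : ℝ) ≤ v * s + v * κ * s * (1 - ε)) :
    1 - 2 * ε ≤ ‖co s κ v m‖ ^ 2 * (v * κ * s) ∧ ‖co s κ v m‖ ^ 2 * (v * κ * s) ≤ 1 + 3 * ε := by
  obtain ⟨γ, hγ, hF⟩ := fres
  have hν0 : 0 < v * κ * s := lt_of_lt_of_le (by positivity) hν
  have hn := norm_co s κ v m hν0
  set ν := v * κ * s with hνdef
  set w := √ν with hw
  have hw0 : 0 < w := Real.sqrt_pos.2 hν0
  have hw2 : w ^ 2 = ν := Real.sq_sqrt hν0.le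
  set y0 := (m - v * s) / ν with hy0
  have hy1 : ε ≤ y0 := by rw [hy0, le_div_iff₀ hν0]; linarith
  have hy2 : ε ≤ 1 - y0 := by
    have : y0 ≤ 1 - ε := by rw [hy0, div_le_iff₀ hν0]; linarith
    linarith
  have hwl : 2 / ε ^ 2 ≤ w := by
    apply Real.le_sqrt_of_sq_le
    calc (2 / ε ^ 2) ^ 2 = 4 / ε ^ 4 := by ring
      _ ≤ ν := hν
  have hb : ∀ t, ε ≤ t → 1 / (w * t) ≤ ε / 2 := by
    intro t ht
    rw [div_le_iff₀ (by nlinarith)]
    have h3 : 2 ≤ w * ε ^ 2 := by rwa [div_le_iff₀ (by positivity)] at hwl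
    have : w * ε ≤ w * t := mul_le_mul_of_nonneg_left ht hw0.le
    nlinarith
  have h3 := hF (w * y0) (w * (1 - y0)) (by nlinarith) (by nlinarith)
  have h4 := hb y0 hy1
  have h5 := hb (1 - y0) hy2
  set I := ∫ x in (-(w * y0))..(w * (1 - y0)), e (x ^ 2 / 2)
  have h6 : |‖I‖ - 1| ≤ ε := by
    have := abs_norm_sub_norm_le I γ
    rw [hγ] at this
    linarith
  rw [← hn, abs_le] at h6
  have h7 : ‖co s κ v m‖ ^ 2 * ν = (‖co s κ v m‖ * w) ^ 2 := by rw [mul_pow, hw2]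
  rw [h7]
  constructor <;> nlinarith [h6.1, h6.2]

/-- counting multiples of `g` in an interval. -/
lemma count_le (A : Finset ℤ) (g : ℕ) (hg : 1 ≤ g) (x ν : ℝ) (hν : 0 ≤ ν)
    (hA : ∀ m ∈ A, (g : ℤ) ∣ m ∧ x ≤ m ∧ (m : ℝ) ≤ x + ν) : (A.card : ℝ) ≤ ν / g + 1 := by
  have hg0 : (0 : ℝ) < g := by exact_mod_cast hg
  have hg1 : (g : ℤ) ≠ 0 := by omega
  have h1 : A.card ≤ (Finset.Icc ⌈x / g⌉ ⌊(x + ν) / g⌋).card := by
    refine Finset.card_le_card_of_injOn (fun m => m / (g : ℤ)) ?_ ?_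
    · intro m hm
      obtain ⟨⟨k, rfl⟩, h2, h3⟩ := hA m hm
      simp only [Int.mul_ediv_cancel_left _ hg1, Finset.coe_Icc, Set.mem_Icc]
      push_cast at h2 h3
      constructor
      · rw [Int.ceil_le, div_le_iff₀ hg0]; linarith
      · rw [Int.le_floor, le_div_iff₀ hg0]; linarith
    · intro m hm m' hm' h
      obtain ⟨⟨k, rfl⟩, -⟩ := hA m hm
      obtain ⟨⟨k', rfl⟩, -⟩ := hA m' hm'
      simp only [Int.mul_ediv_cancel_left _ hg1] at h
      rw [h]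
  rw [Int.card_Icc] at h1
  have h2 : ((⌊(x + ν) / g⌋ + 1 - ⌈x / g⌉).toNat : ℝ) ≤ ν / g + 1 := by
    have h3 := Int.floor_le ((x + ν) / g)
    have h4 := Int.le_ceil (x / g)
    have h5 : (x + ν) / g = x / g + ν / g := by ring
    have h6 : 0 ≤ ν / g := by positivity
    rcases le_total 0 (⌊(x + ν) / g⌋ + 1 - ⌈x / g⌉) with h | h
    · have : (((⌊(x + ν) / g⌋ + 1 - ⌈x / g⌉).toNat : ℤ) : ℝ)
          = ((⌊(x + ν) / g⌋ + 1 - ⌈x / g⌉ : ℤ) : ℝ) := by rw [Int.toNat_of_nonneg h]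
      push_cast at this
      rw [this]; linarith
    · rw [Int.toNat_eq_zero.2 h]; push_cast; linarith
  exact le_trans (by exact_mod_cast h1) h2

lemma le_count (x y : ℝ) : y - x - 1 ≤ ((Finset.Icc ⌈x⌉ ⌊y⌋).card : ℝ) := by
  rw [Int.card_Icc]
  have h1 : ((⌊y⌋ + 1 - ⌈x⌉ : ℤ) : ℝ) ≤ (((⌊y⌋ + 1 - ⌈x⌉).toNat : ℤ) : ℝ) := by
    exact_mod_cast Int.self_le_toNat _
  have h3 := Int.lt_floor_add_one y
  have h4 := Int.ceil_lt_add_one x
  push_cast at h1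
  linarith

/-- the cut-off. -/
noncomputable def ps (s κ ε : ℝ) (m : ℤ) (v : ℝ) : ℝ :=
  max 0 (min 1 (min (m - (v * s + v * κ * s * ε)) (v * s + v * κ * s * (1 - ε) - m)))

lemma continuous_ps (s κ ε : ℝ) (m : ℤ) : Continuous (ps s κ ε m) := by
  unfold ps; fun_prop

lemma ps_nonneg (s κ ε : ℝ) (m : ℤ) (v : ℝ) : 0 ≤ ps s κ ε m v := le_max_left _ _

lemma ps_le_one (s κ ε : ℝ) (m : ℤ) (v : ℝ) : ps s κ ε m v ≤ 1 :=
  max_le zero_le_one (min_le_left _ _)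

lemma ps_ne_zero {s κ ε : ℝ} {m : ℤ} {v : ℝ} (h : ps s κ ε m v ≠ 0) :
    v * s + v * κ * s * ε ≤ m ∧ (m : ℝ) ≤ v * s + v * κ * s * (1 - ε) := by
  by_contra hc
  apply h
  refine max_eq_left ((min_le_right _ _).trans ?_)
  rcases not_and_or.1 hc with h1 | h1
  · exact (min_le_left _ _).trans (by linarith)
  · exact (min_le_right _ _).trans (by linarith)

lemma ps_eq_one {s κ ε : ℝ} {m : ℤ} {v : ℝ} (h1 : v * s + v * κ * s * ε + 1 ≤ m)
    (h2 : (m : ℝ) ≤ v * s + v * κ * s * (1 - ε) - 1) : ps s κ ε m v = 1 := by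
  unfold ps
  rw [min_eq_left (le_min (by linarith) (by linarith)), max_eq_right zero_le_one]

/-- the `L²` error for one chirp. -/
lemma chirp_err {ε : ℝ} (hε : 0 < ε) (hε1 : ε ≤ 1 / 10) (s κ v : ℝ)
    (hν : 4 / ε ^ 4 ≤ v * κ * s) (A : Finset ℤ)
    (hA : ∀ m : ℤ, v * s ≤ m → (m : ℝ) ≤ v * s + v * κ * s → m ∈ A) :
    ∫ y in (0 : ℝ)..1, ‖e (v * Ph s κ y) -
      ∑ m ∈ A, ((ps s κ ε m v : ℂ) * co s κ v m) * e (m * y)‖ ^ 2 ≤ 7 * ε := by
  have hc : Continuous fun y => e (v * Ph s κ y) := by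
    have := continuous_Ph s κ
    fun_prop
  have h := proj A id (Set.injOn_id _) (fun y => e (v * Ph s κ y)) hc (fun y => norm_e _)
    (fun m => ps s κ ε m v) (fun m => co s κ v m) (fun m _ => rfl)
  simp only [id] at h
  rw [h]
  have hν0 : 0 < v * κ * s := lt_of_lt_of_le (by positivity) hν
  set ν := v * κ * s with hνdef
  have hνε : 1 ≤ ν * ε := by
    have h1 : 4 ≤ ν * ε ^ 4 := by rwa [div_le_iff₀ (by positivity)] at hν
    have h2 : ε ^ 4 ≤ ε := by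
      calc ε ^ 4 = ε * ε ^ 3 := by ring
        _ ≤ ε * 1 := mul_le_mul_of_nonneg_left (pow_le_one₀ hε.le (by linarith)) hε.le
        _ = ε := mul_one _
    nlinarith
  set B := Finset.Icc ⌈v * s + ν * ε + 1⌉ ⌊v * s + ν * (1 - ε) - 1⌋ with hB
  have hBm : ∀ m ∈ B, v * s + ν * ε + 1 ≤ m ∧ (m : ℝ) ≤ v * s + ν * (1 - ε) - 1 := by
    intro m hm
    rw [hB, Finset.mem_Icc, Int.ceil_le, Int.le_floor] at hm
    exact hm
  have hBA : B ⊆ A := by
    intro m hm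
    obtain ⟨h1, h2⟩ := hBm m hm
    exact hA m (by nlinarith) (by nlinarith)
  have hcard := le_count (v * s + ν * ε + 1) (v * s + ν * (1 - ε) - 1)
  rw [← hB] at hcard
  have h1 : ∑ m ∈ B, (2 * ps s κ ε m v - ps s κ ε m v ^ 2) * ‖co s κ v m‖ ^ 2
      ≤ ∑ m ∈ A, (2 * ps s κ ε m v - ps s κ ε m v ^ 2) * ‖co s κ v m‖ ^ 2 :=
    Finset.sum_le_sum_of_subset_of_nonneg hBA fun m _ _ => by
      have h2 := ps_nonneg s κ ε m v
      have h3 := ps_le_one s κ ε m v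
      exact mul_nonneg (by nlinarith) (by positivity)
  have h2 : ∑ _m ∈ B, (1 - 2 * ε) / ν
      ≤ ∑ m ∈ B, (2 * ps s κ ε m v - ps s κ ε m v ^ 2) * ‖co s κ v m‖ ^ 2 := by
    refine Finset.sum_le_sum fun m hm => ?_
    obtain ⟨h3, h4⟩ := hBm m hm
    rw [ps_eq_one h3 h4, div_le_iff₀ hν0]
    have := (co_bounds hε (by linarith) s κ v m hν (by linarith) (by linarith)).1
    linarith
  rw [Finset.sum_const, nsmul_eq_mul] at h2
  have h3 : 1 - 7 * ε ≤ (B.card : ℝ) * ((1 - 2 * ε) / ν) := by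
    rw [← mul_div_assoc, le_div_iff₀ hν0]
    have h4 : ν * (1 - 5 * ε) ≤ B.card := by nlinarith
    have h5 : ν * (1 - 5 * ε) * (1 - 2 * ε) ≤ B.card * (1 - 2 * ε) :=
      mul_le_mul_of_nonneg_right h4 (by linarith)
    have h6 : 0 ≤ ν * ε * ε := by positivity
    nlinarith
  linarith

end Vale.Agent.P130.Model1
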