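import Vale.Agent.P130.Model1B

/-! # P130: the positive frequencies of the one-dimensional model -/

namespace Vale.Agent.P130.Model1

open Finset MeasureTheory Vale.Agent.P110

lemma sh_lip (v v' : ℝ) : ‖sh v‖ ^ 2 ≤ ‖sh v'‖ ^ 2 + 16 * |v - v'| := by
  have h1 : ‖sh v - sh v'‖ ≤ 8 * |v - v'| := by
    unfold sh
    rw [← intervalIntegral.integral_sub (by apply Continuous.intervalIntegrable; fun_prop)
      (by apply Continuous.intervalIntegrable; fun_prop)]
    have := intervalIntegral.norm_integral_le_of_norm_le_const (a := 0) (b := 1)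
      (C := 8 * |v - v'|) (f := fun x : ℝ => e (-(v * x)) - e (-(v' * x))) (fun x hx => by
        rw [Set.uIoc_of_le zero_le_one] at hx
        refine (norm_e_sub_e_le _ _).trans ?_
        have h2 : -(v * x) - -(v' * x) = -((v - v') * x) := by ring
        rw [h2, abs_neg, abs_mul, abs_of_pos hx.1]
        have h3 : |v - v'| * x ≤ |v - v'| := mul_le_of_le_one_right (abs_nonneg _) hx.2
        have h4 : 0 ≤ |v - v'| * x := mul_nonneg (abs_nonneg _) hx.1.le
        nlinarith [Real.pi_le_four, Real.pi_pos])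
    simpa using this
  have h2 := norm_sub_norm_le (sh v) (sh v')
  have h3 := norm_sh_le v
  have h4 := norm_sh_le v'
  have h5 := norm_nonneg (sh v)
  have h6 := norm_nonneg (sh v')
  have h7 := abs_nonneg (v - v')
  nlinarith

set_option maxHeartbeats 1000000 in
lemma half (η ε : ℝ) (R : ℕ) (hη : 0 < η) (hε : 0 < ε) (hε1 : ε ≤ 1 / 10) :
    ∃ (s κ Λ : ℝ) (S : Finset ℤ) (μ lo hi : ℤ → ℝ) (c : ℤ → ℝ → ℂ),
      1 ≤ s ∧ 0 ≤ κ ∧ κ ≤ 1 ∧ 10 ≤ Λ ∧ (∀ m ∈ S, 0 < m ∧ (m : ℝ) ≤ Λ ^ 2) ∧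
      (∀ m ∈ S, 0 < μ m) ∧
      (∀ m ∈ S, Continuous (c m) ∧ c m 0 = 0 ∧ c m 1 = 0) ∧
      (∀ m ∈ S, ∀ θ, c m θ ≠ 0 → θ ∈ Set.Icc (lo m) (hi m)) ∧
      (∀ m ∈ S, ∀ θ, ‖c m θ‖ ^ 2 ≤ μ m) ∧
      (∀ θ : ℝ, ∑ m ∈ S, (if lo m ≤ θ ∧ θ ≤ hi m then μ m else 0)
        ≤ (1 + 3 * ε) ^ 3 * (F R θ + ε)) ∧
      (∀ θ ∈ Set.Icc η (1 - η), ∫ y in (0 : ℝ)..1,
        ‖P R θ (Ph s κ y) - ∑ m ∈ S, c m θ * e (m * y)‖ ^ 2 ≤ 7 * R ^ 2 * ε) ∧
      (∀ θ : ℝ, ∀ g : ℕ, 1 ≤ g → ∑ m ∈ S.filter (fun m => (g : ℤ) ∣ m), ‖c m θ‖ ^ 2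
        ≤ (1 / g + 1 / Λ) * ((1 + 3 * ε) * F R θ)) := by
  have hR0 : (0 : ℝ) ≤ R := Nat.cast_nonneg R
  obtain ⟨κ, hκ0, hκη, hκε⟩ : ∃ κ : ℝ, 0 < κ ∧ κ * (R + 1) ≤ η / 2 ∧
      32 * (R + 1) ^ 2 * κ ≤ ε := by
    refine ⟨min (η / (2 * (R + 1))) (ε / (32 * (R + 1) ^ 2)), by positivity, ?_, ?_⟩
    · calc _ ≤ η / (2 * (R + 1)) * (R + 1) :=
            mul_le_mul_of_nonneg_right (min_le_left _ _) (by positivity)
        _ = η / 2 := by field_simp
    · calc _ ≤ 32 * (R + 1) ^ 2 * (ε / (32 * (R + 1) ^ 2)) :=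
            mul_le_mul_of_nonneg_left (min_le_right _ _) (by positivity)
        _ = ε := by field_simp
  have hκε' : κ ≤ ε := by nlinarith [sq_nonneg (R : ℝ)]
  obtain ⟨s, hs1, hsΛ, hsR⟩ : ∃ s : ℝ, 1 ≤ s ∧ 4 / ε ^ 4 ≤ η / 2 * κ * s ∧
      R * s ≤ (η / 2 * κ * s) ^ 2 := by
    set t := η / 2 * κ with ht
    have ht0 : 0 < t := by positivity
    refine ⟨max 1 (max (4 / ε ^ 4 / t) (R / t ^ 2)), le_max_left _ _, ?_, ?_⟩
    · calc 4 / ε ^ 4 = t * (4 / ε ^ 4 / t) := by field_simp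
        _ ≤ _ := mul_le_mul_of_nonneg_left ((le_max_left _ _).trans (le_max_right _ _)) ht0.le
    · set s := max 1 (max (4 / ε ^ 4 / t) (R / t ^ 2))
      have h1 : 1 ≤ s := le_max_left _ _
      have h2 : R / t ^ 2 ≤ s := (le_max_right _ _).trans (le_max_right _ _)
      rw [div_le_iff₀ (by positivity)] at h2
      calc R * s ≤ s * t ^ 2 * s := mul_le_mul_of_nonneg_right h2 (by linarith)
        _ = _ := by ring
  have hs0 : 0 < s := by linarith
  set Λ := η / 2 * κ * s with hΛ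
  have hΛ0 : 0 < Λ := by positivity
  have hΛε : 1 ≤ Λ * ε := by
    have h1 : 4 ≤ Λ * ε ^ 4 := by rwa [div_le_iff₀ (by positivity)] at hsΛ
    have h2 : ε ^ 4 ≤ ε := by
      calc ε ^ 4 = ε * ε ^ 3 := by ring
        _ ≤ ε * 1 := mul_le_mul_of_nonneg_left (pow_le_one₀ hε.le (by linarith)) hε.le
        _ = ε := mul_one _
    nlinarith
  set ε' : ℝ := ε / (2 * (R + 1)) with hε'
  have hε'0 : 0 < ε' := by positivity
  have hκε'' : 16 * (κ * R) ≤ ε' := by
    rw [hε', le_div_iff₀ (by positivity)]; nlinarith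
  have hRε' : R * (2 * ε') ≤ ε := by
    have : ε' * (2 * (R + 1)) = ε := by rw [hε']; field_simp
    nlinarith
  let l : ℤ → ℕ := fun m => ⌊(m : ℝ) / s⌋₊
  let lo : ℤ → ℝ := fun m => m / (s * (1 + κ)) - l m
  let hi : ℤ → ℝ := fun m => m / s - l m
  let S : Finset ℤ := (Finset.Icc 1 ⌈R * s⌉).filter fun m => l m < R ∧ η / 2 ≤ lo m
  let μ : ℤ → ℝ := fun m => (1 + 3 * ε) * (‖sh (m / s)‖ ^ 2 + ε') * (1 + κ) / (m * κ)
  let c : ℤ → ℝ → ℂ := fun m θ =>
    sh (θ + l m) * ((ps s κ ε m (θ + l m) : ℂ) * co s κ (θ + l m) m)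
  have hS : ∀ m ∈ S, 0 < m ∧ l m < R ∧ η / 2 ≤ lo m ∧ (m : ℝ) / s < R := by
    intro m hm
    simp only [S, Finset.mem_filter, Finset.mem_Icc] at hm
    refine ⟨by omega, hm.2.1, hm.2.2, ?_⟩
    have h0 : (0 : ℝ) ≤ m := by exact_mod_cast (by omega : 0 ≤ m)
    exact (Nat.floor_lt (by positivity)).1 hm.2.1
  -- active frequencies
  have hact : ∀ m ∈ S, ∀ θ, lo m ≤ θ → θ ≤ hi m →
      (θ + l m) * s ≤ m ∧ (m : ℝ) ≤ (θ + l m) * s + (θ + l m) * κ * s ∧
      Λ ≤ (θ + l m) * κ * s ∧ 16 * |θ + l m - m / s| ≤ ε' := by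
    intro m hm θ h1 h2
    obtain ⟨h3, h4, h5, h6⟩ := hS m hm
    simp only [lo, hi] at h1 h2 h5
    have h7 : θ + l m ≤ m / s := by linarith
    have h8 : m / (s * (1 + κ)) ≤ θ + l m := by linarith
    have h9 : η / 2 ≤ θ + l m := by have : (0 : ℝ) ≤ l m := Nat.cast_nonneg _; linarith
    rw [div_le_iff₀ (by positivity)] at h8
    have h10 := (le_div_iff₀ hs0).1 h7
    refine ⟨h10, by linarith, ?_, ?_⟩
    · exact mul_le_mul_of_nonneg_right (mul_le_mul_of_nonneg_right h9 hκ0.le) hs0.le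
    · have h11 : (m : ℝ) / s ≤ (θ + l m) * (1 + κ) := by rw [div_le_iff₀ hs0]; linarith
      rw [abs_of_nonpos (by linarith)]
      have h12 : κ * (θ + l m) ≤ κ * R := mul_le_mul_of_nonneg_left (by linarith) hκ0.le
      linarith
  have hsupp : ∀ m ∈ S, ∀ θ, c m θ ≠ 0 → lo m ≤ θ ∧ θ ≤ hi m ∧
      ‖c m θ‖ ^ 2 * ((θ + l m) * κ * s) ≤ (1 + 3 * ε) * ‖sh (θ + l m)‖ ^ 2 := by
    intro m hm θ hc
    have hp : ps s κ ε m (θ + l m) ≠ 0 := by
      intro h; apply hc; simp only [c, h]; simp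
    obtain ⟨h1, h2⟩ := ps_ne_zero hp
    have h3 : 0 ≤ (θ + l m) * κ * s := by
      by_contra h
      rw [not_le] at h
      nlinarith
    have h4 : lo m ≤ θ := by
      simp only [lo]
      rw [sub_le_iff_le_add, div_le_iff₀ (by positivity)]
      nlinarith
    have h5 : θ ≤ hi m := by
      simp only [hi]
      rw [le_sub_iff_add_le, le_div_iff₀ hs0]
      nlinarith
    refine ⟨h4, h5, ?_⟩
    have h6 := (co_bounds hε (by linarith) s κ (θ + l m) m
      (hsΛ.trans (hact m hm θ h4 h5).2.2.1) h1 h2).2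
    simp only [c, norm_mul, mul_pow, Complex.norm_real, Real.norm_eq_abs, sq_abs]
    have h7 : ps s κ ε m (θ + l m) ^ 2 ≤ 1 := pow_le_one₀ (ps_nonneg _ _ _ _ _) (ps_le_one _ _ _ _ _)
    calc _ = ‖sh (θ + l m)‖ ^ 2 * (ps s κ ε m (θ + l m) ^ 2 *
          (‖co s κ (θ + l m) m‖ ^ 2 * ((θ + l m) * κ * s))) := by ring
      _ ≤ ‖sh (θ + l m)‖ ^ 2 * (1 * (1 + 3 * ε)) := by
          refine mul_le_mul_of_nonneg_left ?_ (by positivity)
          exact mul_le_mul h7 h6 (by positivity) zero_le_one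
      _ = _ := by ring
  have hmaps : ∀ m ∈ S, l m ∈ range R := fun m hm => Finset.mem_range.2 (hS m hm).2.1
  have key : ∀ (θ : ℝ) (g : ℕ), 1 ≤ g → ∀ (f : ℤ → ℝ) (b : ℕ → ℝ), (∀ j, 0 ≤ b j) →
      (∀ m ∈ S, f m ≠ 0 → (g : ℤ) ∣ m ∧ lo m ≤ θ ∧ θ ≤ hi m ∧
        f m * ((θ + l m) * κ * s) ≤ b (l m)) →
      ∑ m ∈ S, f m ≤ (1 / g + 1 / Λ) * ∑ j ∈ range R, b j := by
    intro θ g hg f b hb hf
    have hg0 : (0 : ℝ) < g := by exact_mod_cast hg
    rw [← Finset.sum_fiberwise_of_maps_to hmaps, Finset.mul_sum]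
    refine Finset.sum_le_sum fun j _ => ?_
    rw [← Finset.sum_filter_ne_zero]
    set A := (S.filter fun m => l m = j).filter fun m => f m ≠ 0 with hA
    have hAm : ∀ m ∈ A, (g : ℤ) ∣ m ∧ (θ + j) * s ≤ m ∧ (m : ℝ) ≤ (θ + j) * s + (θ + j) * κ * s ∧
        Λ ≤ (θ + j) * κ * s ∧ f m * ((θ + j) * κ * s) ≤ b j := by
      intro m hm
      simp only [hA, Finset.mem_filter] at hm
      obtain ⟨⟨h1, rfl⟩, h3⟩ := hm
      obtain ⟨h4, h5, h6, h7⟩ := hf m h1 h3
      obtain ⟨h8, h9, h10, -⟩ := hact m h1 θ h5 h6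
      exact ⟨h4, h8, h9, h10, h7⟩
    rcases A.eq_empty_or_nonempty with h | ⟨m0, hm0⟩
    · rw [h, Finset.sum_empty]; have := hb j; positivity
    have hν := (hAm m0 hm0).2.2.2.1
    set ν := (θ + j) * κ * s with hνdef
    have hν0 : 0 < ν := hΛ0.trans_le hν
    have hcard := count_le A g hg ((θ + j) * s) ν hν0.le
      (fun m hm => ⟨(hAm m hm).1, (hAm m hm).2.1, (hAm m hm).2.2.1⟩)
    calc ∑ m ∈ A, f m ≤ ∑ _m ∈ A, b j / ν := Finset.sum_le_sum fun m hm => by
          rw [le_div_iff₀ hν0]; exact (hAm m hm).2.2.2.2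
      _ = A.card * (b j / ν) := by rw [Finset.sum_const, nsmul_eq_mul]
      _ ≤ (ν / g + 1) * (b j / ν) :=
          mul_le_mul_of_nonneg_right hcard (div_nonneg (hb j) hν0.le)
      _ = (1 / g + 1 / ν) * b j := by field_simp
      _ ≤ (1 / g + 1 / Λ) * b j := by
          refine mul_le_mul_of_nonneg_right ?_ (hb j)
          have := one_div_le_one_div_of_le hΛ0 hν
          linarith
  refine ⟨s, κ, Λ, S, μ, lo, hi, c, hs1, hκ0.le, by linarith, by nlinarith, ?_, ?_, ?_, ?_, ?_,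
    ?_, ?_, ?_⟩
  · intro m hm
    obtain ⟨h1, -, -, h2⟩ := hS m hm
    rw [div_lt_iff₀ hs0] at h2
    exact ⟨h1, by linarith⟩
  · intro m hm
    have h1 : (0 : ℝ) < m := by exact_mod_cast (hS m hm).1
    simp only [μ]
    positivity
  · intro m hm
    refine ⟨?_, ?_, ?_⟩
    · have h1 := continuous_sh
      have h2 := continuous_ps s κ ε m
      have h3 := continuous_co s κ m
      simp only [c]
      exact (h1.comp (by fun_prop)).mul ((Complex.continuous_ofReal.comp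
        (h2.comp (by fun_prop))).mul (h3.comp (f := fun θ : ℝ => θ + l m) (by fun_prop)))
    · by_contra h
      have h1 := (hsupp m hm 0 h).1
      have h2 := (hS m hm).2.2.1
      linarith
    · by_contra h
      have h1 := (hsupp m hm 1 h).2.1
      have h2 := Nat.lt_floor_add_one ((m : ℝ) / s)
      simp only [hi, l] at h1
      linarith
  · intro m hm θ h
    exact ⟨(hsupp m hm θ h).1, (hsupp m hm θ h).2.1⟩
  · intro m hm θ
    have h1 : (0 : ℝ) < m := by exact_mod_cast (hS m hm).1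
    by_cases h : c m θ = 0
    · rw [h]; simp only [μ, norm_zero]; rw [zero_pow two_ne_zero]; positivity
    obtain ⟨h2, h3, h4⟩ := hsupp m hm θ h
    obtain ⟨h5, h6, h7, h8⟩ := hact m hm θ h2 h3
    have h9 := sh_lip (θ + l m) (m / s)
    simp only [μ]
    rw [le_div_iff₀ (by positivity)]
    have h10 : (m : ℝ) * κ ≤ (θ + l m) * κ * s * (1 + κ) := by nlinarith
    calc ‖c m θ‖ ^ 2 * (m * κ) ≤ ‖c m θ‖ ^ 2 * ((θ + l m) * κ * s * (1 + κ)) :=
          mul_le_mul_of_nonneg_left h10 (by positivity)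
      _ = ‖c m θ‖ ^ 2 * ((θ + l m) * κ * s) * (1 + κ) := by ring
      _ ≤ (1 + 3 * ε) * ‖sh (θ + l m)‖ ^ 2 * (1 + κ) :=
          mul_le_mul_of_nonneg_right h4 (by positivity)
      _ ≤ _ := by
          refine mul_le_mul_of_nonneg_right ?_ (by positivity)
          exact mul_le_mul_of_nonneg_left (by linarith) (by positivity)
  · intro θ
    have h := key θ 1 le_rfl (fun m => if lo m ≤ θ ∧ θ ≤ hi m then μ m else 0)
      (fun j => (1 + 3 * ε) * (1 + κ) * (‖sh (θ + j)‖ ^ 2 + 2 * ε')) (fun j => by positivity)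
      (by
        intro m hm hf
        have h1 : (0 : ℝ) < m := by exact_mod_cast (hS m hm).1
        have h2 : lo m ≤ θ ∧ θ ≤ hi m := by
          by_contra h; exact hf (if_neg h)
        refine ⟨by simp, h2.1, h2.2, ?_⟩
        obtain ⟨h5, h6, h7, h8⟩ := hact m hm θ h2.1 h2.2
        have h9 := sh_lip (m / s) (θ + l m)
        rw [abs_sub_comm] at h9
        simp only [if_pos h2, μ]
        rw [div_mul_eq_mul_div, div_le_iff₀ (by positivity)]
        have h10 : (θ + l m) * κ * s ≤ m * κ := by nlinarith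
        refine mul_le_mul ?_ h10 (hΛ0.le.trans h7) (by positivity)
        rw [mul_right_comm]
        exact mul_le_mul_of_nonneg_left (by linarith) (by positivity))
    refine h.trans ?_
    rw [← Finset.mul_sum, Finset.sum_add_distrib, Finset.sum_const, Finset.card_range,
      nsmul_eq_mul]
    have h1 : 1 / Λ ≤ ε := by rw [div_le_iff₀ hΛ0]; linarith
    have h2 := F_nonneg R θ
    change _ * (_ * (F R θ + _)) ≤ _
    calc _ ≤ (1 + 3 * ε) * ((1 + 3 * ε) * (1 + 3 * ε) * (F R θ + ε)) := by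
          refine mul_le_mul (by push_cast; linarith) ?_ (by positivity) (by positivity)
          refine mul_le_mul ?_ (by linarith) (by positivity) (by positivity)
          exact mul_le_mul_of_nonneg_left (by linarith) (by positivity)
      _ = _ := by ring
  · intro θ hθ
    let D : ℕ → ℝ → ℂ := fun j y => e ((θ + j) * Ph s κ y) -
      ∑ m ∈ S.filter (fun m => l m = j),
        ((ps s κ ε m (θ + j) : ℂ) * co s κ (θ + j) m) * e (m * y)
    have hDc : ∀ j, Continuous (D j) := by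
      intro j
      have := continuous_Ph s κ
      simp only [D]; fun_prop
    have h1 : ∀ y, P R θ (Ph s κ y) - ∑ m ∈ S, c m θ * e (m * y)
        = ∑ j ∈ range R, sh (θ + j) * D j y := by
      intro y
      rw [← Finset.sum_fiberwise_of_maps_to hmaps, P, ← Finset.sum_sub_distrib]
      refine Finset.sum_congr rfl fun j _ => ?_
      simp only [D, mul_sub, Finset.mul_sum]
      congr 1
      refine Finset.sum_congr rfl fun m hm => ?_
      rw [← (Finset.mem_filter.1 hm).2]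
      simp only [c]; ring
    have h2 : ∀ y, ‖∑ j ∈ range R, sh (θ + j) * D j y‖ ^ 2 ≤ R * ∑ j ∈ range R, ‖D j y‖ ^ 2 := by
      intro y
      have h3 : ‖∑ j ∈ range R, sh (θ + j) * D j y‖ ≤ ∑ j ∈ range R, ‖D j y‖ := by
        refine (norm_sum_le _ _).trans (Finset.sum_le_sum fun j _ => ?_)
        rw [norm_mul]
        exact mul_le_of_le_one_left (norm_nonneg _) (norm_sh_le _)
      refine (pow_le_pow_left₀ (norm_nonneg _) h3 2).trans ?_
      have := sq_sum_le_card_mul_sum_sq (s := range R) (f := fun j => ‖D j y‖)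
      rwa [Finset.card_range] at this
    have h3 : ∀ j ∈ range R, ∫ y in (0 : ℝ)..1, ‖D j y‖ ^ 2 ≤ 7 * ε := by
      intro j hj
      have hj0 : (0 : ℝ) ≤ j := Nat.cast_nonneg _
      have hj1 : (j : ℝ) + 1 ≤ R := by exact_mod_cast Finset.mem_range.1 hj
      have hθ1 := hθ.1
      have hθ2 := hθ.2
      have hv : κ * (θ + j) ≤ η / 2 := by nlinarith
      refine chirp_err hε hε1 s κ (θ + j) (hsΛ.trans ?_) _ fun m h4 h5 => ?_
      · exact mul_le_mul_of_nonneg_right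
          (mul_le_mul_of_nonneg_right (by linarith) hκ0.le) hs0.le
      · have h6 : θ + j ≤ m / s := by rw [le_div_iff₀ hs0]; exact h4
        have h7 : (m : ℝ) / s ≤ θ + j + κ * (θ + j) := by rw [div_le_iff₀ hs0]; linarith
        have h8 : l m = j := by
          simp only [l]
          rw [Nat.floor_eq_iff (by linarith)]
          constructor <;> linarith
        have h9 : (0 : ℝ) < m := lt_of_lt_of_le (mul_pos (by linarith) hs0) h4
        simp only [S, Finset.mem_filter, Finset.mem_Icc, lo, h8, and_true]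
        refine ⟨⟨by exact_mod_cast h9, ?_⟩, Finset.mem_range.1 hj, ?_⟩
        · have h10 : (m : ℝ) ≤ R * s := by rw [← div_le_iff₀ hs0]; linarith
          exact_mod_cast h10.trans (Int.le_ceil _)
        · rw [le_sub_iff_add_le, le_div_iff₀ (by positivity)]
          have h10 : (η / 2 + j) * (1 + κ) ≤ θ + j := by nlinarith
          nlinarith
    simp_rw [h1]
    calc _ ≤ ∫ y in (0 : ℝ)..1, R * ∑ j ∈ range R, ‖D j y‖ ^ 2 := by
          refine intervalIntegral.integral_mono_on zero_le_one ?_ ?_ fun y _ => h2 y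
          · apply Continuous.intervalIntegrable; fun_prop
          · apply Continuous.intervalIntegrable; fun_prop
      _ = R * ∑ j ∈ range R, ∫ y in (0 : ℝ)..1, ‖D j y‖ ^ 2 := by
          rw [intervalIntegral.integral_const_mul, intervalIntegral.integral_finsetSum
            (fun j _ => by apply Continuous.intervalIntegrable; fun_prop)]
      _ ≤ R * ∑ _j ∈ range R, 7 * ε :=
          mul_le_mul_of_nonneg_left (Finset.sum_le_sum h3) hR0
      _ = _ := by rw [Finset.sum_const, Finset.card_range, nsmul_eq_mul]; ring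
  · intro θ g hg
    have h := key θ g hg (fun m => if (g : ℤ) ∣ m then ‖c m θ‖ ^ 2 else 0)
      (fun j => (1 + 3 * ε) * ‖sh (θ + j)‖ ^ 2) (fun j => by positivity)
      (by
        intro m hm hf
        have h2 : (g : ℤ) ∣ m := by
          by_contra h; exact hf (if_neg h)
        simp only [if_pos h2] at hf ⊢
        have h3 : c m θ ≠ 0 := by
          intro h; apply hf; rw [h]; simp
        obtain ⟨h4, h5, h6⟩ := hsupp m hm θ h3
        exact ⟨h2, h4, h5, h6⟩)
    rw [Finset.sum_filter]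
    refine h.trans (le_of_eq ?_)
    rw [← Finset.mul_sum]; rfl

end Vale.Agent.P130.Model1
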