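import Vale.Agent.P130.Stmts

/-! # P130: auxiliary `L²` computations for the product model -/

namespace Vale.Agent.P130.Model

open Finset MeasureTheory Vale.Agent.P110

section Bd

variable {Ω : Type*} [MeasurableSpace Ω]

/-- bounded measurable functions -/
def Bd (f : Ω → ℂ) : Prop := Measurable f ∧ ∃ C : ℝ, ∀ y, ‖f y‖ ≤ C

lemma Bd.const (c : ℂ) : Bd (fun _ : Ω => c) := ⟨measurable_const, ‖c‖, fun _ => le_rfl⟩

lemma Bd.add {f g : Ω → ℂ} (hf : Bd f) (hg : Bd g) : Bd (fun y => f y + g y) := by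
  obtain ⟨hf1, C, hC⟩ := hf
  obtain ⟨hg1, D, hD⟩ := hg
  exact ⟨hf1.add hg1, C + D, fun y => (norm_add_le _ _).trans (add_le_add (hC y) (hD y))⟩

lemma Bd.sub {f g : Ω → ℂ} (hf : Bd f) (hg : Bd g) : Bd (fun y => f y - g y) := by
  obtain ⟨hf1, C, hC⟩ := hf
  obtain ⟨hg1, D, hD⟩ := hg
  exact ⟨hf1.sub hg1, C + D, fun y => (norm_sub_le _ _).trans (add_le_add (hC y) (hD y))⟩

lemma Bd.mul {f g : Ω → ℂ} (hf : Bd f) (hg : Bd g) : Bd (fun y => f y * g y) := by
  obtain ⟨hf1, C, hC⟩ := hf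
  obtain ⟨hg1, D, hD⟩ := hg
  refine ⟨hf1.mul hg1, C * D, fun y => ?_⟩
  rw [norm_mul]
  exact mul_le_mul (hC y) (hD y) (norm_nonneg _) ((norm_nonneg _).trans (hC y))

lemma Bd.conj {f : Ω → ℂ} (hf : Bd f) : Bd (fun y => (starRingEnd ℂ) (f y)) := by
  obtain ⟨hf1, C, hC⟩ := hf
  exact ⟨Complex.continuous_conj.measurable.comp hf1, C, fun y => by simpa using hC y⟩

lemma Bd.sum {ι : Type*} (S : Finset ι) {f : ι → Ω → ℂ} (hf : ∀ i ∈ S, Bd (f i)) :
    Bd (fun y => ∑ i ∈ S, f i y) := by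
  classical
  induction S using Finset.induction_on with
  | empty => simpa using Bd.const 0
  | insert a S ha ih =>
    simp only [Finset.sum_insert ha]
    exact (hf a (mem_insert_self _ _)).add (ih fun i hi => hf i (mem_insert_of_mem hi))

lemma Bd.prod {ι : Type*} (S : Finset ι) {f : ι → Ω → ℂ} (hf : ∀ i ∈ S, Bd (f i)) :
    Bd (fun y => ∏ i ∈ S, f i y) := by
  classical
  induction S using Finset.induction_on with
  | empty => simpa using Bd.const 1
  | insert a S ha ih =>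
    simp only [Finset.prod_insert ha]
    exact (hf a (mem_insert_self _ _)).mul (ih fun i hi => hf i (mem_insert_of_mem hi))

lemma Bd.comp {X : Type*} [MeasurableSpace X] {f : X → ℂ} (hf : Bd f) {φ : Ω → X}
    (hφ : Measurable φ) : Bd (fun y => f (φ y)) := by
  obtain ⟨hf1, C, hC⟩ := hf
  exact ⟨hf1.comp hφ, C, fun y => hC _⟩

lemma Bd.e_comp {φ : Ω → ℝ} (hφ : Measurable φ) : Bd (fun y => e (φ y)) :=
  ⟨continuous_e.measurable.comp hφ, 1, fun _ => (norm_e _).le⟩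

variable {ν : Measure Ω} [IsFiniteMeasure ν]

lemma Bd.integrable {f : Ω → ℂ} (hf : Bd f) : Integrable f ν := by
  obtain ⟨hf1, C, hC⟩ := hf
  exact Integrable.of_bound hf1.aestronglyMeasurable C (Filter.Eventually.of_forall hC)

lemma Bd.integrable_sq {f : Ω → ℂ} (hf : Bd f) : Integrable (fun y => ‖f y‖ ^ 2) ν := by
  have := (hf.mul hf).integrable (ν := ν) |>.norm
  simpa [sq] using this

lemma integral_norm_sub_sq {a b : Ω → ℂ} (ha : Bd a) (hb : Bd b) :
    ∫ y, ‖a y - b y‖ ^ 2 ∂ν = ∫ y, ‖a y‖ ^ 2 ∂ν + ∫ y, ‖b y‖ ^ 2 ∂ν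
      - 2 * (∫ y, a y * (starRingEnd ℂ) (b y) ∂ν).re := by
  have h1 : ∀ y, ‖a y - b y‖ ^ 2
      = ‖a y‖ ^ 2 + ‖b y‖ ^ 2 - 2 * (a y * (starRingEnd ℂ) (b y)).re := by
    intro y
    simp only [← Complex.normSq_eq_norm_sq, Complex.normSq_sub]
  have hi := (ha.mul hb.conj).integrable (ν := ν)
  have h2 : (∫ y, a y * (starRingEnd ℂ) (b y) ∂ν).re
      = ∫ y, (a y * (starRingEnd ℂ) (b y)).re ∂ν := (integral_re hi).symm
  have h3 : Integrable (fun y => ‖a y‖ ^ 2 + ‖b y‖ ^ 2) ν := ha.integrable_sq.add hb.integrable_sq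
  have h4 : Integrable (fun y => 2 * (a y * (starRingEnd ℂ) (b y)).re) ν := hi.re.const_mul 2
  simp_rw [h1]
  rw [integral_sub h3 h4, integral_add ha.integrable_sq hb.integrable_sq, integral_const_mul, h2]

lemma integral_norm_add_sq_le {a b : Ω → ℂ} (ha : Bd a) (hb : Bd b) :
    ∫ y, ‖a y + b y‖ ^ 2 ∂ν ≤ 2 * ∫ y, ‖a y‖ ^ 2 ∂ν + 2 * ∫ y, ‖b y‖ ^ 2 ∂ν := by
  rw [← integral_const_mul, ← integral_const_mul,
    ← integral_add (ha.integrable_sq.const_mul 2) (hb.integrable_sq.const_mul 2)]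
  refine integral_mono (ha.add hb).integrable_sq
    ((ha.integrable_sq.const_mul 2).add (hb.integrable_sq.const_mul 2)) fun y => ?_
  have h1 := norm_add_le (a y) (b y)
  have h2 := pow_le_pow_left₀ (norm_nonneg _) h1 2
  simp only
  nlinarith [sq_nonneg (‖a y‖ - ‖b y‖)]

lemma parseval_gen {ι : Type*} [DecidableEq ι] (P : Finset ι) (C : ι → ℂ) {χ : ι → Ω → ℂ}
    (hχ : ∀ m, Bd (χ m))
    (horth : ∀ m m', ∫ y, χ m y * (starRingEnd ℂ) (χ m' y) ∂ν = if m = m' then 1 else 0) :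
    ∫ y, ‖∑ m ∈ P, C m * χ m y‖ ^ 2 ∂ν = ∑ m ∈ P, ‖C m‖ ^ 2 := by
  apply Complex.ofReal_injective
  rw [← integral_complex_ofReal]
  have h1 : ∀ y, ((‖∑ m ∈ P, C m * χ m y‖ ^ 2 : ℝ) : ℂ) = ∑ m ∈ P, ∑ m' ∈ P,
      C m * (starRingEnd ℂ) (C m') * (χ m y * (starRingEnd ℂ) (χ m' y)) := by
    intro y
    rw [← Complex.normSq_eq_norm_sq, ← Complex.mul_conj, map_sum, Finset.sum_mul_sum]
    refine Finset.sum_congr rfl fun j _ => Finset.sum_congr rfl fun l _ => ?_
    rw [map_mul]; ring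
  have h2 : ∀ m m', Bd (fun y => C m * (starRingEnd ℂ) (C m')
      * (χ m y * (starRingEnd ℂ) (χ m' y))) :=
    fun m m' => (Bd.const _).mul ((hχ m).mul (hχ m').conj)
  have h3 : ∫ y, ((‖∑ m ∈ P, C m * χ m y‖ ^ 2 : ℝ) : ℂ) ∂ν = ∑ m ∈ P, ∑ m' ∈ P,
      C m * (starRingEnd ℂ) (C m') * (if m = m' then 1 else 0) := by
    simp_rw [h1]
    rw [integral_finsetSum _ (fun m _ => (Bd.sum P fun m' _ => h2 m m').integrable)]
    refine Finset.sum_congr rfl fun m _ => ?_
    rw [integral_finsetSum _ (fun m' _ => (h2 m m').integrable)]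
    refine Finset.sum_congr rfl fun m' _ => ?_
    rw [integral_const_mul, horth]
  refine h3.trans ?_
  push_cast
  refine Finset.sum_congr rfl fun m hm => ?_
  simp [hm, Complex.mul_conj, Complex.normSq_eq_norm_sq]

end Bd

lemma norm_one_sub_pow_le {A : ℂ} (hA : ‖A‖ ≤ 1) (d : ℕ) : ‖1 - A ^ d‖ ≤ d * ‖1 - A‖ := by
  induction d with
  | zero => simp
  | succ d ih =>
    have h1 : 1 - A ^ (d + 1) = (1 - A) + A * (1 - A ^ d) := by ring
    rw [h1]
    refine (norm_add_le _ _).trans ?_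
    rw [norm_mul]
    push_cast
    nlinarith [norm_nonneg (1 - A ^ d), norm_nonneg A]

lemma tensor_err {X : Type*} [MeasurableSpace X] (μ : Measure X) [IsProbabilityMeasure μ]
    {a b : X → ℂ} (ha : Bd a) (hb : Bd b) (ha1 : ∀ x, ‖a x‖ = 1) (hb1 : ∫ x, ‖b x‖ ^ 2 ∂μ ≤ 1)
    {τ : ℝ} (hτ : 0 < τ) (herr : ∫ x, ‖a x - b x‖ ^ 2 ∂μ ≤ τ ^ 2) (d : ℕ) :
    ∫ y : Fin d → X, ‖∏ l, a (y l) - ∏ l, b (y l)‖ ^ 2 ∂(Measure.pi fun _ => μ) ≤ 2 * d * τ ∧
      1 - 2 * d * τ ≤ (∫ x, ‖b x‖ ^ 2 ∂μ) ^ d := by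
  set A : ℂ := ∫ x, a x * (starRingEnd ℂ) (b x) ∂μ with hA
  set B : ℝ := ∫ x, ‖b x‖ ^ 2 ∂μ with hB
  have hB0 : 0 ≤ B := integral_nonneg fun _ => sq_nonneg _
  have hA1 : ‖A‖ ≤ 1 := by
    refine (norm_integral_le_integral_norm _).trans ?_
    have : ∫ x, ‖a x * (starRingEnd ℂ) (b x)‖ ∂μ ≤ ∫ x, (1 / 2 + 1 / 2 * ‖b x‖ ^ 2) ∂μ := by
      refine integral_mono (ha.mul hb.conj).integrable.norm
        ((integrable_const _).add (hb.integrable_sq.const_mul _)) fun x => ?_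
      simp only [norm_mul, ha1, Complex.norm_conj]
      nlinarith [sq_nonneg (‖b x‖ - 1)]
    rw [integral_add (integrable_const _) (hb.integrable_sq.const_mul _), integral_const_mul,
      integral_const] at this
    simp only [probReal_univ, smul_eq_mul, one_mul] at this
    linarith
  have hA2 : ‖1 - A‖ ≤ τ := by
    have h1 : 1 - A = ∫ x, a x * (starRingEnd ℂ) (a x - b x) ∂μ := by
      have h2 : ∀ x, a x * (starRingEnd ℂ) (a x - b x) = 1 - a x * (starRingEnd ℂ) (b x) := by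
        intro x
        rw [map_sub, mul_sub, Complex.mul_conj, Complex.normSq_eq_norm_sq, ha1]; simp
      simp_rw [h2]
      rw [integral_sub (integrable_const _) (ha.mul hb.conj).integrable]
      simp [hA]
    rw [h1]
    refine (norm_integral_le_integral_norm _).trans ?_
    have : ∫ x, ‖a x * (starRingEnd ℂ) (a x - b x)‖ ∂μ
        ≤ ∫ x, (τ / 2 + 1 / (2 * τ) * ‖a x - b x‖ ^ 2) ∂μ := by
      refine integral_mono (ha.mul (ha.sub hb).conj).integrable.norm
        ((integrable_const _).add ((ha.sub hb).integrable_sq.const_mul _)) fun x => ?_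
      simp only [norm_mul, ha1, Complex.norm_conj, one_mul]
      have h3 : τ / 2 + 1 / (2 * τ) * ‖a x - b x‖ ^ 2 - ‖a x - b x‖
          = (τ - ‖a x - b x‖) ^ 2 / (2 * τ) := by field_simp; ring
      have h4 : 0 ≤ (τ - ‖a x - b x‖) ^ 2 / (2 * τ) := by positivity
      linarith
    rw [integral_add (integrable_const _) ((ha.sub hb).integrable_sq.const_mul _),
      integral_const_mul, integral_const] at this
    simp only [probReal_univ, smul_eq_mul, one_mul] at this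
    refine this.trans ?_
    have h5 : 1 / (2 * τ) * ∫ x, ‖a x - b x‖ ^ 2 ∂μ ≤ 1 / (2 * τ) * τ ^ 2 :=
      mul_le_mul_of_nonneg_left herr (by positivity)
    have h6 : 1 / (2 * τ) * τ ^ 2 = τ / 2 := by field_simp
    linarith
  have hA3 : 1 - d * τ ≤ (A ^ d).re := by
    have h1 := norm_one_sub_pow_le hA1 d
    have h2 := Complex.re_le_norm (1 - A ^ d)
    simp only [Complex.sub_re, Complex.one_re] at h2
    have h3 : (d : ℝ) * ‖1 - A‖ ≤ d * τ := mul_le_mul_of_nonneg_left hA2 (Nat.cast_nonneg _)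
    linarith
  have hPa : Bd (fun y : Fin d → X => ∏ l, a (y l)) :=
    Bd.prod _ fun l _ => ha.comp (measurable_pi_apply l)
  have hPb : Bd (fun y : Fin d → X => ∏ l, b (y l)) :=
    Bd.prod _ fun l _ => hb.comp (measurable_pi_apply l)
  have hE := integral_norm_sub_sq (ν := Measure.pi fun _ : Fin d => μ) hPa hPb
  have e1 : ∫ y : Fin d → X, ‖∏ l, a (y l)‖ ^ 2 ∂(Measure.pi fun _ => μ) = 1 := by
    simp [norm_prod, ha1]
  have e2 : ∫ y : Fin d → X, ‖∏ l, b (y l)‖ ^ 2 ∂(Measure.pi fun _ => μ) = B ^ d := by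
    simp_rw [norm_prod, ← Finset.prod_pow]
    rw [integral_fintype_prod_eq_pow (fun x => ‖b x‖ ^ 2), Fintype.card_fin]
  have e3 : ∫ y : Fin d → X, (∏ l, a (y l)) * (starRingEnd ℂ) (∏ l, b (y l))
      ∂(Measure.pi fun _ => μ) = A ^ d := by
    simp_rw [map_prod, ← Finset.prod_mul_distrib]
    rw [integral_fintype_prod_eq_pow (fun x => a x * (starRingEnd ℂ) (b x)), Fintype.card_fin]
  rw [e1, e2, e3] at hE
  have hBd : B ^ d ≤ 1 := pow_le_one₀ hB0 hb1
  have hE0 : 0 ≤ ∫ y : Fin d → X, ‖∏ l, a (y l) - ∏ l, b (y l)‖ ^ 2 ∂(Measure.pi fun _ => μ) :=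
    integral_nonneg fun _ => sq_nonneg _
  constructor <;> linarith

/-- the representative in `(0, 1]` -/
noncomputable def rep (y : UnitAddCircle) : ℝ := AddCircle.liftIoc 1 0 id y

lemma measurable_rep : Measurable rep :=
  measurable_subtype_coe.comp (AddCircle.measurableEquivIoc 1 0).measurable

lemma rep_mem (y : UnitAddCircle) : rep y ∈ Set.Ioc (0 : ℝ) 1 := by
  have : rep y ∈ Set.Ioc (0 : ℝ) (0 + 1) := (AddCircle.equivIoc 1 0 y).2
  rwa [zero_add] at this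

lemma coe_rep (y : UnitAddCircle) : ((rep y : ℝ) : UnitAddCircle) = y := AddCircle.coe_equivIoc

lemma integral_rep {E : Type*} [NormedAddCommGroup E] [NormedSpace ℝ E] (f : ℝ → E) :
    ∫ y, f (rep y) = ∫ x in (0 : ℝ)..1, f x := by
  have := AddCircle.integral_liftIoc_eq_intervalIntegral (T := 1) (t := 0) (f := f)
  rw [zero_add] at this
  exact this

lemma e_rep_add (k : ℤ) (y : UnitAddCircle) (t : ℝ) :
    e (k * rep (y + (t : UnitAddCircle))) = e (k * t) * e (k * rep y) := by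
  have h1 : ((rep (y + (t : UnitAddCircle)) - (t + rep y) : ℝ) : UnitAddCircle) = 0 := by
    rw [AddCircle.coe_sub, AddCircle.coe_add, coe_rep, coe_rep]; abel
  obtain ⟨n, hn⟩ := (AddCircle.coe_eq_zero_iff (1 : ℝ)).1 h1
  have h2 : rep (y + (t : UnitAddCircle)) = t + rep y + n := by
    simp only [zsmul_eq_mul, mul_one] at hn; linarith
  rw [h2, ← e_add]
  have : (k : ℝ) * (t + rep y + n) = k * t + k * rep y + ((k * n : ℤ) : ℝ) := by push_cast; ring
  rw [this, e_add_int]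

/-- the characters of the torus -/
noncomputable def chi {d : ℕ} (m : Fin d → ℤ) (y : Fin d → UnitAddCircle) : ℂ :=
  ∏ l, e (m l * rep (y l))

lemma bd_chi {d : ℕ} (m : Fin d → ℤ) : Bd (chi m) :=
  Bd.prod _ fun l _ => Bd.e_comp
    (measurable_const.mul (measurable_rep.comp (measurable_pi_apply l)))

lemma norm_chi {d : ℕ} (m : Fin d → ℤ) (y : Fin d → UnitAddCircle) : ‖chi m y‖ = 1 := by
  simp [chi, norm_prod]

lemma chi_neg {d : ℕ} (m : Fin d → ℤ) (y : Fin d → UnitAddCircle) :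
    chi (-m) y = (starRingEnd ℂ) (chi m y) := by
  simp only [chi, map_prod, ← e_neg, Pi.neg_apply, Int.cast_neg, neg_mul]

lemma chi_add {d : ℕ} (m : Fin d → ℤ) (y : Fin d → UnitAddCircle) (t : Fin d → ℝ) :
    chi m (y + fun l => (t l : UnitAddCircle)) = e (∑ l, m l * t l) * chi m y := by
  simp only [chi, Pi.add_apply, e_rep_add, Finset.prod_mul_distrib, e_sum]

lemma chi_orth {d : ℕ} (m m' : Fin d → ℤ) :
    ∫ y, chi m y * (starRingEnd ℂ) (chi m' y)
      ∂(Measure.pi fun _ : Fin d => (volume : Measure UnitAddCircle))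
      = if m = m' then 1 else 0 := by
  simp only [chi, map_prod, ← Finset.prod_mul_distrib, ← e_sub]
  rw [integral_fintype_prod_eq_prod (fun l (x : UnitAddCircle) => e (m l * rep x - m' l * rep x))]
  have h1 : ∀ l, ∫ x : UnitAddCircle, e (m l * rep x - m' l * rep x)
      = if m l = m' l then 1 else 0 := by
    intro l
    rw [integral_rep (fun x => e (m l * x - m' l * x))]
    have h2 : ∀ x : ℝ, (m l : ℝ) * x - m' l * x = ((m l - m' l : ℤ) : ℝ) * x := by
      intro x; push_cast; ring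
    simp_rw [h2]
    have := integral_e_int (m l - m' l) 0
    rw [zero_add] at this
    rw [this]
    simp only [sub_eq_zero]
  simp_rw [h1]
  rw [Finset.prod_ite_zero]
  simp [funext_iff]

lemma eq_of_parallel {d : ℕ} {m m' : Fin d → ℤ}
    (hm : ∀ g : ℕ, 2 ≤ g → ¬ ∀ l, (g : ℤ) ∣ m l) (hm' : ∀ g : ℕ, 2 ≤ g → ¬ ∀ l, (g : ℤ) ∣ m' l)
    {a a' : ℤ} (ha : 0 < a) (ha' : 0 < a') (h : ∀ l, a * m' l = a' * m l) : m = m' := by
  obtain ⟨x, x', hx, h1, h2⟩ := Int.exists_gcd_one (Int.gcd_pos_of_ne_zero_left a' ha.ne')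
  have hk : (0 : ℤ) < Int.gcd a a' := by exact_mod_cast Int.gcd_pos_of_ne_zero_left a' ha.ne'
  generalize (Int.gcd a a' : ℤ) = k at h1 h2 hk
  have hx0 : 0 < x := by rw [h1] at ha; exact (mul_pos_iff_of_pos_right hk).1 ha
  have hx0' : 0 < x' := by rw [h2] at ha'; exact (mul_pos_iff_of_pos_right hk).1 ha'
  have h3 : ∀ l, x * m' l = x' * m l := by
    intro l
    have := h l
    rw [h1, h2] at this
    apply mul_left_cancel₀ hk.ne'
    linarith
  have hc : IsCoprime x x' := Int.isCoprime_iff_gcd_eq_one.2 hx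
  have e1 : x = 1 := by
    by_contra hne
    refine hm x.toNat (by omega) fun l => ?_
    rw [Int.toNat_of_nonneg hx0.le]
    exact hc.dvd_of_dvd_mul_left ⟨m' l, (h3 l).symm⟩
  have e2 : x' = 1 := by
    by_contra hne
    refine hm' x'.toNat (by omega) fun l => ?_
    rw [Int.toNat_of_nonneg hx0'.le]
    exact hc.symm.dvd_of_dvd_mul_left ⟨m l, h3 l⟩
  funext l
  have := h3 l
  rw [e1, e2] at this
  linarith

end Vale.Agent.P130.Model
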