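import Vale.Agent.P130.Stmts

/-! # P130: abstract Hilbert space lemmas and circle lemmas for the spectral lemma -/

namespace Vale.Agent.P130.Spectral

open Finset MeasureTheory AddCircle

section Abstract

variable {H K : Type*} [NormedAddCommGroup H] [InnerProductSpace ℂ H] [CompleteSpace H]
  [NormedAddCommGroup K] [InnerProductSpace ℂ K] [CompleteSpace K]

/-- transfer of the spectral picture through an isometry given by equal Gram matrices. -/
theorem transfer (V : ℤ → H →ₗᵢ[ℂ] H) (M : ℤ → K →ₗᵢ[ℂ] K) (one : H) (b : ℕ → H) (β : ℕ → K)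
    (ε : HilbertBasis ℤ ℂ K)
    (hV : ∀ k l x, V (k + l) x = V k (V l x)) (hM : ∀ k l x, M (k + l) x = M k (M l x))
    (hε : ∀ k, M k (ε 0) = ε k)
    (hone : ∀ n k, inner ℂ one (V k (b n)) = 0)
    (hG : ∀ n k m l, inner ℂ (V k (b n)) (V l (b m)) = inner ℂ (M k (β n)) (M l (β m)))
    (hdK : ∀ ξ : K, (∀ n k, inner ℂ (M k (β n)) ξ = 0) → ξ = 0)
    (hdH : ∀ ξ : H, inner ℂ one ξ = 0 → (∀ n k, inner ℂ (V k (b n)) ξ = 0) → ξ = 0) :
    ∃ f : H, inner ℂ one f = 0 ∧
      (∀ k l, inner ℂ (V k f) (V l f) = if k = l then 1 else 0) ∧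
      ∀ ξ : H, inner ℂ one ξ = 0 → (∀ k, inner ℂ (V k f) ξ = 0) → ξ = 0 := by
  classical
  let A : ((ℕ × ℤ) →₀ ℂ) →ₗ[ℂ] K := Finsupp.linearCombination ℂ fun i => M i.2 (β i.1)
  let B : ((ℕ × ℤ) →₀ ℂ) →ₗ[ℂ] H := Finsupp.linearCombination ℂ fun i => V i.2 (b i.1)
  have hAB : ∀ x y, inner ℂ (B x) (B y) = inner ℂ (A x) (A y) := by
    intro x y
    induction x using Finsupp.induction_linear with
    | zero => simp
    | add f g hf hg => rw [map_add, map_add, inner_add_left, inner_add_left, hf, hg]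
    | single i c =>
      induction y using Finsupp.induction_linear with
      | zero => simp
      | add f g hf hg => rw [map_add, map_add, inner_add_right, inner_add_right, hf, hg]
      | single j d =>
        simp only [A, B, Finsupp.linearCombination_single, inner_smul_left, inner_smul_right, hG]
  have hnorm : ∀ x, ‖B x‖ ≤ 1 * ‖A x‖ := by
    intro x
    rw [one_mul, @norm_eq_sqrt_re_inner ℂ, @norm_eq_sqrt_re_inner ℂ _ _ _ _ (A x), hAB]
  have hdense : DenseRange A := by
    have h1 : (LinearMap.range A).topologicalClosure = ⊤ := by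
      rw [Submodule.topologicalClosure_eq_top_iff, Submodule.eq_bot_iff]
      intro ξ hξ
      refine hdK ξ fun n k => ?_
      have : M k (β n) ∈ LinearMap.range A :=
        ⟨Finsupp.single (n, k) 1, by simp [A]⟩
      exact (Submodule.mem_orthogonal _ _).mp hξ _ this
    exact Submodule.dense_iff_topologicalClosure_eq_top.mpr h1
  let W : K →L[ℂ] H := B.extendOfNorm A
  have hW : ∀ x, W (A x) = B x := fun x => LinearMap.extendOfNorm_eq hdense ⟨1, hnorm⟩ x
  have hWi : ∀ x y, inner ℂ (W x) (W y) = inner ℂ x y := by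
    intro x y
    refine hdense.induction_on₂ (p := fun x y => inner ℂ (W x) (W y) = inner ℂ x y) ?_ ?_ x y
    · exact isClosed_eq (by fun_prop) (by fun_prop)
    · intro a₁ a₂; rw [hW, hW, hAB]
  have hWone : ∀ x, inner ℂ one (W x) = 0 := by
    intro x
    refine hdense.induction_on (p := fun x => inner ℂ one (W x) = 0) x ?_ ?_
    · exact isClosed_eq (by fun_prop) (by fun_prop)
    · intro a
      rw [hW]
      induction a using Finsupp.induction_linear with
      | zero => simp
      | add f g hf hg => rw [map_add, inner_add_right, hf, hg, add_zero]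
      | single j d => simp only [B, Finsupp.linearCombination_single, inner_smul_right, hone,
          mul_zero]
  have hWb : ∀ n k, W (M k (β n)) = V k (b n) := by
    intro n k
    have := hW (Finsupp.single (n, k) 1)
    simpa [A, B] using this
  have hWM : ∀ k x, W (M k x) = V k (W x) := by
    intro k x
    refine hdense.induction_on (p := fun x => W (M k x) = V k (W x)) x ?_ ?_
    · exact isClosed_eq (W.continuous.comp (M k).continuous) ((V k).continuous.comp W.continuous)
    · intro a
      induction a using Finsupp.induction_linear with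
      | zero => simp
      | add f g hf hg => simp only [map_add, hf, hg]
      | single j d =>
        simp only [A, Finsupp.linearCombination_single, map_smul, ← hM, hWb, ← hV]
  refine ⟨W (ε 0), hWone _, fun k l => ?_, fun ξ h1 h2 => ?_⟩
  · rw [← hWM, ← hWM, hWi, hε, hε]
    exact orthonormal_iff_ite.mp ε.orthonormal k l
  · have h3 : ContinuousLinearMap.adjoint W ξ = 0 := by
      apply ε.repr.injective
      ext k
      rw [ε.repr_apply_apply, ContinuousLinearMap.adjoint_inner_right, ← hε, hWM, h2]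
      simp
    refine hdH ξ h1 fun n k => ?_
    rw [← hWb, ← ContinuousLinearMap.adjoint_inner_right, h3, inner_zero_right]

omit [CompleteSpace H] in
/-- the differences `V 1 b - b` span a dense subspace of the orthogonal complement of `one`. -/
theorem dense_diff (V : ℤ → H →ₗᵢ[ℂ] H) (one : H) (b : ℕ → H) (q : ℕ → ℕ) (pos : ℕ → ℕ → ℕ)
    (hV : ∀ k l x, V (k + l) x = V k (V l x)) (hV0 : ∀ x, V 0 x = x) (h1 : ∀ k, V k one = one)
    (h0 : inner ℂ (b 0) one ≠ 0) (hq : ∀ n, 0 < q n)
    (hb : ∀ n, b n = ((1 / √(q n) : ℝ) : ℂ) • ∑ j ∈ range (q n), V (pos n j) (b (n + 1)))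
    (hd : ∀ ξ : H, (∀ n k, inner ℂ (V k (b n)) ξ = 0) → ξ = 0)
    (ξ : H) (hξ1 : inner ℂ one ξ = 0) (hξ : ∀ n k, inner ℂ (V k (V 1 (b n) - b n)) ξ = 0) :
    ξ = 0 := by
  have key : ∀ η : H, (∀ n k, inner ℂ (V k (b n)) η = inner ℂ (b n) η) →
      ∀ n, inner ℂ (b n) η = ((√(q n) : ℝ) : ℂ) * inner ℂ (b (n + 1)) η := by
    intro η hη n
    conv_lhs => rw [hb n]
    rw [inner_smul_left, sum_inner]
    simp only [hη, sum_const, card_range, nsmul_eq_mul, Complex.conj_ofReal]
    have hq' : (0 : ℝ) < q n := by exact_mod_cast hq n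
    have hs : √(q n : ℝ) ≠ 0 := (Real.sqrt_pos.mpr hq').ne'
    have : ((1 / √(q n) : ℝ) : ℂ) * (q n : ℂ) = ((√(q n) : ℝ) : ℂ) := by
      have : (1 / √(q n) : ℝ) * (q n : ℝ) = √(q n) := by
        rw [div_mul_eq_mul_div, one_mul, div_eq_iff hs, Real.mul_self_sqrt hq'.le]
      exact_mod_cast this
    rw [← mul_assoc, this]
  have hc : ∀ n k, inner ℂ (V k (b n)) ξ = inner ℂ (b n) ξ := by
    intro n k
    have step : ∀ k, inner ℂ (V (k + 1) (b n)) ξ = inner ℂ (V k (b n)) ξ := by
      intro k
      have := hξ n k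
      rw [map_sub, inner_sub_left, ← hV] at this
      exact sub_eq_zero.mp this
    induction k using Int.induction_on with
    | zero => rw [hV0]
    | succ i ih => rw [step, ih]
    | pred i ih => rw [← step, sub_add_cancel, ih]
  have hd1 : ∀ n k, inner ℂ (V k (b n)) one = inner ℂ (b n) one := by
    intro n k
    conv_lhs => rw [← h1 k]
    exact (V k).inner_map_map _ _
  have hcd : ∀ n, inner ℂ (b n) ξ * inner ℂ (b 0) one = inner ℂ (b 0) ξ * inner ℂ (b n) one := by
    intro n
    induction n with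
    | zero => rfl
    | succ n ih =>
      have hq' : (0 : ℝ) < q n := by exact_mod_cast hq n
      have hs : ((√(q n) : ℝ) : ℂ) ≠ 0 := by
        exact_mod_cast (Real.sqrt_pos.mpr hq').ne'
      rw [key ξ hc n, key one hd1 n] at ih
      apply mul_left_cancel₀ hs
      linear_combination ih
  have hη : inner ℂ (b 0) one • ξ - inner ℂ (b 0) ξ • one = 0 := by
    refine hd _ fun n k => ?_
    rw [inner_sub_right, inner_smul_right, inner_smul_right, hc, hd1]
    linear_combination hcd n
  have hone : one ≠ 0 := by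
    rintro rfl
    exact h0 (inner_zero_right _)
  have h2 : inner ℂ (b 0) ξ = 0 := by
    have := congrArg (inner ℂ one) hη
    rw [inner_sub_right, inner_smul_right, inner_smul_right, hξ1, inner_zero_right] at this
    simpa [hone] using this
  rw [h2, zero_smul, sub_zero] at hη
  exact (smul_eq_zero.mp hη).resolve_left h0

end Abstract

/-- the circle. -/
abbrev C := AddCircle (1 : ℝ)

/-- normalised Haar measure on the circle. -/
noncomputable abbrev m : Measure C := haarAddCircle

/-- `L²` of the circle. -/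
noncomputable abbrev K := Lp ℂ 2 m

lemma real_ae_zero (G : C → ℝ) (hG : Integrable G m) (hGm : Measurable G)
    (h : ∀ φ : C(C, ℝ), ∫ x, φ x * G x ∂m = 0) : G =ᵐ[m] 0 := by
  have h1 := isFiniteMeasure_withDensity_ofReal hG.2
  have h2 := isFiniteMeasure_withDensity_ofReal hG.neg.2
  have h3 : m.withDensity (fun x => ENNReal.ofReal (G x))
      = m.withDensity (fun x => ENNReal.ofReal ((-G) x)) := by
    apply ext_of_forall_integral_eq_of_IsFiniteMeasure
    intro f
    rw [integral_withDensity_eq_integral_toReal_smul (by fun_prop) (by simp),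
      integral_withDensity_eq_integral_toReal_smul (by fun_prop) (by simp)]
    have hi : ∀ F : C → ℝ, Integrable F m →
        Integrable (fun x => (ENNReal.ofReal (F x)).toReal • f x) m := by
      intro F hF
      have : Integrable (fun x => max (F x) 0) m := hF.pos_part
      simp only [ENNReal.toReal_ofReal', smul_eq_mul]
      exact this.mul_bdd (c := ‖f‖) f.continuous.aestronglyMeasurable
        (Filter.Eventually.of_forall fun x => f.norm_coe_le_norm x)
    rw [← sub_eq_zero, ← integral_sub (hi G hG) (hi (-G) hG.neg), ← h f.toContinuousMap]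
    refine integral_congr_ae (Filter.Eventually.of_forall fun x => ?_)
    simp only [ENNReal.toReal_ofReal', smul_eq_mul, Pi.neg_apply,
      BoundedContinuousFunction.coe_toContinuousMap]
    rcases le_total (G x) 0 with hx | hx
    · rw [max_eq_right hx, max_eq_left (by linarith)]; ring
    · rw [max_eq_left hx, max_eq_right (by linarith)]; ring
  rw [withDensity_eq_iff_of_sigmaFinite (by fun_prop) (by fun_prop)] at h3
  filter_upwards [h3] with x hx
  simp only [Pi.neg_apply, Pi.zero_apply] at hx ⊢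
  rcases le_total (G x) 0 with h0 | h0
  · rw [ENNReal.ofReal_of_nonpos h0, eq_comm, ENNReal.ofReal_eq_zero] at hx
    linarith
  · rw [ENNReal.ofReal_of_nonpos (show -G x ≤ 0 by linarith), ENNReal.ofReal_eq_zero] at hx
    linarith

/-- uniqueness theorem for Fourier series of integrable functions. -/
theorem L1_unique (g : C → ℂ) (hg : Integrable g m) (hgm : Measurable g)
    (h : ∀ k : ℤ, ∫ x, fourier k x * g x ∂m = 0) : g =ᵐ[m] 0 := by
  have hint : ∀ φ : C(C, ℂ), Integrable (fun x => φ x * g x) m := fun φ =>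
    hg.bdd_mul (c := ‖φ‖) φ.continuous.aestronglyMeasurable
      (Filter.Eventually.of_forall fun x => φ.norm_coe_le_norm x)
  let Λ₀ : C(C, ℂ) →ₗ[ℂ] ℂ :=
    { toFun := fun φ => ∫ x, φ x * g x ∂m
      map_add' := fun φ ψ => by
        rw [← integral_add (hint φ) (hint ψ)]
        simp only [ContinuousMap.add_apply, add_mul]
      map_smul' := fun c φ => by
        simp only [ContinuousMap.smul_apply, smul_eq_mul, RingHom.id_apply, mul_assoc]
        exact integral_const_mul _ _ }
  let Λ : C(C, ℂ) →L[ℂ] ℂ := Λ₀.mkContinuous (∫ x, ‖g x‖ ∂m) fun φ => by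
    change ‖∫ x, φ x * g x ∂m‖ ≤ _
    rw [mul_comm, ← integral_const_mul]
    refine norm_integral_le_of_norm_le (hg.norm.const_mul _)
      (Filter.Eventually.of_forall fun x => ?_)
    rw [norm_mul]
    exact mul_le_mul_of_nonneg_right (φ.norm_coe_le_norm x) (norm_nonneg _)
  have hΛ : ∀ φ : C(C, ℂ), ∫ x, φ x * g x ∂m = 0 := by
    have h1 : Submodule.span ℂ (Set.range (@fourier 1)) ≤ Λ.ker := by
      rw [Submodule.span_le]
      rintro _ ⟨k, rfl⟩
      exact h k
    have h2 := Submodule.topologicalClosure_minimal _ h1 Λ.isClosed_ker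
    rw [span_fourier_closure_eq_top] at h2
    intro φ
    exact h2 (Submodule.mem_top : φ ∈ ⊤)
  have hφ : ∀ φ : C(C, ℝ), ∫ x, ((φ x : ℝ) : ℂ) * g x ∂m = 0 := fun φ =>
    hΛ ⟨fun x => ((φ x : ℝ) : ℂ), by fun_prop⟩
  have hφi : ∀ φ : C(C, ℝ), Integrable (fun x => ((φ x : ℝ) : ℂ) * g x) m := fun φ =>
    hint ⟨fun x => ((φ x : ℝ) : ℂ), by fun_prop⟩
  have hre : (fun x => (g x).re) =ᵐ[m] 0 := by
    refine real_ae_zero _ hg.re (by fun_prop) fun φ => ?_
    have := integral_re (hφi φ)
    rw [hφ] at this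
    simpa using this
  have him : (fun x => (g x).im) =ᵐ[m] 0 := by
    refine real_ae_zero _ hg.im (by fun_prop) fun φ => ?_
    have := integral_im (hφi φ)
    rw [hφ] at this
    simpa using this
  filter_upwards [hre, him] with x h1 h2
  exact Complex.ext h1 h2

lemma norm_sq_K (f : K) : ‖f‖ ^ 2 = ∫ x, ‖f x‖ ^ 2 ∂m := by
  have H₃ := congr_arg RCLike.re (@L2.inner_def C ℂ ℂ _ _ _ _ _ f f)
  rw [← integral_re (L2.integrable_inner f f)] at H₃
  simpa only [← norm_sq_eq_re_inner] using H₃

lemma integrable_norm_sq (f : K) : Integrable (fun x => ‖f x‖ ^ 2) m := by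
  have := (L2.integrable_inner (𝕜 := ℂ) f f).re
  simpa only [← norm_sq_eq_re_inner] using this

lemma memLp_mul {u : C → ℂ} (hu : Measurable u) (h1 : ∀ x, ‖u x‖ = 1) (f : K) :
    MemLp (fun x => u x * f x) 2 m :=
  (Lp.memLp f).congr_norm (hu.aestronglyMeasurable.mul (Lp.aestronglyMeasurable f))
    (Filter.Eventually.of_forall fun x => by rw [norm_mul, h1, one_mul])

/-- multiplication by a unimodular function. -/
noncomputable def mulU (u : C → ℂ) (hu : Measurable u) (h1 : ∀ x, ‖u x‖ = 1) : K →ₗᵢ[ℂ] K where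
  toFun f := (memLp_mul hu h1 f).toLp
  map_add' f g := by
    apply Lp.ext
    filter_upwards [(memLp_mul hu h1 (f + g)).coeFn_toLp, (memLp_mul hu h1 f).coeFn_toLp,
      (memLp_mul hu h1 g).coeFn_toLp, Lp.coeFn_add f g,
      Lp.coeFn_add (memLp_mul hu h1 f).toLp (memLp_mul hu h1 g).toLp] with x a1 a2 a3 a4 a5
    rw [a1, a5, a4, Pi.add_apply, Pi.add_apply, a2, a3, mul_add]
  map_smul' c f := by
    apply Lp.ext
    filter_upwards [(memLp_mul hu h1 (c • f)).coeFn_toLp, (memLp_mul hu h1 f).coeFn_toLp,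
      Lp.coeFn_smul c f, Lp.coeFn_smul c (memLp_mul hu h1 f).toLp] with x a1 a2 a3 a4
    rw [RingHom.id_apply, a1, a4, a3, Pi.smul_apply, Pi.smul_apply, a2, smul_eq_mul, smul_eq_mul]
    ring
  norm_map' f := by
    change ‖(memLp_mul hu h1 f).toLp‖ = _
    rw [Lp.norm_toLp, Lp.norm_def]
    congr 1
    exact eLpNorm_congr_norm_ae
      (Filter.Eventually.of_forall fun x => by rw [norm_mul, h1, one_mul])

lemma coeFn_mulU {u : C → ℂ} (hu : Measurable u) (h1 : ∀ x, ‖u x‖ = 1) (f : K) :
    mulU u hu h1 f =ᵐ[m] fun x => u x * f x :=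
  (memLp_mul hu h1 f).coeFn_toLp

lemma mulU_comm {u v : C → ℂ} (hu : Measurable u) (h1 : ∀ x, ‖u x‖ = 1) (hv : Measurable v)
    (h2 : ∀ x, ‖v x‖ = 1) (f : K) :
    mulU u hu h1 (mulU v hv h2 f) = mulU v hv h2 (mulU u hu h1 f) := by
  apply Lp.ext
  filter_upwards [coeFn_mulU hu h1 (mulU v hv h2 f), coeFn_mulU hv h2 f,
    coeFn_mulU hv h2 (mulU u hu h1 f), coeFn_mulU hu h1 f] with x a1 a2 a3 a4
  rw [a1, a2, a3, a4]; ring

lemma norm_fourier (k : ℤ) (x : C) : ‖fourier k x‖ = 1 := by
  rw [fourier_apply]; exact Circle.norm_coe _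

/-- multiplication by `e (k θ)`. -/
noncomputable def M (k : ℤ) : K →ₗᵢ[ℂ] K :=
  mulU (fourier k) (fourier k).continuous.measurable (norm_fourier k)

lemma coeFn_M (k : ℤ) (f : K) : M k f =ᵐ[m] fun x => fourier k x * f x :=
  coeFn_mulU _ _ f

lemma M_add (k l : ℤ) (f : K) : M (k + l) f = M k (M l f) := by
  apply Lp.ext
  filter_upwards [coeFn_M (k + l) f, coeFn_M k (M l f), coeFn_M l f] with x a1 a2 a3
  rw [a1, a2, a3, fourier_add, mul_assoc]

/-- the Fourier basis. -/
noncomputable abbrev ε : HilbertBasis ℤ ℂ K := fourierBasis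

lemma coeFn_ε (k : ℤ) : ε k =ᵐ[m] fourier k := by
  rw [coe_fourierBasis]; exact coeFn_fourierLp 2 k

lemma M_ε (k l : ℤ) : M k (ε l) = ε (k + l) := by
  apply Lp.ext
  filter_upwards [coeFn_M k (ε l), coeFn_ε l, coeFn_ε (k + l)] with x a1 a2 a3
  rw [a1, a2, a3, fourier_add]

lemma fourier_coe (k : ℤ) (θ : ℝ) : fourier k (θ : C) = P110.e (k * θ) := by
  rw [fourier_coe_apply, P110.e]
  congr 1
  push_cast
  ring

lemma integral_m {E : Type*} [NormedAddCommGroup E] [NormedSpace ℝ E] (f : C → E) :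
    ∫ x, f x ∂m = ∫ θ in (0 : ℝ)..1, f (θ : C) := by
  have := AddCircle.intervalIntegral_preimage 1 0 f
  rw [zero_add] at this
  rw [this, integral_haarAddCircle]
  simp

lemma ae_fourier_ne_one : ∀ᵐ x ∂m, fourier 1 x ≠ 1 := by
  have h0 : m {0} = 0 := by
    have h := AddCircle.volume_closedBall (T := (1 : ℝ)) (x := 0) 0
    rw [volume_eq_smul_haarAddCircle] at h
    simpa using h
  rw [ae_iff]
  refine measure_mono_null (fun x hx => ?_) h0
  simp only [ne_eq, not_not, Set.mem_ofPred_eq, fourier_one] at hx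
  apply injective_toCircle (T := 1) one_ne_zero
  rw [toCircle_zero]
  exact Subtype.ext hx

end Vale.Agent.P130.Spectral
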