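import Vale.Agent.P110.Stmts

/-! # P130: the intermediate statements of the proof (each is proved in its own file) -/

namespace Vale.Agent.P130

open Finset MeasureTheory Vale.Agent.P110

/-- `f` is a trigonometric polynomial with integer frequencies in `[lo, hi)`. -/
def TP (lo hi : ℤ) (f : ℝ → ℂ) : Prop :=
  ∃ (ι : Type) (S : Finset ι) (n : ι → ℤ) (c : ι → ℂ), (∀ i ∈ S, lo ≤ n i ∧ n i < hi) ∧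
    ∀ θ : ℝ, f θ = ∑ i ∈ S, c i * e (n i * θ)

/-- One-dimensional model: an integer valued function whose exponentials `e (θ T)` have, for all
`θ` away from the integers at once, Fourier coefficients of nearly constant modulus. -/
def Model1Stmt : Prop :=
  ∀ η δ : ℝ, 0 < η → η < 1 / 2 → 0 < δ →
    ∃ (L : ℕ) (T : ℝ → ℕ) (S : Finset ℤ) (μ lo hi : ℤ → ℝ) (c : ℤ → ℝ → ℂ),
      Measurable T ∧ (∀ y ∈ Set.Ico (0 : ℝ) 1, T y < L) ∧ (∀ m ∈ S, -m ∈ S) ∧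
      (∀ m ∈ S, 0 < μ m) ∧ (∀ m ∈ S, μ (-m) = μ m) ∧
      (∀ m ∈ S, lo (-m) = 1 - hi m ∧ hi (-m) = 1 - lo m) ∧
      (∀ m ∈ S, Continuous (c m) ∧ c m 0 = 0 ∧ c m 1 = 0) ∧
      (∀ m ∈ S, ∀ θ, c m θ ≠ 0 → θ ∈ Set.Icc (lo m) (hi m)) ∧
      (∀ m ∈ S, ∀ θ, ‖c m θ‖ ^ 2 ≤ μ m) ∧
      (∀ θ : ℝ, ∑ m ∈ S, (if lo m ≤ θ ∧ θ ≤ hi m then μ m else 0) ≤ 1) ∧
      (∀ θ ∈ Set.Icc η (1 - η),
        ∫ y in (0 : ℝ)..1, ‖e (θ * T y) - ∑ m ∈ S, c m θ * e (m * y)‖ ^ 2 ≤ δ) ∧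
      (∀ θ ∈ Set.Icc η (1 - η), ∀ g : ℕ, 2 ≤ g →
        ∑ m ∈ S.filter (fun m => (g : ℤ) ∣ m), ‖c m θ‖ ^ 2 ≤ 3 / 5) ∧
      (∀ θ ∈ Set.Icc η (1 - η), ∀ G : ℕ,
        ∑ g ∈ Icc 2 G, (∑ m ∈ S.filter (fun m => (g : ℤ) ∣ m), ‖c m θ‖ ^ 2) ^ 2 ≤ 10)

/-- the data of the types: non-parallel frequencies, weights, activity intervals. -/
def Types (r : ℕ) (α β : Fin r → ℤ) (μ lo hi : Fin r → ℝ) : Prop :=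
  (∀ i, 0 < α i) ∧ (∀ i j, i ≠ j → α i * β j ≠ α j * β i) ∧ (∀ i, 0 < μ i) ∧
    (∀ i, lo i ≤ hi i) ∧
    ∀ θ : ℝ, ∑ i, ((if lo i ≤ θ ∧ θ ≤ hi i then μ i else 0) +
      (if lo i ≤ 1 - θ ∧ 1 - θ ≤ hi i then μ i else 0)) ≤ 1

/-- The model with pairwise non-parallel frequencies. -/
def ModelStmt : Prop :=
  ∀ η δ : ℝ, 0 < η → η < 1 / 2 → 0 < δ →
    ∃ (Ω : Type) (_ : MeasurableSpace Ω) (ν : Measure Ω) (_ : IsProbabilityMeasure ν)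
      (act : ℝ × ℝ → Ω → Ω) (L : ℕ) (T : Ω → ℕ) (r : ℕ) (α β : Fin r → ℤ)
      (μ lo hi : Fin r → ℝ) (cp cm : Fin r → ℝ → ℂ) (χ : Fin r → Ω → ℂ),
      (∀ z, MeasurePreserving (act z) ν ν) ∧ Measurable T ∧ (∀ y, T y < L) ∧
      Types r α β μ lo hi ∧ (∀ i, Measurable (χ i)) ∧ (∀ i y, ‖χ i y‖ = 1) ∧
      (∀ i z y, χ i (act z y) = e (α i * z.1 + β i * z.2) * χ i y) ∧
      (∀ i, Continuous (cp i) ∧ Continuous (cm i) ∧ cp i 0 = cp i 1 ∧ cm i 0 = cm i 1) ∧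
      (∀ i θ, cp i θ ≠ 0 → θ ∈ Set.Icc (lo i) (hi i)) ∧
      (∀ i θ, cm i θ ≠ 0 → 1 - θ ∈ Set.Icc (lo i) (hi i)) ∧
      (∀ i θ, ‖cp i θ‖ ^ 2 ≤ μ i ∧ ‖cm i θ‖ ^ 2 ≤ μ i) ∧
      (∀ θ ∈ Set.Icc η (1 - η), 1 - δ ≤ ∑ i, (‖cp i θ‖ ^ 2 + ‖cm i θ‖ ^ 2)) ∧
      (∀ θ ∈ Set.Icc η (1 - η), ∫ y, ‖e (θ * T y) -
        ∑ i, (cp i θ * χ i y + cm i θ * (starRingEnd ℂ) (χ i y))‖ ^ 2 ∂ν ≤ δ) ∧
      (∀ θ : ℝ, ∫ y, ‖e (θ * T y) -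
        ∑ i, (cp i θ * χ i y + cm i θ * (starRingEnd ℂ) (χ i y))‖ ^ 2 ∂ν ≤ 4)

/-- The colouring design with conflict intervals. -/
def Design2Stmt : Prop :=
  ∀ (r : ℕ) (α β : Fin r → ℤ) (μ lo hi : Fin r → ℝ) (δ : ℝ), Types r α β μ lo hi → 0 < δ →
    ∃ (p T : ℕ) (z : Fin T → ℤ × ℤ) (ok : Fin r → ℕ → Prop) (a : Fin r → Fin T → ℕ),
      0 < p ∧ 0 < T ∧ (∀ i t, (a i t : ℤ) + α i ≤ p) ∧
      (∀ i t, (p : ℤ) ∣ (a i t : ℤ) - (α i * (z t).1 + β i * (z t).2)) ∧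
      (∀ i t (s : ℕ), (s : ℤ) < α i → ok i (a i t + s)) ∧
      (∀ i i', i ≠ i' → (∃ θ, θ ∈ Set.Icc (lo i) (hi i) ∧ θ ∈ Set.Icc (lo i') (hi i')) →
        ∀ x < p, ¬ (ok i x ∧ ok i' x)) ∧
      (∀ i i', (∃ θ, θ ∈ Set.Icc (lo i) (hi i) ∧ 1 - θ ∈ Set.Icc (lo i') (hi i')) →
        ∀ x < p, ¬ (ok i x ∧ ok i' (p - 1 - x))) ∧
      ∀ i (x : ℕ), ((univ.filter fun t => a i t = x).card : ℝ) ≤ (1 + δ) * T / (μ i * p)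

/-- The layout of the frequency intervals. -/
def Layout2Stmt : Prop :=
  ∀ (r : ℕ) (α β : Fin r → ℤ) (μ lo hi : Fin r → ℝ) (δ : ℝ), Types r α β μ lo hi → 0 < δ →
    ∃ p T₀ : ℕ, 0 < p ∧ 0 < T₀ ∧ ∀ (K : ℕ) (n : Fin r → ℕ), (∀ i, 0 < n i) →
      (∀ i j, i ≠ j → Nat.Coprime (n i) (n j)) → (∀ i, IsCoprime (α i) (n i : ℤ)) →
      (∀ i, (α i : ℝ) * K * ((1 + δ) * T₀ / (μ i * p)) ≤ n i) →
      ∃ (Y : Fin (K * T₀) → ℤ × ℤ) (s : Fin r → Fin (K * T₀) → ℕ),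
        (∀ i t, ((p : ℤ) * n i) ∣ (s i t : ℤ) - (α i * (Y t).1 + β i * (Y t).2)) ∧
        (∀ i t, (s i t : ℤ) + α i ≤ p * n i) ∧
        (∀ i t (ζ : ℕ) i' t' (ζ' : ℕ), (i, t, ζ) ≠ (i', t', ζ') →
          (∃ θ, θ ∈ Set.Icc (lo i) (hi i) ∧ θ ∈ Set.Icc (lo i') (hi i')) →
          ((s i t : ℤ) + p * n i * ζ) + α i ≤ (s i' t' : ℤ) + p * n i' * ζ' ∨
          ((s i' t' : ℤ) + p * n i' * ζ') + α i' ≤ (s i t : ℤ) + p * n i * ζ) ∧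
        (∀ i t (ζ : ℕ) i' t' (ζ' : ℕ),
          (∃ θ, θ ∈ Set.Icc (lo i) (hi i) ∧ 1 - θ ∈ Set.Icc (lo i') (hi i')) →
          ((s i t : ℤ) + p * n i * ζ) + α i + (((s i' t' : ℤ) + p * n i' * ζ') + α i')
            ≤ p * ((∏ l, n l : ℕ) : ℤ) ∨
          p * ((∏ l, n l : ℕ) : ℤ) ≤ ((s i t : ℤ) + p * n i * ζ) + ((s i' t' : ℤ) + p * n i' * ζ'))

/-- A discrete chirp is close in `L²` to a chirp of constant modulus on an interval. -/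
def ChirpStmt : Prop :=
  ∃ γ : ℂ, ‖γ‖ = 1 ∧ ∀ ρ ε : ℝ, 0 < ρ → 0 < ε → ∃ J₀ : ℕ, ∀ J ≥ J₀, ∀ a : ℝ, a ≤ 0 → ρ ≤ a + 1 →
    ∫ φ in a..a + 1, ‖γ * ∑ j ∈ range J, e (j * φ - ρ / J * (j : ℝ) ^ 2 / 2)
      - (Set.Ioo 0 ρ).indicator
        (fun φ => ((√(J / ρ) : ℝ) : ℂ) * e (J * φ ^ 2 / (2 * ρ))) φ‖ ^ 2 ≤ ε * J

/-- The configuration: a sequence in the plane along which every type has a flat spectrum on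
its own set of frequencies. -/
def Config2Stmt : Prop :=
  ∀ (r : ℕ) (α β : Fin r → ℤ) (μ lo hi : Fin r → ℝ) (δ ε : ℝ) (q₀ : ℕ),
    Types r α β μ lo hi → 0 < δ → 0 < ε →
    ∃ (q : ℕ) (z : ℕ → ℝ × ℝ) (U : Fin r → ℝ → ℂ) (A : Fin r → ℝ), q₀ ≤ q ∧ 0 < q ∧
      (∀ i, Measurable (U i)) ∧ (∀ i, 0 < A i ∧ μ i * A i ^ 2 ≤ (1 + δ) * q) ∧
      (∀ i φ, U i φ = 0 ∨ ‖U i φ‖ = A i) ∧
      (∀ i, ∫ φ in (0 : ℝ)..1, ‖U i φ‖ ^ 2 = q) ∧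
      (∀ i, ∫ φ in (0 : ℝ)..1,
        ‖∑ j ∈ range q, e (j * φ + (α i * (z j).1 + β i * (z j).2)) - U i φ‖ ^ 2 ≤ ε * q) ∧
      (∀ i i', i ≠ i' → (∃ θ, θ ∈ Set.Icc (lo i) (hi i) ∧ θ ∈ Set.Icc (lo i') (hi i')) →
        ∀ φ, U i φ = 0 ∨ U i' φ = 0) ∧
      (∀ i i', (∃ θ, θ ∈ Set.Icc (lo i) (hi i) ∧ 1 - θ ∈ Set.Icc (lo i') (hi i')) →
        ∀ φ, U i φ = 0 ∨ U i' (1 - φ) = 0)

/-- Flat polynomials with Ornstein-type exponents, against given polynomial weights. -/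
def FlatStmt : Prop :=
  ∀ δ : ℝ, 0 < δ → ∃ L : ℕ, ∀ (h q₀ k : ℕ) (g : ℕ → ℝ → ℂ), (∀ i < k, TP 0 h (g i)) →
    ∃ (q : ℕ) (t : ℕ → ℕ), q₀ ≤ q ∧ 0 < q ∧ (∀ j, t j < L) ∧
      ∑ i ∈ range k, ∫ θ in (0 : ℝ)..1, ‖e θ - 1‖ ^ 2 * ‖g i θ‖ ^ 2 *
        (‖∑ j ∈ range q, e ((j * (h + L) + t j : ℕ) * θ)‖ / √q - 1) ^ 2
      ≤ δ * ∑ i ∈ range k, ∫ θ in (0 : ℝ)..1, ‖g i θ‖ ^ 2

/-- The rank-one system with prescribed cutting and stacking data. -/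
def SystemStmt : Prop :=
  ∀ (h q : ℕ → ℕ) (pos : ℕ → ℕ → ℕ), (∀ n, n < h n) → (∀ n, 0 < q n) →
    (∀ n j, j + 1 < q n → pos n j + h n ≤ pos n (j + 1)) →
    (∀ n j, j < q n → pos n j + h n ≤ h (n + 1)) →
    (∀ n, (h (n + 1) : ℝ) ≤ (1 + 1 / 2 ^ n) * (q n * h n)) →
    ∃ (X : Type) (_ : MeasurableSpace X) (_ : StandardBorelSpace X) (μ : Measure X)
      (_ : IsProbabilityMeasure μ) (T : X ≃ᵐ X) (B : ℕ → Set X),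
      (∀ x, μ {x} = 0) ∧ MeasurePreserving T μ μ ∧ (∀ n, MeasurableSet (B n)) ∧
      (∀ n, 0 < μ.real (B n)) ∧ (∀ n, μ.real (B n) = q n * μ.real (B (n + 1))) ∧
      (∀ n (k : ℤ), k ≠ 0 → |k| < h n →
        μ (B n ∩ (T.toEquiv ^ k : Equiv.Perm X) ⁻¹' B n) = 0) ∧
      (∀ n, ∀ᵐ x ∂μ, (B n).indicator (fun _ => (1 : ℂ)) x = ∑ j ∈ range (q n),
        (B (n + 1)).indicator (fun _ => (1 : ℂ))
          ((T.toEquiv ^ (-(pos n j : ℤ)) : Equiv.Perm X) x)) ∧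
      ∀ g : X → ℂ, MemLp g 2 μ →
        (∀ n (k : ℤ), ∫ x in (T.toEquiv ^ k : Equiv.Perm X) ⁻¹' B n, g x ∂μ = 0) → g =ᵐ[μ] 0

/-- The abstract spectral lemma. -/
def SpectralStmt : Prop :=
  ∀ (H : Type) [NormedAddCommGroup H] [InnerProductSpace ℂ H] [CompleteSpace H]
    (V : ℤ → H →ₗᵢ[ℂ] H) (one : H) (b : ℕ → H) (h q : ℕ → ℕ) (pos : ℕ → ℕ → ℕ),
    (∀ k l x, V (k + l) x = V k (V l x)) → (∀ x, V 0 x = x) → (∀ k, V k one = one) →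
    inner ℂ (b 0) one ≠ 0 → 0 < h 0 → (∀ n, 0 < q n) →
    (∀ n j, j < q n → pos n j + h n < h (n + 1)) →
    (∀ n (k : ℤ), |k| < h n → inner ℂ (V k (b n)) (b n) = if k = 0 then 1 else 0) →
    (∀ n, b n = ((1 / √(q n) : ℝ) : ℂ) • ∑ j ∈ range (q n), V (pos n j) (b (n + 1))) →
    (∀ ξ : H, (∀ n k, inner ℂ (V k (b n)) ξ = 0) → ξ = 0) →
    (∀ n N, n ≤ N → ∫ θ in (0 : ℝ)..1, ‖e θ - 1‖ ^ 2 *
      ‖∏ m ∈ Ico n N, ((∑ j ∈ range (q m), e (pos m j * θ)) / ((√(q m) : ℝ) : ℂ))‖ ^ 2 *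
      (‖∑ j ∈ range (q N), e (pos N j * θ)‖ / √(q N) - 1) ^ 2 ≤ 1 / 4 ^ N) →
    ∃ f : H, inner ℂ one f = 0 ∧
      (∀ k l, inner ℂ (V k f) (V l f) = if k = l then 1 else 0) ∧
      ∀ ξ : H, inner ℂ one ξ = 0 → (∀ k, inner ℂ (V k f) ξ = 0) → ξ = 0

/-- The main statement. -/
def MainStmt : Prop :=
  ∃ (X : Type) (_ : MeasurableSpace X) (_ : StandardBorelSpace X) (μ : Measure X)
    (_ : IsProbabilityMeasure μ) (T : X ≃ᵐ X) (f : X → ℂ),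
    (∀ x, μ {x} = 0) ∧ MeasurePreserving T μ μ ∧ MemLp f 2 μ ∧ ∫ x, f x ∂μ = 0 ∧
    (∀ m n : ℤ, ∫ x, f ((T.toEquiv ^ m : Equiv.Perm X) x) *
      (starRingEnd ℂ) (f ((T.toEquiv ^ n : Equiv.Perm X) x)) ∂μ = if m = n then 1 else 0) ∧
    ∀ g : X → ℂ, MemLp g 2 μ → ∫ x, g x ∂μ = 0 →
      (∀ n : ℤ, ∫ x, g x * (starRingEnd ℂ) (f ((T.toEquiv ^ n : Equiv.Perm X) x)) ∂μ = 0) →
      g =ᵐ[μ] 0

end Vale.Agent.P130
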