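import Vale.Agent.P130.Stmts

/-! # P130: trigonometric polynomials with frequencies in a window -/

namespace Vale.Agent.P130

open Finset MeasureTheory Vale.Agent.P110

namespace TP

lemma mono {lo hi lo' hi' : ℤ} {f : ℝ → ℂ} (h : TP lo hi f) (h1 : lo' ≤ lo) (h2 : hi ≤ hi') :
    TP lo' hi' f := by
  obtain ⟨ι, S, n, c, hn, hf⟩ := h
  exact ⟨ι, S, n, c, fun i hi => ⟨h1.trans (hn i hi).1, (hn i hi).2.trans_le h2⟩, hf⟩

lemma congr {lo hi : ℤ} {f g : ℝ → ℂ} (h : TP lo hi f) (hfg : ∀ θ, g θ = f θ) : TP lo hi g := by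
  obtain ⟨ι, S, n, c, hn, hf⟩ := h
  exact ⟨ι, S, n, c, hn, fun θ => (hfg θ).trans (hf θ)⟩

lemma zero (lo hi : ℤ) : TP lo hi (fun _ => 0) :=
  ⟨Unit, ∅, fun _ => 0, fun _ => 0, by simp, by simp⟩

lemma single (n : ℤ) (c : ℂ) : TP n (n + 1) (fun θ => c * e (n * θ)) :=
  ⟨Unit, {()}, fun _ => n, fun _ => c, by simp, by simp⟩

lemma const (c : ℂ) : TP 0 1 (fun _ => c) :=
  (single 0 c).congr (by simp)

lemma one : TP 0 1 (fun _ => 1) := const 1

lemma add {lo hi : ℤ} {f g : ℝ → ℂ} (hf : TP lo hi f) (hg : TP lo hi g) :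
    TP lo hi (fun θ => f θ + g θ) := by
  obtain ⟨ι, S, n, c, hn, hf⟩ := hf
  obtain ⟨ι', S', n', c', hn', hg⟩ := hg
  refine ⟨ι ⊕ ι', S.disjSum S', Sum.elim n n', Sum.elim c c', ?_, fun θ => ?_⟩
  · rintro (i | i) hi
    · exact hn i (by simpa using hi)
    · exact hn' i (by simpa using hi)
  · beta_reduce
    rw [Finset.sum_disjSum, hf, hg]; rfl

lemma const_mul {lo hi : ℤ} {f : ℝ → ℂ} (hf : TP lo hi f) (a : ℂ) :
    TP lo hi (fun θ => a * f θ) := by
  obtain ⟨ι, S, n, c, hn, hf⟩ := hf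
  refine ⟨ι, S, n, fun i => a * c i, hn, fun θ => ?_⟩
  beta_reduce
  rw [hf, Finset.mul_sum]; exact Finset.sum_congr rfl fun i _ => by ring

lemma mul_const {lo hi : ℤ} {f : ℝ → ℂ} (hf : TP lo hi f) (a : ℂ) :
    TP lo hi (fun θ => f θ * a) := (hf.const_mul a).congr fun θ => mul_comm _ _

lemma div_const {lo hi : ℤ} {f : ℝ → ℂ} (hf : TP lo hi f) (a : ℂ) :
    TP lo hi (fun θ => f θ / a) := (hf.mul_const a⁻¹).congr fun θ => div_eq_mul_inv _ _

lemma sub {lo hi : ℤ} {f g : ℝ → ℂ} (hf : TP lo hi f) (hg : TP lo hi g) :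
    TP lo hi (fun θ => f θ - g θ) :=
  (hf.add (hg.const_mul (-1))).congr fun θ => by ring

lemma sum {σ : Type*} {lo hi : ℤ} (S : Finset σ) {f : σ → ℝ → ℂ} (hf : ∀ s ∈ S, TP lo hi (f s)) :
    TP lo hi (fun θ => ∑ s ∈ S, f s θ) := by
  classical
  induction S using Finset.induction_on with
  | empty => exact (zero lo hi).congr (by simp)
  | insert a S ha ih =>
    exact ((hf a (Finset.mem_insert_self _ _)).add
      (ih fun s hs => hf s (Finset.mem_insert_of_mem hs))).congr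
      fun θ => Finset.sum_insert ha

lemma mul {lo hi lo' hi' : ℤ} {f g : ℝ → ℂ} (hf : TP lo hi f) (hg : TP lo' hi' g) :
    TP (lo + lo') (hi + hi' - 1) (fun θ => f θ * g θ) := by
  obtain ⟨ι, S, n, c, hn, hf⟩ := hf
  obtain ⟨ι', S', n', c', hn', hg⟩ := hg
  refine ⟨ι × ι', S ×ˢ S', fun x => n x.1 + n' x.2, fun x => c x.1 * c' x.2, ?_, fun θ => ?_⟩
  · rintro ⟨i, j⟩ hij
    rw [Finset.mem_product] at hij
    have h1 := hn i hij.1
    have h2 := hn' j hij.2
    constructor <;> simp only <;> omega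
  · beta_reduce
    rw [hf, hg, Finset.sum_mul_sum, Finset.sum_product]
    refine Finset.sum_congr rfl fun i _ => Finset.sum_congr rfl fun j _ => ?_
    push_cast
    rw [add_mul, e_add]; ring

lemma continuous {lo hi : ℤ} {f : ℝ → ℂ} (hf : TP lo hi f) : Continuous f := by
  obtain ⟨ι, S, n, c, -, hf⟩ := hf
  have : f = fun θ => ∑ i ∈ S, c i * e (n i * θ) := funext hf
  rw [this]; fun_prop

lemma e_sub_one : TP 0 2 (fun θ => e θ - 1) :=
  (((single 1 1).mono (by norm_num) (by norm_num)).sub (one.mono le_rfl (by norm_num))).congr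
    (by simp)

/-- functions with frequencies in disjoint windows are orthogonal. -/
lemma inner_eq_zero {lo hi lo' hi' : ℤ} {f g : ℝ → ℂ} (hf : TP lo hi f) (hg : TP lo' hi' g)
    (h : hi ≤ lo' ∨ hi' ≤ lo) :
    ∫ θ in (0 : ℝ)..1, f θ * (starRingEnd ℂ) (g θ) = 0 := by
  obtain ⟨ι, S, n, c, hn, hf⟩ := hf
  obtain ⟨ι', S', n', c', hn', hg⟩ := hg
  have h1 : ∀ θ : ℝ, f θ * (starRingEnd ℂ) (g θ)
      = ∑ i ∈ S, ∑ j ∈ S', c i * (starRingEnd ℂ) (c' j) * e (((n i - n' j : ℤ) : ℝ) * θ) := by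
    intro θ
    rw [hf, hg, map_sum, Finset.sum_mul_sum]
    refine Finset.sum_congr rfl fun i _ => Finset.sum_congr rfl fun j _ => ?_
    push_cast
    rw [sub_mul, e_sub, map_mul]; ring
  simp_rw [h1]
  rw [intervalIntegral.integral_finsetSum (fun j _ => by
    apply Continuous.intervalIntegrable; fun_prop)]
  refine Finset.sum_eq_zero fun i hi => ?_
  rw [intervalIntegral.integral_finsetSum (fun j _ => by
    apply Continuous.intervalIntegrable; fun_prop)]
  refine Finset.sum_eq_zero fun j hj => ?_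
  rw [intervalIntegral.integral_const_mul]
  have h2 := integral_e_int (n i - n' j) 0
  rw [zero_add] at h2
  have h3 := hn i hi
  have h4 := hn' j hj
  rw [h2, if_neg (by omega), mul_zero]

/-- Pythagoras for consecutive windows of length `H`. -/
lemma orth (lo H : ℤ) (q : ℕ) (a : ℕ → ℝ → ℂ)
    (ha : ∀ j < q, TP (lo + j * H) (lo + j * H + H) (a j)) (hH : 0 ≤ H) :
    ∫ θ in (0 : ℝ)..1, ‖∑ j ∈ range q, a j θ‖ ^ 2
      = ∑ j ∈ range q, ∫ θ in (0 : ℝ)..1, ‖a j θ‖ ^ 2 := by
  have hc : ∀ j ∈ range q, Continuous (a j) := fun j hj => (ha j (Finset.mem_range.mp hj)).continuous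
  apply Complex.ofReal_injective
  push_cast
  simp_rw [← intervalIntegral.integral_ofReal]
  have h1 : ∀ z : ℂ, ((‖z‖ ^ 2 : ℝ) : ℂ) = z * (starRingEnd ℂ) z := fun z => by
    rw [Complex.mul_conj, Complex.normSq_eq_norm_sq]
  simp_rw [h1, map_sum, Finset.sum_mul_sum]
  rw [intervalIntegral.integral_finsetSum (fun j hj => by
    apply Continuous.intervalIntegrable
    exact continuous_finsetSum _ fun l hl =>
      (hc j hj).mul (Complex.continuous_conj.comp (hc l hl)))]
  refine Finset.sum_congr rfl fun j hj => ?_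
  rw [intervalIntegral.integral_finsetSum (fun l hl => by
    apply Continuous.intervalIntegrable
    exact (hc j hj).mul (Complex.continuous_conj.comp (hc l hl)))]
  rw [Finset.sum_eq_single j]
  · intro l hl hlj
    refine inner_eq_zero (ha j (Finset.mem_range.mp hj)) (ha l (Finset.mem_range.mp hl)) ?_
    rcases lt_or_gt_of_ne hlj with h | h
    · right
      have : (l : ℤ) + 1 ≤ j := by exact_mod_cast h
      nlinarith
    · left
      have : (j : ℤ) + 1 ≤ l := by exact_mod_cast h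
      nlinarith
  · intro h; exact absurd hj h

lemma integral_e_mul_periodic (H : ℕ) (hH : 0 < H) (k : ℤ) (hk : |k| < H) (Ψ : ℝ → ℂ)
    (hΨ : Function.Periodic Ψ 1) (hi : IntervalIntegrable Ψ volume 0 1) :
    ∫ θ in (0 : ℝ)..1, e (k * θ) * Ψ (H * θ) = if k = 0 then ∫ φ in (0 : ℝ)..1, Ψ φ else 0 := by
  have hHR : (0 : ℝ) < H := by exact_mod_cast hH
  split_ifs with h
  · subst h
    simp only [Int.cast_zero, zero_mul, e_zero, one_mul]
    rw [intervalIntegral.integral_comp_mul_left _ hHR.ne']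
    have h1 := hΨ.intervalIntegral_add_zsmul_eq (H : ℤ) 0
      (fun a b => hΨ.intervalIntegrable₀ one_ne_zero hi a b)
    simp only [zero_add, zsmul_eq_mul, Int.cast_natCast, mul_one] at h1
    rw [mul_zero, mul_one, h1, Complex.real_smul]
    have : (H : ℂ) ≠ 0 := by exact_mod_cast hH.ne'
    push_cast; field_simp
  · have hper : Function.Periodic (fun θ : ℝ => e (k * θ) * Ψ (H * θ)) 1 := by
      intro θ
      simp only
      rw [mul_add, mul_add, mul_one, mul_one, e_add_int]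
      congr 1
      have := hΨ.nat_mul H (H * θ)
      simpa using this
    have h1 := hper.intervalIntegral_add_eq 0 (1 / H)
    have h2 : ∫ θ in (1 / H : ℝ)..1 / H + 1, e (k * θ) * Ψ (H * θ)
        = e (k / H) * ∫ θ in (0 : ℝ)..1, e (k * θ) * Ψ (H * θ) := by
      rw [← intervalIntegral.integral_const_mul]
      have h3 := intervalIntegral.integral_comp_add_right (a := 0) (b := 1)
        (fun θ : ℝ => e (k * θ) * Ψ (H * θ)) (1 / H)
      rw [zero_add, add_comm 1] at h3
      rw [← h3]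
      refine intervalIntegral.integral_congr fun θ _ => ?_
      have h4 : (H : ℝ) * (θ + 1 / H) = H * θ + 1 := by field_simp
      rw [h4, hΨ, ← mul_assoc, ← e_add]
      congr 2; ring
    rw [zero_add, h2] at h1
    have h5 : e (k / H) ≠ 1 := by
      rw [Ne, e_eq_one_iff]
      rintro ⟨m, hm⟩
      have h6 : (k : ℝ) = H * m := by field_simp at hm; linarith
      have h7 : k = H * m := by exact_mod_cast h6
      have h8 : m ≠ 0 := by rintro rfl; simp at h7; exact h h7
      rw [h7, abs_mul] at hk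
      have h9 : 1 ≤ |m| := Int.one_le_abs h8
      have h10 : |(H : ℤ)| = H := abs_of_nonneg (by positivity)
      rw [h10] at hk
      have : (0 : ℤ) < H := by exact_mod_cast hH
      nlinarith
    have h11 : (1 - e (k / H)) * ∫ θ in (0 : ℝ)..1, e (k * θ) * Ψ (H * θ) = 0 := by
      linear_combination h1
    rcases mul_eq_zero.mp h11 with h12 | h12
    · exact absurd (by linear_combination -h12) h5
    · exact h12

/-- exact decoupling of a polynomial weight from a function of `H θ`. -/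
lemma decouple {lo : ℤ} (H : ℕ) (hH : 0 < H) {g : ℝ → ℂ} (hg : TP lo (lo + H) g) (Ψ : ℝ → ℝ)
    (hΨ : Function.Periodic Ψ 1) (hi : IntervalIntegrable Ψ volume 0 1) :
    ∫ θ in (0 : ℝ)..1, ‖g θ‖ ^ 2 * Ψ (H * θ)
      = (∫ θ in (0 : ℝ)..1, ‖g θ‖ ^ 2) * ∫ φ in (0 : ℝ)..1, Ψ φ := by
  obtain ⟨ι, S, n, c, hn, hg⟩ := hg
  have hHR : (0 : ℝ) < H := by exact_mod_cast hH
  have key : ∀ Φ : ℝ → ℝ, Function.Periodic Φ 1 → IntervalIntegrable Φ volume 0 1 →
      ((∫ θ in (0 : ℝ)..1, ‖g θ‖ ^ 2 * Φ (H * θ) : ℝ) : ℂ)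
      = (∑ i ∈ S, ∑ j ∈ S, if n i - n j = 0 then c i * (starRingEnd ℂ) (c j) else 0)
        * ((∫ φ in (0 : ℝ)..1, Φ φ : ℝ) : ℂ) := by
    intro Φ hΦ hΦi
    have hΦc : Function.Periodic (fun φ => (Φ φ : ℂ)) 1 := fun φ => by simp [hΦ φ]
    have hΦci : IntervalIntegrable (fun φ => (Φ φ : ℂ)) volume 0 1 :=
      ⟨hΦi.1.ofReal, hΦi.2.ofReal⟩
    have hcomp : IntervalIntegrable (fun θ : ℝ => (Φ (H * θ) : ℂ)) volume 0 1 := by
      have h1 := (hΦc.intervalIntegrable₀ one_ne_zero hΦci 0 H).comp_mul_left (c := (H : ℝ))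
      simpa [hHR.ne'] using h1
    rw [← intervalIntegral.integral_ofReal, ← intervalIntegral.integral_ofReal]
    have h1 : ∀ θ : ℝ, ((‖g θ‖ ^ 2 * Φ (H * θ) : ℝ) : ℂ) = ∑ i ∈ S, ∑ j ∈ S,
        c i * (starRingEnd ℂ) (c j) * (e (((n i - n j : ℤ) : ℝ) * θ) * (Φ (H * θ) : ℂ)) := by
      intro θ
      rw [Complex.ofReal_mul, hg, normSq_sum_e, Finset.sum_mul]
      refine Finset.sum_congr rfl fun i _ => ?_
      rw [Finset.sum_mul]
      refine Finset.sum_congr rfl fun j _ => ?_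
      push_cast
      rw [sub_mul]; ring
    have hint : ∀ i j, IntervalIntegrable (fun θ : ℝ => c i * (starRingEnd ℂ) (c j) *
        (e (((n i - n j : ℤ) : ℝ) * θ) * (Φ (H * θ) : ℂ))) volume 0 1 := fun i j =>
      (hcomp.continuousOn_mul (by fun_prop)).const_mul _
    simp_rw [h1]
    rw [intervalIntegral.integral_finsetSum (fun i _ => by
      have := IntervalIntegrable.sum S (fun j _ => hint i j)
      rw [Finset.sum_fn] at this
      exact this), Finset.sum_mul]
    refine Finset.sum_congr rfl fun i hi => ?_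
    rw [intervalIntegral.integral_finsetSum (fun j _ => hint i j), Finset.sum_mul]
    refine Finset.sum_congr rfl fun j hj => ?_
    have h3 := hn i hi
    have h4 := hn j hj
    rw [intervalIntegral.integral_const_mul,
      integral_e_mul_periodic H hH _ (by rw [abs_lt]; omega) _ hΦc hΦci]
    split_ifs <;> simp
  apply Complex.ofReal_injective
  have h1 := key (fun _ => 1) (fun _ => rfl) intervalIntegrable_const
  simp only [mul_one, intervalIntegral.integral_const, sub_zero, smul_eq_mul,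
    Complex.ofReal_one] at h1
  rw [key Ψ hΨ hi, Complex.ofReal_mul, h1]

/-- uniform approximation of a continuous function with equal end values. -/
lemma approx (c : ℝ → ℂ) (hc : Continuous c) (h01 : c 0 = c 1) {κ : ℝ} (hκ : 0 < κ) :
    ∃ (D : ℕ) (p : ℝ → ℂ), TP (-D) D p ∧ ∀ θ ∈ Set.Icc (0 : ℝ) 1, ‖p θ - c θ‖ ≤ κ := by
  have hf : ∀ (n : ℤ) (x : ℝ), fourier n (x : AddCircle (1 : ℝ)) = e (n * x) := by
    intro n x
    rw [fourier_coe_apply]
    unfold e
    congr 1
    push_cast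
    ring
  have hcont : Continuous (AddCircle.liftIco (1 : ℝ) 0 c) :=
    AddCircle.liftIco_zero_continuous h01 hc.continuousOn
  set G : C(AddCircle (1 : ℝ), ℂ) := ⟨_, hcont⟩ with hG
  have hGx : ∀ θ ∈ Set.Icc (0 : ℝ) 1, G (θ : AddCircle (1 : ℝ)) = c θ := by
    intro θ hθ
    rcases eq_or_lt_of_le hθ.2 with h | h
    · have : ((θ : ℝ) : AddCircle (1 : ℝ)) = ((0 : ℝ) : AddCircle (1 : ℝ)) := by
        rw [h]; simp
      rw [this, h, ← h01]
      exact AddCircle.liftIco_zero_coe_apply (by simp)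
    · exact AddCircle.liftIco_zero_coe_apply ⟨hθ.1, h⟩
  have hmem : G ∈ (Submodule.span ℂ (Set.range (@fourier 1))).topologicalClosure := by
    rw [span_fourier_closure_eq_top]; trivial
  obtain ⟨g, hg, hdist⟩ := Metric.mem_closure_iff.1 hmem κ hκ
  obtain ⟨a, rfl⟩ := Finsupp.mem_span_range_iff_exists_finsupp.1 hg
  refine ⟨a.support.sup Int.natAbs + 1, fun θ => ∑ j ∈ a.support, a j * e (j * θ),
    ⟨ℤ, a.support, id, a, fun j hj => ?_, fun θ => rfl⟩, fun θ hθ => ?_⟩
  · have : j.natAbs ≤ a.support.sup Int.natAbs := le_sup (f := Int.natAbs) hj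
    simp only [id]
    omega
  · have h1 := (ContinuousMap.dist_apply_le_dist (f := G)
      (g := a.sum fun i b => b • fourier i) (θ : AddCircle (1 : ℝ))).trans hdist.le
    rw [dist_comm, dist_eq_norm, hGx θ hθ, Finsupp.sum] at h1
    simpa only [ContinuousMap.coe_sum, Finset.sum_apply,
      ContinuousMap.coe_smul, Pi.smul_apply, smul_eq_mul, hf] using h1

end TP

end Vale.Agent.P130
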